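import Mathlib

/-! # P014Y, block W1: the lift of `GL₂(𝔽₃)` to characteristic zero -/

set_option autoImplicit false
set_option linter.all false

open Matrix

namespace Vale.Agent.P014Y.W1

/-- the ring of coefficients -/
abbrev O2 : Type := ℤ√(-2)

/-- the table -/
def en (i k : ℕ) : ℤ := ((0x6db6db5237628da69b52371a6db6db8da89269449d6946dc6db6db6936946db6db69c69b6db6db6934dc69c4e476291a7629196db6db8d26945247626db6db5247238d28936db6db69b6da69b49c6db6db7238da6db6db71a8d26db6db72372271a71b65449d65449c6db6db6db6db89369c4dc5248936546db6db4dc71b7226da7229196db6db4e45238926936db6db8926544e47226db6db71b91a71b6dc6db6db91a8da6da69349d5246da71a91a89349d4e46db6db6db6db6db6db49c5236dc69c9198d26dc72349c4dc9198926db6db6db6db6db6db6db6db6db6db6db6db6db6db6db6db6db6db6db6db6db6db6db6db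
  >>> (3 * (8 * i + k))) % 8 : ℕ) - 3

/-- an entry -/
def ez (a b c d : ZMod 3) (k : ℕ) : O2 :=
  ⟨en (a.val + 3 * b.val + 9 * c.val + 27 * d.val) (2 * k),
    en (a.val + 3 * b.val + 9 * c.val + 27 * d.val) (2 * k + 1)⟩

/-- the matrix of the table -/
def tb (x : Matrix (Fin 2) (Fin 2) (ZMod 3)) : Matrix (Fin 2) (Fin 2) O2 :=
  !![ez (x 0 0) (x 0 1) (x 1 0) (x 1 1) 0, ez (x 0 0) (x 0 1) (x 1 0) (x 1 1) 1;
    ez (x 0 0) (x 0 1) (x 1 0) (x 1 1) 2, ez (x 0 0) (x 0 1) (x 1 0) (x 1 1) 3]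

theorem ez_mul : ∀ a b c d : ZMod 3, (b = 0 ∧ c = 0) ∨ (a = 1 ∧ d = 1 ∧ (b = 0 ∨ c = 0)) →
    ∀ a' b' c' d' : ZMod 3,
    ez (a * a' + b * c') (a * b' + b * d') (c * a' + d * c') (c * b' + d * d') 0 =
      ez a b c d 0 * ez a' b' c' d' 0 + ez a b c d 1 * ez a' b' c' d' 2 ∧
    ez (a * a' + b * c') (a * b' + b * d') (c * a' + d * c') (c * b' + d * d') 1 =
      ez a b c d 0 * ez a' b' c' d' 1 + ez a b c d 1 * ez a' b' c' d' 3 ∧
    ez (a * a' + b * c') (a * b' + b * d') (c * a' + d * c') (c * b' + d * d') 2 =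
      ez a b c d 2 * ez a' b' c' d' 0 + ez a b c d 3 * ez a' b' c' d' 2 ∧
    ez (a * a' + b * c') (a * b' + b * d') (c * a' + d * c') (c * b' + d * d') 3 =
      ez a b c d 2 * ez a' b' c' d' 1 + ez a b c d 3 * ez a' b' c' d' 3 := by
  decide +kernel

theorem tb_mul0 {x : Matrix (Fin 2) (Fin 2) (ZMod 3)}
    (h : (x 0 1 = 0 ∧ x 1 0 = 0) ∨ (x 0 0 = 1 ∧ x 1 1 = 1 ∧ (x 0 1 = 0 ∨ x 1 0 = 0))) (y) :
    tb (x * y) = tb x * tb y := by
  obtain ⟨h0, h1, h2, h3⟩ := ez_mul _ _ _ _ h (y 0 0) (y 0 1) (y 1 0) (y 1 1)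
  simp only [tb, mul_apply, Fin.sum_univ_two, mul_fin_two, h0, h1, h2, h3]

theorem tb_mul (x : Matrix (Fin 2) (Fin 2) (ZMod 3)) : ∀ y, tb (x * y) = tb x * tb y := by
  haveI : Fact (Nat.Prime 3) := ⟨Nat.prime_three⟩
  refine diagonal_transvection_induction (fun x => ∀ y, tb (x * y) = tb x * tb y) x
    (fun D _ => tb_mul0 (.inl (by simp))) (fun t => tb_mul0 (.inr ?_))
    fun A B a b y => by rw [mul_assoc, a, b, a, mul_assoc]
  obtain ⟨i, j, h, c⟩ := t
  fin_cases i <;> fin_cases j <;> first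
    | exact (h rfl).elim
    | simp [TransvectionStruct.toMatrix, transvection]

/-- **the lift** (singular matrices go to zero) -/
def lf : Matrix (Fin 2) (Fin 2) (ZMod 3) →* Matrix (Fin 2) (Fin 2) O2 where
  toFun := tb
  map_one' := by
    rw [one_fin_two (α := O2)]
    decide +kernel
  map_mul' := tb_mul

/-- the reduction at the prime `1 + √-2` -/
def rd : O2 →+* ZMod 3 := Zsqrtd.lift ⟨-1, by decide⟩

theorem rd_apply (z : O2) : rd z = z.re - z.im := by
  simp [rd, sub_eq_add_neg]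

/-- the multiplicative lift of the residues -/
def tm (x : ZMod 3) : ℤ := x.valMinAbs

theorem tm_mul : ∀ x y, tm (x * y) = tm x * tm y := by decide

theorem tm_cast (x : ZMod 3) : (tm x : ZMod 3) = x := ZMod.coe_valMinAbs x

theorem ez_all : ∀ a b c d : ZMod 3,
    ez a b c d 0 * ez a b c d 3 - ez a b c d 1 * ez a b c d 2 = tm (a * d - b * c) ∧
    ez a b c d 0 + ez a b c d 3 = (if a * d - b * c = 1 then
      if b = 0 ∧ c = 0 then ⟨2 * tm a, 0⟩ else ⟨tm (a + d), 0⟩ else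
      if a * d - b * c = 0 then 0 else ⟨0, -tm (a + d)⟩) ∧
    (a * d - b * c ≠ 0 → ∀ k : Fin 4, (((ez a b c d k).re : ℤ) : ZMod 3) - (ez a b c d k).im =
      ![a, b, c, d] k) := by
  decide +kernel

variable (x : Matrix (Fin 2) (Fin 2) (ZMod 3))

theorem lf_det : (lf x).det = tm x.det := by
  rw [det_fin_two, det_fin_two]
  exact (ez_all _ _ _ _).1

/-- the character table -/
theorem lf_trace : (lf x).trace = if x.det = 1 then
    if x 0 1 = 0 ∧ x 1 0 = 0 then ⟨2 * tm (x 0 0), 0⟩ else ⟨tm x.trace, 0⟩ else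
    if x.det = 0 then 0 else ⟨0, -tm x.trace⟩ := by
  rw [trace_fin_two, trace_fin_two, det_fin_two]
  exact (ez_all _ _ _ _).2.1

theorem lf_rd (h : x.det ≠ 0) : (lf x).map rd = x := by
  rw [det_fin_two] at h
  have e := (ez_all _ _ _ _).2.2 h
  ext i j
  rw [map_apply, rd_apply]
  fin_cases i <;> fin_cases j
  exacts [e 0, e 1, e 2, e 3]

theorem lf_norm : (lf x).trace.norm ≤ 4 := by
  have h : ∀ t, tm t * tm t ≤ 1 := by decide
  rw [lf_trace]
  split_ifs <;> simp only [Zsqrtd.norm_def, Zsqrtd.norm_zero]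
  · nlinarith [h (x 0 0)]
  · nlinarith [h x.trace]
  · norm_num
  · nlinarith [h x.trace]

theorem lf_star : star (lf x).trace = (lf x).det * (lf x).trace := by
  have h : ∀ t : ZMod 3, t ≠ 1 → t ≠ 0 → tm t = -1 := by decide
  rw [lf_det, lf_trace]
  split_ifs with a b c
  · rw [a]; ext <;> simp [show tm 1 = 1 from rfl]
  · rw [a]; ext <;> simp [show tm 1 = 1 from rfl]
  · simp
  · rw [h _ a c]; ext <;> simp

theorem lf_two (h : x.det = 1) (t : (lf x).trace = 2) : x = 1 := by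
  have k : ∀ t, tm t ≠ 2 := by decide
  have k2 : ∀ a d : ZMod 3, 2 * tm a = 2 → a * d = 1 → a = 1 ∧ d = 1 := by decide
  rw [lf_trace, if_pos h] at t
  split_ifs at t with b
  · rw [det_fin_two, b.1, zero_mul, sub_zero] at h
    obtain ⟨e, e'⟩ := k2 _ _ (congrArg Zsqrtd.re t) h
    rw [eta_fin_two x, b.1, b.2, e, e', one_fin_two]
  · exact (k _ (congrArg Zsqrtd.re t)).elim

end Vale.Agent.P014Y.W1
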