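import Vale.Agent.P022.H933.St.Def
import Vale.Agent.P022.H20.GalDef
import Vale.Agent.P022.H431.Sv.StDef
import Vale.Agent.P014Y.W1.Lf

/-! # P014Y, block W1: the lifted representation occurs at an odd level -/

set_option autoImplicit false
set_option linter.all false

open Matrix NumberField

noncomputable section

namespace Vale.Agent.P014Y.W1

open Vale.Agent.P022

theorem sq_ne {x y : ℚ_[2]} (h : ‖x‖ ^ 2 = ‖y‖ ^ 2 * 2⁻¹) : y = 0 := by
  by_contra y0
  have x0 : x ≠ 0 := by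
    rintro rfl
    have := norm_pos_iff.2 y0
    rw [norm_zero] at h
    nlinarith [pow_pos this 2]
  rw [Padic.norm_eq_zpow_neg_valuation x0, Padic.norm_eq_zpow_neg_valuation y0, Nat.cast_ofNat,
    ← zpow_natCast, ← zpow_natCast, ← _root_.zpow_mul, ← _root_.zpow_mul, ← zpow_sub_one₀ two_ne_zero,
    zpow_right_inj₀ two_pos (by norm_num)] at h
  omega

theorem n2 : ‖(2 : ℚ_[2])‖ = 2⁻¹ := by simpa using Padic.norm_p (p := 2)

instance fct : Fact (∀ r : ℚ_[2], r ^ 2 ≠ -2 + 0 * r) := ⟨fun r e => one_ne_zero (α := ℚ_[2])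
  (sq_ne (x := r) (by rw [← norm_pow, e]; simp [n2]))⟩

/-- the field of coefficients -/
def E2 : Type := QuadraticAlgebra ℚ_[2] (-2) 0

instance : NontriviallyNormedField E2 :=
  spectralNorm.nontriviallyNormedField ℚ_[2] (QuadraticAlgebra ℚ_[2] (-2) 0)

instance : NormedAlgebra ℚ_[2] E2 :=
  spectralNorm.normedAlgebra ℚ_[2] (QuadraticAlgebra ℚ_[2] (-2) 0)

instance : FiniteDimensional ℚ_[2] E2 :=
  inferInstanceAs (Module.Finite ℚ_[2] (QuadraticAlgebra ℚ_[2] (-2) 0))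

instance : IsUltrametricDist E2 := IsUltrametricDist.of_normedAlgebra ℚ_[2]

instance : CharZero E2 := charZero_of_injective_algebraMap (algebraMap ℚ_[2] E2).injective

/-- the square root -/
def s2 : E2 := (QuadraticAlgebra.omega : QuadraticAlgebra ℚ_[2] (-2) 0)

theorem s2_sq : s2 * s2 = -2 := by
  have := QuadraticAlgebra.omega_mul_omega_eq_add (R := ℚ_[2]) (a := -2) (b := 0)
  rw [zero_smul, add_zero, ← Algebra.algebraMap_eq_smul_one, map_neg, map_ofNat] at this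
  exact this

theorem ex_xy (z : E2) : ∃ x y : ℚ_[2], z = algebraMap _ _ x + y • s2 :=
  ⟨_, _, QuadraticAlgebra.mk_eq_add_smul_omega (R := ℚ_[2]) (a := -2) (b := 0) z.re z.im⟩

theorem nE : ‖(2 : E2)‖ = 2⁻¹ := by
  rw [← map_ofNat (algebraMap ℚ_[2] E2), norm_algebraMap', n2]

theorem ns : ‖s2‖ ^ 2 = 2⁻¹ := by rw [sq, ← norm_mul, s2_sq, norm_neg, nE]

theorem norm_xy (x y : ℚ_[2]) : ‖algebraMap _ E2 x + y • s2‖ = max ‖x‖ (‖y‖ * ‖s2‖) := by
  rcases eq_or_ne y 0 with rfl | y0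
  · simp
  rw [IsUltrametricDist.norm_add_eq_max_of_norm_ne_norm, norm_algebraMap', norm_smul]
  rw [norm_algebraMap', norm_smul]
  exact fun e => y0 (sq_ne (x := x) (by rw [e, mul_pow, ns]))

theorem resTwo : St.ResTwo E2 := fun z hz => by
  obtain ⟨x, y, rfl⟩ := ex_xy z
  rw [norm_xy, max_le_iff] at hz
  have y1 : ‖y‖ * ‖s2‖ < 1 := hz.2.lt_of_ne fun e => by
    have := sq_ne (x := 1) (y := y) (by rw [← ns, ← mul_pow, e, norm_one])
    simp [this] at e
  rw [add_sub_right_comm, ← map_one (algebraMap ℚ_[2] E2), ← map_sub, norm_xy, norm_xy,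
    max_lt_iff, max_lt_iff, and_iff_left y1, and_iff_left y1]
  obtain ⟨z, rfl⟩ : ∃ z : ℤ_[2], (z : ℚ_[2]) = x := ⟨⟨x, hz.1⟩, rfl⟩
  obtain ⟨n, hn, h⟩ := PadicInt.exists_mem_range z
  rw [IsLocalRing.mem_maximalIdeal, PadicInt.mem_nonunits, PadicInt.norm_def, PadicInt.coe_sub,
    PadicInt.coe_natCast] at h
  interval_cases n
  · left
    simpa using h
  · right
    simpa using h

/-- the embedding of the coefficients -/
def nu : O2 →+* E2 := Zsqrtd.lift ⟨s2, by simpa using s2_sq⟩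

theorem nu_norm (z : O2) : ‖nu z‖ = max ‖(z.re : ℚ_[2])‖ (‖(z.im : ℚ_[2])‖ * ‖s2‖) := by
  rw [← norm_xy, Algebra.smul_def, map_intCast, map_intCast]
  rfl

theorem s2_le : ‖s2‖ ≤ 1 := by nlinarith [ns, norm_nonneg s2]

theorem nu_le (z : O2) : ‖nu z‖ ≤ 1 := by
  rw [nu_norm]
  exact max_le (Padic.norm_int_le_one _)
    (mul_le_one₀ (Padic.norm_int_le_one _) (norm_nonneg _) s2_le)

theorem nu_dvd {z : O2} {j : ℕ} (h : ‖nu z‖ ≤ 2⁻¹ ^ (j + 1)) : 2 ^ j ∣ z := by
  have e : ∀ x : ℤ, ‖(x : ℚ_[2])‖ ≤ 2⁻¹ ^ j → (2 : ℤ) ^ j ∣ x := fun x a => by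
    simpa using (Padic.norm_int_le_pow_iff_dvd (p := 2) x j).1 (by simpa using a)
  have p : (0 : ℝ) < 2⁻¹ ^ j := by positivity
  have s : 2⁻¹ ≤ ‖s2‖ := by nlinarith [ns, norm_nonneg s2, s2_le]
  rw [nu_norm, max_le_iff, pow_succ] at h
  have := (Zsqrtd.intCast_dvd (2 ^ j) z).2 ⟨e _ (by linarith [h.1]),
    e _ (by nlinarith [h.2, norm_nonneg (z.im : ℚ_[2])])⟩
  simpa using this

theorem nu_two (j : ℕ) (z : O2) : ‖nu (2 ^ j * z)‖ ≤ 2⁻¹ ^ j := by
  rw [map_mul, map_pow, map_ofNat, norm_mul, norm_pow, nE]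
  exact mul_le_of_le_one_right (by positivity) (nu_le z)

theorem nu_inj : Function.Injective nu := (injective_iff_map_eq_zero _).2 fun z h => by
  have e := congrArg norm h
  have s : 0 < ‖s2‖ := by nlinarith [ns, norm_nonneg s2, s2_le]
  rw [nu_norm, norm_zero] at e
  have e1 : ‖(z.re : ℚ_[2])‖ ≤ 0 := (le_max_left _ _).trans e.le
  have e2 : ‖(z.im : ℚ_[2])‖ ≤ 0 := nonpos_of_mul_nonpos_left ((le_max_right _ _).trans e.le) s
  ext
  · simpa using e1
  · simpa using e2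

/-- occurrence of the representations over `E2` -/
def Q1E : Prop := ∀ r : GQ →* GL (Fin 2) E2, Continuous r → St.OddRep r → St.AbsIrr r →
  {p : ℕ | p.Prime ∧ ¬ St.UnrAt r p}.Finite → St.Q1Concl r

/-- the residual representation: continuous, odd, not commutative, unramified outside `D`, with
cyclotomic determinant -/
structure Rs (ρ : GQ →* Matrix (Fin 2) (Fin 2) (ZMod 3)) (D : ℕ) : Prop where
  opn : IsOpen {g | ρ g = 1}
  odd : ∀ c, IsConj c → (ρ c).det = -1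
  nc : ∃ g h, ρ g * ρ h ≠ ρ h * ρ g
  unr : ∀ l : ℕ, l.Prime → ¬ l ∣ D → ∀ P : Ideal (𝓞 Qb), P.IsPrime → (l : 𝓞 Qb) ∈ P →
    ∀ g : GQ, (∀ x : 𝓞 Qb, g • x - x ∈ P) → ρ g = 1
  det : ∀ l : ℕ, l.Prime → ¬ l ∣ D → ∀ g, IsFrob l g → (ρ g).det = l

/-- the lifted representation with values in any ring -/
def sg {R : Type} [CommRing R] (φ : O2 →+* R) (ρ : GQ →* Matrix (Fin 2) (Fin 2) (ZMod 3)) :
    GQ →* GL (Fin 2) R :=
  (φ.mapMatrix.toMonoidHom.comp (lf.comp ρ)).toHomUnits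

variable {R : Type} [CommRing R] (φ : O2 →+* R) {ρ : GQ →* Matrix (Fin 2) (Fin 2) (ZMod 3)}
  {D : ℕ}

theorem sg_coe (g : GQ) : (sg φ ρ g : Matrix (Fin 2) (Fin 2) R) = (lf (ρ g)).map φ := rfl

theorem sg_trace (g : GQ) : (sg φ ρ g : Matrix (Fin 2) (Fin 2) R).trace = φ (lf (ρ g)).trace := by
  simp [sg_coe, trace_fin_two]

theorem sg_det (g : GQ) : (sg φ ρ g : Matrix (Fin 2) (Fin 2) R).det = tm (ρ g).det := by
  rw [sg_coe, ← RingHom.mapMatrix_apply, ← RingHom.map_det, lf_det, map_intCast]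

theorem sg_one {g : GQ} (h : ρ g = 1) : sg φ ρ g = 1 :=
  Units.ext (by rw [sg_coe, h, map_one, Matrix.map_one _ φ.map_zero φ.map_one, Units.val_one])

theorem Rs.cont (h : Rs ρ D) : Continuous (sg nu ρ) :=
  continuous_of_continuousAt_one _ (continuousAt_const.congr
    (Filter.mem_of_superset (h.opn.mem_nhds ρ.map_one) fun g e => (sg_one nu e).symm))

theorem Rs.irr {F : Type} [Field F] (h : Rs ρ D) {ψ : O2 →+* F} (hψ : Function.Injective ψ)
    (w : Fin 2 → F) (hw : w ≠ 0) : ∃ g, ∀ a : F, (lf (ρ g)).map ψ *ᵥ w ≠ a • w := by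
  by_contra k
  push Not at k
  choose lam hl using k
  obtain ⟨g, g', n⟩ := h.nc
  have m : ∀ x y, (lf (ρ (x * y))).map ψ *ᵥ w = (lam x * lam y) • w := fun x y => by
    rw [map_mul, map_mul, Matrix.map_mul, ← mulVec_mulVec, hl, mulVec_smul, hl, smul_smul, mul_comm]
  have z : (lf (ρ (g * g' * (g' * g)⁻¹))).map ψ *ᵥ w = w := by
    have e : ∀ x y, lam (x * y) = lam x * lam y := fun x y =>
      smul_left_injective F hw ((hl _).symm.trans (m x y))
    rw [hl, e, e, mul_comm (lam g), ← e, ← e, mul_inv_cancel, ← hl, map_one, map_one,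
      Matrix.map_one _ ψ.map_zero ψ.map_one, one_mulVec]
  have d : (ρ (g * g' * (g' * g)⁻¹)).det = 1 := by
    rw [map_mul, map_mul, det_mul, det_mul, mul_comm (ρ g).det, ← det_mul, ← det_mul, ← map_mul,
      ← map_mul, mul_inv_cancel, map_one, det_one]
  have d1 := lf_det (ρ (g * g' * (g' * g)⁻¹))
  have t := lf_two _ d (hψ (by
    have e := exists_mulVec_eq_zero_iff.1 ⟨w, hw, show ((lf (ρ (g * g' * (g' * g)⁻¹))).map ψ - 1) *ᵥ
      w = 0 by rw [sub_mulVec, z, one_mulVec, sub_self]⟩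
    have e1 := congrArg ψ d1
    rw [d, show tm 1 = 1 from rfl, det_fin_two] at e1
    generalize lf (ρ (g * g' * (g' * g)⁻¹)) = X at e e1 ⊢
    simp only [det_fin_two, Matrix.sub_apply, map_apply, one_apply_eq, one_apply_ne, ne_eq,
      zero_ne_one, one_ne_zero, not_false_eq_true, map_sub, map_mul, Int.cast_one, map_one] at e e1
    rw [trace_fin_two, map_add, map_ofNat]
    linear_combination e1 - e))
  exact n (by rw [← map_mul, ← map_mul, ← inv_mul_cancel_right (g * g') (g' * g), map_mul, t,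
    one_mul])

theorem Rs.q1 (h : Rs ρ D) (hD : D ≠ 0) (q : Q1E) : St.Q1Concl (sg nu ρ) :=
  q _ h.cont (fun c hc => by rw [sg_det, h.odd c hc]; exact Int.cast_negSucc 0 |>.trans (by simp))
    (fun w hw => (h.irr ((algebraMap E2 _).injective.comp nu_inj)
      (ψ := (algebraMap E2 _).comp nu) w hw).imp fun g e a => by
        rw [sg_coe, Matrix.map_map]
        exact e a)
    ((Set.finite_Iic D).subset fun p hp => Nat.le_of_dvd (Nat.pos_of_ne_zero hD) (by_contra fun e =>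
      hp.2 fun P a b g c => sg_one nu (h.unr p hp.1 e P a b g c)))

end Vale.Agent.P014Y.W1
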