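import Vale.Agent.P004M.Qone
import Vale.Agent.P014Y.W1.Gal

/-! # P014Y, block W1: representations over `E2` occur at odd level -/

set_option autoImplicit false

namespace Vale.Agent.P014Y.W1

open Vale.Agent.P022

theorem q1e : Q1E := fun r hc ho hi hS => by
  obtain ⟨k, _, _, _, ρ, hr, hs⟩ := Vale.Agent.P022S.H1.exTwo E2 r hc resTwo
  by_cases h1 : St.IrrCyc ρ
  · exact Vale.Agent.P022D.Top.final (Vale.Agent.P022D.Top.main Vale.Agent.P022D.Fm.formsC)
      _ r hc ho hS k ρ hr hs h1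
  · by_cases ht : ∃ g, (ρ g : Matrix (Fin 2) (Fin 2) k).trace ≠ 0
    · exact Vale.Agent.P022G.finalG _ r hc ho hi hS k ρ hr h1 ht
    · exact Vale.Agent.P022S.H12.finalS _ r hc ho hi hS k ρ hr
        fun g => not_not.1 fun h0 => ht ⟨g, h0⟩

end Vale.Agent.P014Y.W1
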