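import Vale.Agent.P014Y.W1.All0
import Vale.Agent.P014Y.W1.Qone

/-!
# P014Y, block W1: the forms of weight one
-/

namespace Vale.Agent.P014Y.W1

theorem w1 : W1X := w1q q1e

end Vale.Agent.P014Y.W1
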