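import Vale.Agent.P014Y.W1.St
import Vale.Agent.P014Y.W1.Gal
import Vale.Agent.P014Y.Tp.Defs
import Vale.Agent.P014Y.Ln.St0
import Vale.Agent.P014Y.Fe.St
import Vale.Agent.P014Y.Fe.Hk
import Vale.Agent.P004C.Wa.Fri
import Vale.Agent.P022.H20.Frob

/-! # P014Y, block W1: the export -/

set_option autoImplicit false
set_option linter.all false

open Matrix NumberField UpperHalfPlane CongruenceSubgroup
open scoped ComplexConjugate NumberTheorySymbols MatrixGroups ModularForm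

noncomputable section

namespace Vale.Agent.P014Y.W1

open Vale.Agent.P022 Vale.Agent.P022K.UC
open Tp (G3 Rh ts)
open Ln (e3)
open Fe (Eg)
open P004C.Wa (Chr MW QE)
open P004C.Wa.Th (Hd)

/-- **the forms of weight one** of the two lifts -/
def W1X : Prop := ∀ (ρ : GQ → G3) (S : Finset ℕ), Rh ρ S → (∃ g h, ρ g * ρ h ≠ ρ h * ρ g) →
  ∀ s : ℂ, s ^ 2 = -2 → ∃ (M : ℕ) (G G' : ℍ → ℂ) (A : ℕ → ℂ), 0 < M ∧
    (∀ l : ℕ, l.Prime → (l ∣ M ↔ l ∈ S)) ∧
    (∀ l : ℕ, l.Prime → l ∉ S → ∀ g, IsFrob l g → A l = ts s (ρ g) ∧ (ρ g).det = l) ∧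
    (∀ n, ∃ x y : ℤ, A n = x + y * s) ∧
    ∀ m, 0 < m → M ∣ m → (∀ l : ℕ, l.Prime → l ∣ m → l ∈ S) → Hd (fun n => e3 m n) A ∧
      ∃ B B', Eg m (e3 m) G A B ∧ Eg m (e3 m) G' (fun k => conj (A k)) B'

namespace Ex

theorem ex_w : ∃ w : Qb, w ^ 2 + w + 1 = 0 := by
  obtain ⟨s, hs⟩ := IsAlgClosed.exists_pow_nat_eq (-3 : Qb) two_pos
  exact ⟨(s - 1) / 2, by linear_combination hs / 4⟩

variable {ρ : GQ → G3} {S : Finset ℕ}

theorem det_conj (h : Rh ρ S) {c : GQ} (hc : IsConj c) : (ρ c).det = -1 := by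
  obtain ⟨w, hw⟩ := ex_w
  obtain ⟨φ, hφ⟩ := hc
  have e := hφ w
  have e1 : φ w ^ 2 + φ w + 1 = 0 := by simpa using congrArg φ hw
  rw [h.cyc c w (by linear_combination (w - 1) * hw), map_pow] at e
  generalize (ρ c).det = d at e
  generalize φ w = z at e e1
  have i := congrArg Complex.im e
  have r := congrArg Complex.re e1
  have r' := congrArg Complex.re e
  fin_cases d
  · change (z ^ 0).im = _ at i
    change (z ^ 0).re = _ at r'
    simp [sq] at i r r'
    rw [i, ← r'] at r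
    norm_num at r
  · change (z ^ 1).im = _ at i
    simp [sq] at i r
    have : z.im = 0 := by linarith
    rw [this] at r
    nlinarith [sq_nonneg (2 * z.re + 1)]
  · rfl

theorem det_frob (h : Rh ρ S) {l : ℕ} (hl : l.Prime) (hS : l ∉ S) {g : GQ} (hg : IsFrob l g) :
    (ρ g).det = l := by
  obtain ⟨w, hw⟩ := ex_w
  obtain ⟨P, p1, p2, p3⟩ := hg
  have w3 : w ^ 3 = 1 := by linear_combination (w - 1) * hw
  let W : 𝓞 Qb := ⟨w, IsIntegral.of_pow three_pos (by rw [w3]; exact isIntegral_one)⟩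
  have hW : W ^ 2 + W + 1 = 0 := Subtype.ext hw
  have e := p3 W
  rw [show g • W = W ^ (ρ g).det.val from Subtype.ext (h.cyc g w w3),
    pow_eq_pow_mod l (show W ^ 3 = 1 from Subtype.ext w3)] at e
  have n3 : (3 : 𝓞 Qb) ∉ P := fun a => p1.ne_top ((Ideal.eq_top_iff_one _).2 (by
    obtain ⟨x, y, k⟩ : IsCoprime (l : 𝓞 Qb) ((3 : ℕ) : 𝓞 Qb) := Nat.Coprime.cast
      ((Nat.coprime_primes hl Nat.prime_three).2 fun b => hS (b ▸ h.three))
    exact k ▸ add_mem (P.mul_mem_left _ p2) (P.mul_mem_left _ a)))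
  rw [← ZMod.natCast_zmod_val (ρ g).det, ← ZMod.natCast_mod l 3]
  have b1 := ZMod.val_lt (ρ g).det
  have b2 := Nat.mod_lt l three_pos
  generalize (ρ g).det.val = a at e b1
  generalize l % 3 = b at e b2
  by_contra k
  have z : (W ^ (2 * a) - W ^ (2 * b)) * (W ^ a - W ^ b) = 3 := by
    interval_cases a <;> interval_cases b <;> first | exact (k rfl).elim | grind
  exact n3 (z ▸ P.mul_mem_left _ e)

/-- the homomorphism -/
def hm (h : Rh ρ S) : GQ →* G3 := ⟨⟨ρ, h.one⟩, h.mul⟩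

/-- the odd part -/
def od (S : Finset ℕ) : ℕ := ∏ l ∈ S.erase 2, l

theorem two_od (h : Rh ρ S) : 2 * od S = ∏ l ∈ S, l := Finset.mul_prod_erase S (fun l => l) h.two

theorem dvd_prod (h : Rh ρ S) {l : ℕ} (hl : l.Prime) : l ∣ ∏ l ∈ S, l ↔ l ∈ S :=
  ⟨fun e => by
    obtain ⟨p, a, b⟩ := (hl.prime.dvd_finset_prod_iff _).1 e
    rwa [(Nat.prime_dvd_prime_iff_eq hl (h.pr p a)).1 b], Finset.dvd_prod_of_mem _⟩

theorem od_odd (h : Rh ρ S) : Odd (od S) :=
  Finset.prod_induction _ Odd (fun _ _ => Odd.mul) odd_one fun l a =>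
    (h.pr l (Finset.mem_of_mem_erase a)).odd_of_ne_two (Finset.ne_of_mem_erase a)

theorem rs (h : Rh ρ S) (hn : ∃ g h, ρ g * ρ h ≠ ρ h * ρ g) : Rs (hm h) (2 * od S) where
  opn := by
    obtain ⟨W, a, b⟩ := h.opn
    exact Subgroup.isOpen_mono (H₁ := W) (H₂ := (hm h).ker) b a
  odd c := det_conj h
  nc := hn
  unr l a b P p1 p2 g k := h.unr g ⟨l, fun e => b (two_od h ▸ (dvd_prod h a).2 e), P, ⟨a, p1, p2⟩, k⟩
  det l a b g := det_frob h a fun e => b (two_od h ▸ (dvd_prod h a).2 e)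

theorem tm_k3 (x : ℤ) : tm x = k3 x :=
  (by decide : ∀ y : ZMod 3, tm y = quadraticChar (ZMod 3) y) x

theorem k3_J (x : ℤ) : k3 x = J(x | 3) := jacobiSym.legendreSym.to_jacobiSym 3 x

theorem J_star (z : O) : J (star z) = conj (J z) := by
  simp [J_apply]

/-- the square root -/
def s0 : ℂ := -(Complex.I * (√2 : ℝ))

theorem J_tr {x : G3} (h : x.det ≠ 0) : J (lf x).trace = ts s0 x := by
  have k : ∀ a d : ZMod 3, a * d = 1 → (a = 1 ∧ d = 1 ∨ a = -1 ∧ d = -1) ∧
    2 * tm a = -2 * tm (a + d) := by decide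
  rw [lf_trace, ts, if_neg h]
  split_ifs with a b c c
  · rw [det_fin_two, b.1, zero_mul, sub_zero] at a
    rw [J_apply, (k _ _ a).2, trace_fin_two]
    simp [tm]
  · rw [det_fin_two, b.1, zero_mul, sub_zero] at a
    refine (c ((k _ _ a).1.imp (fun e => ?_) fun e => ?_)).elim <;>
      rw [eta_fin_two x, b.1, b.2, e.1, e.2] <;> decide
  · rcases c with rfl | rfl <;> simp at b
  · simp [J_apply, tm]
  · simp [J_apply, tm, s0, mul_comm]

theorem ts_neg (s : ℂ) (hs : conj s = -s) (x : G3) : ts (-s) x = conj (ts s x) := by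
  unfold ts
  split_ifs <;> simp [hs, map_ofNat]

theorem roots {a : ℂ} {e : ℤ} (he : e * e = 1) (h1 : conj a = e * a) (h2 : ‖a‖ ≤ 2) :
    ∃ x y : ℂ, ‖x‖ = 1 ∧ ‖y‖ = 1 ∧ x * y = e ∧ x + y = a := by
  have key : ∀ (u : ℂ) (t : ℝ), ‖u‖ = 1 → |t| ≤ 2 → ∃ x y : ℂ, ‖x‖ = 1 ∧ ‖y‖ = 1 ∧ x * y = u * u ∧
      x + y = u * t := fun u t a b => by
    have c := Real.cos_arccos (x := t / 2) (by linarith [abs_le.1 b]) (by linarith [abs_le.1 b])
    refine ⟨u * Complex.exp (Real.arccos (t / 2) * Complex.I),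
      u * Complex.exp ((-Real.arccos (t / 2) : ℝ) * Complex.I), ?_, ?_, ?_, ?_⟩
    · rw [norm_mul, a, Complex.norm_exp_ofReal_mul_I, one_mul]
    · rw [norm_mul, a, Complex.norm_exp_ofReal_mul_I, one_mul]
    · rw [mul_mul_mul_comm, ← Complex.exp_add]
      simp
    · rw [← mul_add, Complex.ofReal_neg, ← Complex.two_cos, ← Complex.ofReal_cos, c]
      push_cast
      ring
  rcases Int.eq_one_or_neg_one_of_mul_eq_one he with rfl | rfl
  · have e1 : a = a.re := (Complex.conj_eq_iff_re.1 (by simpa using h1)).symm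
    simpa [← e1] using key 1 a.re norm_one ((Complex.abs_re_le_norm a).trans h2)
  · have e1 : a = Complex.I * a.im := by
      have := congrArg Complex.re h1
      apply Complex.ext <;> simp at this ⊢
      linarith
    simpa [← e1] using key Complex.I a.im Complex.norm_I ((Complex.abs_im_le_norm a).trans h2)

theorem chr {m : ℕ} (h : 3 ∣ m) : Chr m (e3 m) where
  one := by simp [e3, isCoprime_one_left]
  mul a b := by
    simp only [e3, IsCoprime.mul_left_iff, jacobiSym.mul_left]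
    by_cases x : IsCoprime a (m : ℤ) <;> by_cases y : IsCoprime b (m : ℤ) <;> simp [x, y]
  per a b e := by
    obtain ⟨k, hk⟩ := e
    rw [e3, e3, ← k3_J, ← k3_J, k3_congr (x := a) (y := b) (hk ▸ (Int.natCast_dvd_natCast.2
      h).mul_right k), eq_add_of_sub_eq' hk]
    simp only [IsCoprime.add_mul_left_left_iff]
  zero a := by
    unfold e3
    split_ifs with x
    · simp only [x, not_true, iff_false, Int.cast_eq_zero, ← k3_J]
      intro e
      have := k3_sq (x := a) fun d => by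
        have := x.isUnit_of_dvd' d (Int.natCast_dvd_natCast.2 h)
        revert this
        decide
      simp [e] at this
    · simp [x]
  odd := by rw [e3, if_pos isCoprime_one_left.neg_left, ← k3_J, k3_neg_one]; simp

theorem mw {M m : ℕ} {F : ℍ → ℂ} (h : Mx M 1 F) (d : M ∣ m) : MW (m ^ 2) (e3 m) F where
  hol := h.mf.hol
  bdd := h.mf.bdd
  law γ a τ := by
    have a1 : (m : ℤ) ∣ γ 1 0 := (Int.natCast_dvd_natCast.2 (dvd_pow_self m two_ne_zero)).trans
      ((ZMod.intCast_zmod_eq_zero_iff_dvd _ _).1 (Gamma0_mem.1 a))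
    have e := congrFun (h.chi γ (Gamma0_mem.2 ((ZMod.intCast_zmod_eq_zero_iff_dvd _ _).2
      ((Int.natCast_dvd_natCast.2 d).trans a1)))) τ
    have c : IsCoprime (γ 1 1) (m : ℤ) := by
      obtain ⟨k, hk⟩ := a1
      have := γ.det_coe
      rw [det_fin_two, hk] at this
      exact ⟨γ 0 0, -(γ 0 1 * k), by linear_combination this⟩
    rw [ModularForm.SL_slash_apply, ModularGroup.denom_apply, Nat.cast_one, _root_.zpow_neg, zpow_one,
      mul_inv_eq_iff_eq_mul₀ (ModularGroup.denom_apply γ τ ▸ denom_ne_zero γ τ)] at e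
    rw [e, e3, if_pos c, ← k3_J, P004C.Wa.jj, Pi.smul_apply, smul_eq_mul]
    ring

theorem mul_of {R : Type} [CommRing R] {c d : ℕ → R} (one : c 1 = 1) (h : ∀ p : ℕ, p.Prime → ∀ n,
    c (p * n) + (if p ∣ n then d p * c (n / p) else 0) = c p * c n) (k : ℕ) :
    ∀ n, k.Coprime n → c (k * n) = c k * c n := by
  induction k using Nat.recOnPosPrimePosCoprime with
  | zero => intro n a; rw [(Nat.coprime_zero_left n).1 a, one, mul_one, mul_one]
  | one => intro n _; rw [one_mul, one, one_mul]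
  | prime_pow p j hp j0 =>
    intro n a
    have nd := hp.coprime_iff_not_dvd.1 ((Nat.coprime_pow_left_iff j0 _ _).1 a)
    clear a j0
    induction j using Nat.twoStepInduction with
    | zero => rw [pow_zero, one_mul, one, one_mul]
    | one => simpa [nd] using h p hp n
    | more j i0 i1 =>
      have a := h p hp (p * (p ^ j * n))
      have b := h p hp (p * p ^ j)
      rw [if_pos (dvd_mul_right _ _), Nat.mul_div_cancel_left _ hp.pos] at a b
      rw [← mul_assoc p (p ^ j), ← pow_succ', ← mul_assoc, ← pow_succ', i0, i1] at a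
      rw [← pow_succ', ← pow_succ'] at b
      linear_combination a - c n * b
  | coprime x y _ _ xy ix iy =>
    intro n a
    rw [Nat.coprime_mul_iff_left] at a
    rw [mul_assoc, ix _ (xy.mul_right a.1), iy _ a.2, ix _ xy, mul_assoc]

variable {o m : ℕ} {c c' : ℕ → O}

theorem rec_all (h : Ewx o c) (hm : ∀ l : ℕ, l.Prime → (l ∣ m ↔ l ∣ 2 * o)) (p : ℕ) (hp : p.Prime)
    (n : ℕ) : J (c (p * n)) + (if p ∣ n then e3 m p * J (c (n / p)) else 0) = J (c p) * J (c n) := by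
  by_cases a : p ∣ 2 * o
  · have z : ∀ k, c (p * k) = 0 := fun k => h.dep _ fun e =>
      hp.one_lt.ne' (Nat.eq_one_of_dvd_coprimes e (dvd_mul_right _ _) a)
    rw [z, ← mul_one p, z, mul_one, e3, if_neg fun e => hp.coprime_iff_not_dvd.1
      (Nat.isCoprime_iff_coprime.1 e) ((hm p hp).2 a)]
    simp
  · rw [e3, if_pos (Nat.isCoprime_iff_coprime.2 (hp.coprime_iff_not_dvd.2 (mt (hm p hp).1 a))),
      ← k3_J]
    simpa [apply_ite] using congrArg J (h.hecke ⟨p, hp, a⟩ n)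

theorem hd (h : Ewx o c) (h3 : 3 ∣ m) (hm : ∀ l : ℕ, l.Prime → (l ∣ m ↔ l ∣ 2 * o)) :
    Hd (fun n => e3 m n) fun n => J (c n) where
  e1 := (chr h3).one
  em a b := by rw [Nat.cast_mul, (chr h3).mul]
  zero := by rw [h.dep 0 (by simp), map_zero]
  one := by rw [h.one, map_one]
  mul := mul_of (c := fun n => J (c n)) (by rw [h.one, map_one]) (rec_all h hm)
  rc p j hp := by
    have := rec_all h hm p hp (p * p ^ j)
    rw [if_pos (dvd_mul_right _ _), Nat.mul_div_cancel_left _ hp.pos, ← pow_succ',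
      ← pow_succ'] at this
    exact eq_sub_of_add_eq this

theorem ewx_star (h : Ewx o c) (h' : Ewx o c') (e : ∀ l : PA o, c' l.1 = star (c l.1)) (n : ℕ) :
    c' n = star (c n) := by
  induction n using Nat.strong_induction_on with
  | _ n ih =>
    by_cases hn : n.Coprime (2 * o)
    swap
    · rw [h.dep n hn, h'.dep n hn, star_zero]
    by_cases h1 : n = 1
    · rw [h1, h.one, h'.one, star_one]
    obtain ⟨p, hp, n, rfl⟩ := Nat.exists_prime_and_dvd h1
    have h3 : 0 < n := Nat.pos_of_ne_zero (by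
      rintro rfl
      have := (Nat.coprime_zero_left _).1 hn
      omega)
    have h4 : n < p * n := lt_mul_left h3 hp.one_lt
    let l : PA o := ⟨p, hp, hp.coprime_iff_not_dvd.1 hn.coprime_mul_right⟩
    have a := congrArg star (h.hecke l n)
    have b := h'.hecke l n
    rw [e, ih n h4, ih _ ((Nat.div_le_self _ _).trans_lt h4)] at b
    simp only [star_add, star_mul', apply_ite star, star_intCast, star_zero] at a
    exact add_right_cancel (b.trans a.symm)

theorem eg {M : ℕ} {F : ℍ → ℂ} (h : Ewx o c) (m0 : 0 < m) (h3 : 3 ∣ m) (d : M ∣ m)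
    (hm : ∀ l : ℕ, l.Prime → (l ∣ m ↔ l ∣ 2 * o)) (f : Mx M 1 F) (q : Sm (fun n => J (c n)) F)
    (r : ∀ l : PA o, ‖J (c l.1)‖ ≤ 2 ∧ star (c l.1) = k3 l.1 * c l.1) :
    ∃ B, Eg m (e3 m) F (fun n => J (c n)) B := by
  have q' : QE F fun n => J (c n) := fun τ => by simpa only [Fe.Hk.ee_pow, smul_eq_mul] using q τ
  have c2 : Chr (m ^ 2) (e3 m) := ⟨(chr h3).one, (chr h3).mul, fun a b e => (chr h3).per a b
    ((Int.natCast_dvd_natCast.2 (dvd_pow_self m two_ne_zero)).trans e), fun a => by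
      rw [(chr h3).zero, Nat.cast_pow, IsCoprime.pow_right_iff two_pos], (chr h3).odd⟩
  obtain ⟨k1, k2, -⟩ := (P004C.Wa.fri _ (pow_pos m0 2)).2 _ F c2 (mw f d)
  obtain ⟨B, hB⟩ := Fe.qe_ex (pow_pos m0 2) (fun a e => (k1.per a 1 e).trans k1.one) k2
  refine ⟨B, chr h3, mw f d, q', by rw [h.one, map_one], fun k a => ?_, fun k a =>
    (hd h h3 hm).hk q' ?_, fun p hp a => ?_, hB⟩
  · obtain ⟨p, hp, a1, a2⟩ := Nat.Prime.not_coprime_iff_dvd.1 a
    rw [h.dep k (Nat.Prime.not_coprime_iff_dvd.2 ⟨p, hp, a1, (hm p hp).1 a2⟩), map_zero]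
  · rintro rfl
    rw [(Nat.coprime_zero_left m).1 a] at h3
    omega
  · have b := hp.coprime_iff_not_dvd.1 a
    obtain ⟨r1, r2⟩ := r ⟨p, hp, mt (hm p hp).2 b⟩
    rw [e3, if_pos (Nat.isCoprime_iff_coprime.2 a), ← k3_J]
    refine roots (k3_sq fun e => b ?_) (by rw [← J_star, r2, map_mul, map_intCast]) r1
    rwa [← (Nat.prime_dvd_prime_iff_eq Nat.prime_three hp).1 (Int.natCast_dvd_natCast.1 e)]

end Ex

open Ex

/-- **the export** -/
theorem w1_of (q : Q1E) (w : W0x) : W1X := fun ρ S h hn => by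
  have R := rs h hn
  have oo := od_odd h
  have o3 : 3 ∣ od S := Finset.dvd_prod_of_mem (fun l => l) (Finset.mem_erase.2 ⟨by decide, h.three⟩)
  have Q := R.q1 (by have := oo.pos; omega) q
  have hS : ∀ l : ℕ, l.Prime → (l ∣ 2 * od S ↔ l ∈ S) := fun l a => two_od h ▸ dvd_prod h a
  have h4 : ∀ l : ℕ, ∃ g, l.Prime → IsFrob l g := fun l => by
    by_cases e : l.Prime
    · exact (H20.exists_isFrob e).imp fun _ a _ => a
    · exact ⟨1, fun a => (e a).elim⟩
  choose fr hf using h4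
  let a : ℕ → O := fun l => (lf (ρ (fr l))).trace
  have un : ∀ l : ℕ, l.Prime → ¬ l ∣ 2 * od S → St.UnrAt (sg nu (hm h)) l :=
    fun l x y P p1 p2 g k => sg_one nu (R.unr l x y P p1 p2 g k)
  have dt : ∀ l : ℕ, l.Prime → ¬ l ∣ 2 * od S → ∀ g, IsFrob l g → tm (ρ g).det = k3 l :=
    fun l x y g k => by rw [show (ρ g).det = l from R.det l x y g k, ← tm_k3, Int.cast_natCast]
  have nm : ∀ l, ‖J (a l)‖ ≤ 2 := fun l => by
    have := J_normSq (a l)
    have k : ((a l).norm : ℝ) ≤ 4 := by exact_mod_cast lf_norm (ρ (fr l))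
    nlinarith [norm_nonneg (J (a l))]
  have al : ∀ l : ℕ, l.Prime → ¬ l ∣ 2 * od S → ∀ g, IsFrob l g → (lf (ρ g)).trace = a l :=
    fun l x y g k => by
      obtain ⟨N, _, hN, h0, -, lam, -, h3⟩ := Q
      have z : ¬ l ∣ 2 * N := fun e => (x.dvd_mul.1 e).elim (fun e => y (e.mul_right _))
        fun e => h0 l x e (un l x y)
      exact nu_inj ((sg_trace nu (ρ := hm h) g).symm.trans ((h3 ⟨l, x, z⟩ g k).1.symm.trans
        ((h3 ⟨l, x, z⟩ _ (hf l x)).1.trans (sg_trace nu (ρ := hm h) _))))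
  obtain ⟨c, M, F, e1, c1, M0, -, p1, q1, f1⟩ := w E2 nu _ Q _ a oo o3 fun l x y =>
    ⟨un l x y, nm l, fr l, hf l x, sg_trace _ _, (sg_det _ _).trans
      (congrArg _ (dt l x y _ (hf l x)))⟩
  obtain ⟨c', M', F', e2, c2, M0', -, p2, q2, f2⟩ := w E2 (nu.comp (starRingEnd O)) _ Q _
    (fun l => star (a l)) oo o3 fun l x y => ⟨un l x y, by rw [J_star, RCLike.norm_conj]; exact nm l,
      fr l, hf l x, (sg_trace _ _).trans (congrArg nu (star_star _).symm), (sg_det _ _).trans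
      (congrArg _ (dt l x y _ (hf l x)))⟩
  have cs := ewx_star e1 e2 fun l => by rw [c1, c2]
  have r1 : ∀ l : PA (od S), ‖J (c l.1)‖ ≤ 2 ∧ star (c l.1) = k3 l.1 * c l.1 := fun l => by
    rw [c1, ← dt _ l.2.1 l.2.2 _ (hf _ l.2.1), ← lf_det]
    exact ⟨nm _, lf_star _⟩
  have r2 : ∀ l : PA (od S), ‖J (c' l.1)‖ ≤ 2 ∧ star (c' l.1) = k3 l.1 * c' l.1 := fun l => by
    rw [cs, J_star, RCLike.norm_conj, ← star_intCast (R := O), ← star_mul', ← (r1 l).2]
    exact ⟨(r1 l).1, rfl⟩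
  have A1 : ∀ l : ℕ, l.Prime → l ∉ S → ∀ g, IsFrob l g → J (c l) = ts s0 (ρ g) ∧ (ρ g).det = l :=
    fun l x y g k => ⟨by
      rw [c1 ⟨l, x, mt (hS l x).1 y⟩, ← al l x (mt (hS l x).1 y) g k, J_tr fun e => ?_]
      have := h.mul g g⁻¹
      rw [mul_inv_cancel, h.one] at this
      have := congrArg det this
      rw [det_mul, e, det_one, zero_mul] at this
      exact one_ne_zero this, det_frob h x y k⟩
  have MM : ∀ l : ℕ, l.Prime → (l ∣ M * M' * (2 * od S) ↔ l ∈ S) := fun l x => by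
    rw [← hS l x, x.dvd_mul, x.dvd_mul]
    exact or_iff_right_of_imp fun e => e.elim (p1 l x) (p2 l x)
  have E : ∀ m, 0 < m → M * M' * (2 * od S) ∣ m → (∀ l : ℕ, l.Prime → l ∣ m → l ∈ S) →
      (Hd (fun n => e3 m n) fun n => J (c n)) ∧ (Hd (fun n => e3 m n) fun n => J (c' n)) ∧
      (∃ B, Eg m (e3 m) F (fun n => J (c n)) B) ∧ ∃ B, Eg m (e3 m) F' (fun n => J (c' n)) B :=
    fun m m0 d k => by
      have hm : ∀ l : ℕ, l.Prime → (l ∣ m ↔ l ∣ 2 * od S) := fun l x =>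
        ⟨fun e => (hS l x).2 (k l x e), fun e => (e.mul_left _).trans d⟩
      have h3 := (hm 3 Nat.prime_three).2 (o3.mul_left 2)
      exact ⟨hd e1 h3 hm, hd e2 h3 hm,
        eg e1 m0 h3 (((dvd_mul_right _ _).mul_right _).trans d) hm f1 q1 r1,
        eg e2 m0 h3 (((dvd_mul_left _ _).mul_right _).trans d) hm f2 q2 r2⟩
  have P0 : 0 < M * M' * (2 * od S) := by have := oo.pos; positivity
  have cj : (fun k => conj (J (c k))) = fun k => J (c' k) := funext fun k => by rw [cs, J_star]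
  have cj' : (fun k => conj (J (c' k))) = fun k => J (c k) := funext fun k => by
    rw [← J_star, cs, star_star]
  intro s hs
  have s2 : s0 ^ 2 = -2 := by
    rw [s0, neg_sq, mul_pow, Complex.I_sq, ← Complex.ofReal_pow, Real.sq_sqrt zero_le_two]
    norm_num
  rcases sq_eq_sq_iff_eq_or_eq_neg.1 (hs.trans s2.symm) with rfl | rfl
  · refine ⟨_, F, F', fun n => J (c n), P0, MM, A1, fun n => ⟨(c n).re, -(c n).im, by
      simp [J_apply, s0]⟩, fun m m0 d k => ?_⟩
    obtain ⟨x, -, ⟨B, y⟩, B', z⟩ := E m m0 d k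
    exact ⟨x, B, B', y, cj ▸ z⟩
  · refine ⟨_, F', F, fun n => J (c' n), P0, MM, fun l x y g k => ⟨?_, (A1 l x y g k).2⟩,
      fun n => ⟨(c' n).re, (c' n).im, by simp [J_apply, s0]⟩, fun m m0 d k => ?_⟩
    · rw [ts_neg _ (by simp [s0]), ← (A1 l x y g k).1]
      exact (congrFun cj l).symm
    obtain ⟨-, x, ⟨B, y⟩, B', z⟩ := E m m0 d k
    exact ⟨x, B', B, z, cj' ▸ y⟩

end Vale.Agent.P014Y.W1
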