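import Vale.Agent.P014Y.W1.Th0
import Vale.Agent.P004M.D.ThF

/-!
# P014Y, block W1: theta series of the Hurwitz order with a character, and KILL in any degree
-/

set_option autoImplicit false
set_option linter.all false

open CongruenceSubgroup MvPolynomial

noncomputable section

namespace Vale.Agent.P014Y.W1.Th

open Vale.Agent.P022 Vale.Agent.P022.H218.L3 Vale.Agent.P022.H783 Vale.Agent.P022K.UC
open Vale.Agent.P022K.UC.Hm Vale.Agent.P004M Vale.Agent.P004M.D Vale.Agent.P004M.D.Hu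
open Vale.Agent.P022.H567.Tw (cf cf_unique)
open Vale.Agent.P022.H811.L3 (Up Up_dia coeff_Up zero_of_coeff)

/-- forms with character `χ` -/
def Tc (χ : ℤ → ℂ) {N : ℕ} [NeZero N] {k : ℕ} (F : MF N k) : Prop :=
  ∀ l : PA N, dia k l F = χ l.1 • F

/-- words in the operators `T_l / l ^ e` in weight `k` -/
def wg (N k e : ℕ) [NeZero N] : FreeAlgebra ℤ (PA N) →ₐ[ℤ] Module.End ℂ (MF N k) :=
  FreeAlgebra.lift ℤ fun l => ((l.1 : ℂ) ^ e)⁻¹ • Tl k l

variable {χ : ℤ → ℂ}

theorem Tc.cf_tl {N k : ℕ} [NeZero N] {F : MF N k} (h : Tc χ F) (l : PA N) (n : ℕ) :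
    cf (Tl k l F) n = cf F (l.1 * n) +
      if l.1 ∣ n then (l.1 : ℂ) ^ ((k : ℤ) - 1) * (χ l.1 * cf F (n / l.1)) else 0 :=
  cf_unique _ _ (hasSum_Tl k l (c' := fun n => χ l.1 * cf F n) (hasSum_form F) fun τ => by
    rw [h]
    simpa [mul_assoc] using (hasSum_form F τ).mul_left (χ l.1)) n

theorem wg_comm {N k e : ℕ} [NeZero N] {T : Module.End ℂ (MF N k)}
    (h : ∀ l F, T (Tl _ l F) = Tl _ l (T F)) (P : FreeAlgebra ℤ (PA N)) :
    ∀ F, T (wg N k e P F) = wg N k e P (T F) := by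
  induction P using FreeAlgebra.induction with
  | grade0 r => intro f; simp [Algebra.algebraMap_eq_smul_one]
  | grade1 ℓ => intro f; simp [wg, h]
  | mul a b ha hb => intro f; simp only [map_mul, Module.End.mul_apply, ha, hb]
  | add a b ha hb => intro f; simp only [map_add, LinearMap.add_apply, ha, hb]

/-- **THETA** for the sum of four squares -/
theorem theta {M N : ℕ} [NeZero M] [NeZero N] (hN : 4 * M ^ 2 ∣ N) {f : (Fin 4 → ℤ) → ℂ}
    (per : ∀ x y, f (x + (M : ℤ) • y) = f x)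
    (sc : ∀ d : ℤ, IsCoprime d N → ∀ x, f (d • x) = χ d * f x) {ξ : Fin 4 → ℂ} (hξ : sq4 ξ = 0)
    (n : ℕ) :
    ∃ F : MF N (n + 2), Tc χ F ∧ ∀ k, cf F k = ∑ x ∈ shell k, f x * dot ξ x ^ n := by
  obtain ⟨A, hA⟩ := bdd_per per
  exact ⟨Ab.toMF (isMF_Th1 hN per hξ n), fun l => DFunLike.coe_injective
    ((slG0_coe _ _ _).trans ((slash_Th hN per hξ n (gd_mem l.coprime)).trans ((congrArg (Th · ξ n)
      (funext (sc l.1 (Nat.isCoprime_iff_coprime.2 l.coprime)))).trans (Th_mul _ _)))),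
    cf_unique _ _ (hasSum_Th hA n)⟩

/-- **THETA** for the Hurwitz order -/
theorem thetaH {M N : ℕ} [NeZero M] [NeZero N] (hN : 16 * M ^ 2 ∣ N) {f : Hu → ℂ}
    (per : ∀ x y, f (x + M * y) = f x)
    (sc : ∀ d : ℤ, IsCoprime d N → ∀ x, f (d * x) = χ d * f x)
    {ξ : Fin 4 → ℂ} (hξ : sq4 ξ = 0) (n : ℕ) :
    ∃ F : MF N (n + 2), Tc χ F ∧ ∀ k : ℕ, cf F k = ∑ x ∈ On k, f x * dot ξ (co x) ^ n := by
  have h2 : 2 ∣ N := (Dvd.intro (8 * M ^ 2) (by ring)).trans hN
  obtain ⟨F, h1, h3⟩ := theta (χ := χ) (M := 2 * M) (N := N)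
    ((show 4 * (2 * M) ^ 2 = 16 * M ^ 2 by ring) ▸ hN)
    (f := Function.extend co f 0) (fun v y => by
      by_cases h : ∃ x, co x = v
      · obtain ⟨x, rfl⟩ := h
        rw [Nat.cast_mul, Nat.cast_two, ← co_lin, co_inj.extend_apply, co_inj.extend_apply]
        exact per x _
      · rw [Function.extend_apply' _ _ _ h, Function.extend_apply']
        · rfl
        rintro ⟨x, hx⟩
        exact h ⟨x + (-M : ℤ) * lip y, by rw [co_lin, hx]; ext i; simp⟩) (fun d hd v => by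
      by_cases h : ∃ x, co x = v
      · obtain ⟨x, rfl⟩ := h
        rw [← co_int, co_inj.extend_apply, co_inj.extend_apply, sc d hd]
      · rw [Function.extend_apply' _ _ _ h, Function.extend_apply']
        · exact (mul_zero _).symm
        rintro ⟨x, hx⟩
        obtain ⟨k, rfl⟩ := Int.isCoprime_two_right.1
          (hd.of_isCoprime_of_dvd_right (Int.natCast_dvd_natCast.2 h2))
        exact h ⟨x + (-k : ℤ) * lip v, by rw [co_lin, hx]; ext i; simp; ring⟩) hξ n
  refine ⟨Up Nat.prime_two h2 _ (Up Nat.prime_two h2 _ F), fun l => by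
    rw [← Up_dia, ← Up_dia, h1, map_smul, map_smul], fun k => ?_⟩
  rw [cf, coeff_Up, coeff_Up, ← cf, h3, eq_comm]
  refine Finset.sum_of_injOn co co_inj.injOn (fun x hx => ?_) (fun v _ hv => ?_) fun x _ => by
    rw [co_inj.extend_apply]
  · rw [Finset.mem_coe, mem_On] at hx
    rw [Finset.mem_coe, mem_shell, nq, ← nm_co, hx]
    push_cast
    ring
  · rw [Function.extend_apply', Pi.zero_apply, zero_mul]
    rintro ⟨x, rfl⟩
    refine hv ⟨x, mem_On.2 ?_, rfl⟩
    rename_i h4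
    rw [mem_shell, nq, ← nm_co] at h4
    push_cast at h4
    omega

theorem TW_wg {R : ℕ → Finset Hu} {N k e : ℕ} [NeZero N] (P : FreeAlgebra ℤ (PA N)) :
    ∀ G : Hu → MF N k,
    (∀ (l : PA N) x, ∑ α ∈ R l.1, G (α * x) = ((l.1 : ℂ) ^ e)⁻¹ • Tl _ l (G x)) →
    TW R N (P022.MF N k) P G = fun x => wg N k e P (G x) := by
  induction P using FreeAlgebra.induction with
  | grade0 r => exact fun G _ => funext fun x => by simp
  | grade1 l => exact fun G h => funext fun x => by simp [TW_ι, h, wg]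
  | mul a b ha hb =>
    intro G h
    rw [map_mul, Module.End.mul_apply, hb G h, ha _ fun l x => by
      rw [← map_sum, h, map_smul, wg_comm (Tl_Tl _ l)], map_mul]
    rfl
  | add a b ha hb => exact fun G h => funext fun x => by simp [ha G h, hb G h]

variable {R : ℕ → Finset Hu} {M N n e : ℕ} [NeZero M] [NeZero N] {P : FreeAlgebra ℤ (PA N)}

theorem kill1 (hN : 16 * M ^ 2 ∣ N)
    (hR : ∀ l : PA N, Hk R l.1) {f : Hu → ℂ} (per : ∀ x y, f (x + M * y) = f x)
    (sc : ∀ d : ℤ, IsCoprime d N → ∀ x, f (d * x) = χ d * f x) {ξ : Fin 4 → ℂ} (hξ : sq4 ξ = 0)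
    (hP : ∀ F, Tc χ F → wg N (n + 2) e P F = 0) :
    TW R N ℂ P (fun x => ∑ u ∈ On 1,
      f (u * x) * dot ξ (co (u * x)) ^ n / nm (u * x) ^ e) = 0 := by
  obtain ⟨Φ, hΦ⟩ : ∃ Φ : Hu → ℂ, ∀ x, f x * dot ξ (co x) ^ n / nm x ^ e = Φ x :=
    ⟨_, fun _ => rfl⟩
  have h1 : ∀ x, ∃ F : MF N (n + 2), Tc χ F ∧ ∀ k : ℕ, 1 ≤ k →
      cf F k = k ^ e * ∑ β ∈ On k, Φ (β * x) := fun x => by
    obtain ⟨η, e1, e2⟩ := dot_mul hξ x
    obtain ⟨F, a, b⟩ := thetaH (χ := χ) hN (f := fun β => f (β * x))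
      (fun β y => by rw [add_mul, mul_assoc, per]) (fun d hd β => by rw [mul_assoc, sc d hd])
      e1 n
    refine ⟨((nm x : ℂ) ^ e)⁻¹ • F, fun l => by rw [map_smul, a, smul_comm], fun k hk => ?_⟩
    rw [← cfL_apply, map_smul, cfL_apply, b, smul_eq_mul, Finset.mul_sum, Finset.mul_sum]
    refine Finset.sum_congr rfl fun β hβ => ?_
    have : (k : ℂ) ^ e ≠ 0 := pow_ne_zero _ (Nat.cast_ne_zero.2 (by omega))
    rw [← hΦ, e2, map_mul, mem_On.1 hβ]
    push_cast
    rw [mul_pow]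
    field_simp
  choose G g1 g2 using h1
  have h2 := TW_wg (R := R) (e := e) P G fun l x => sub_eq_zero.1 (zero_of_coeff (by omega) _
      fun k hk => by
    have l0 : (l.1 : ℂ) ≠ 0 := Nat.cast_ne_zero.2 l.2.1.ne_zero
    have h3 := hR l (fun β => Φ (β * x)) k
    have h4 : ∀ ε, Φ (l.1 * ε * x) = χ l.1 * l.1 ^ n / (l.1 ^ e) ^ 2 * Φ (ε * x) := fun ε => by
      rw [← hΦ, ← hΦ, mul_assoc, map_mul, nm_nat, ← Int.cast_natCast (R := Hu), co_int,
        sc _ (Nat.isCoprime_iff_coprime.2 l.coprime),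
        show dot ξ ((l.1 : ℤ) • co (ε * x)) = l.1 * dot ξ (co (ε * x)) by
          simp [dot, Finset.mul_sum, mul_left_comm]]
      push_cast
      rw [mul_pow, mul_pow, ← pow_mul, mul_comm 2 e, pow_mul]
      field_simp
    show cfL N _ k _ = 0
    rw [map_sub, map_sum, map_smul, cfL_apply, (g1 x).cf_tl, g2 x _ (Nat.mul_pos l.2.1.pos hk)]
    simp only [cfL_apply, g2 _ k hk, ← Finset.mul_sum, ← mul_assoc, h4] at h3 ⊢
    rw [h3, sub_eq_zero, smul_eq_mul]
    split_ifs with h5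
    · obtain ⟨k, rfl⟩ := h5
      rw [Nat.mul_div_cancel_left _ l.2.1.pos, g2 x k (Nat.pos_of_mul_pos_left hk),
        show ((n + 2 : ℕ) : ℤ) - 1 = (n + 1 : ℕ) by push_cast; ring, zpow_natCast]
      push_cast
      rw [Int.mul_ediv_cancel_left _ (Int.natCast_ne_zero.2 l.2.1.ne_zero), nsmul_eq_mul]
      field_simp
      ring
    · push_cast
      field_simp
      ring)
  have h3 := TW_map (R := R) (cfL N (n + 2) 1).toAddMonoidHom P G
  rw [h2] at h3
  funext x
  refine Eq.trans (congrFun (congrArg _ (funext fun y => ?_)) x) ((congrFun h3 x).trans ?_)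
  · simp only [hΦ]
    simp [cfL_apply, g2]
  · simp [hP _ (g1 x)]

theorem kill2 (hN : 16 * M ^ 2 ∣ N) (hR : ∀ l : PA N, Hk R l.1) (hn : n ≤ 2 * e + 1)
    (hP : ∀ w i, i ≤ e → w + 2 * e = n + 2 * i → ∀ F, Tc χ F → wg N (w + 2) i P F = 0)
    {f : Hu → ℂ} (per : ∀ x y, f (x + M * y) = f x)
    (sc : ∀ d : ℤ, IsCoprime d N → ∀ x, f (d * x) = χ d * f x) (f0 : f 0 = 0)
    {p : MvPolynomial (Fin 4) ℂ} (hp : p.IsHomogeneous n) :
    TW R N ℂ P (fun x => ∑ u ∈ On 1,
      f (u * x) * (eval (fun i => (co (u * x) i : ℂ)) p / nm (u * x) ^ e)) = 0 := by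
  have h0 := Harm.harmD Complex.I_sq (fun (y : Hu) i => (co y i : ℂ)) hp
  obtain ⟨g, hg⟩ : ∃ g : Hu → ℂ, ∀ y, eval (fun i => (co y i : ℂ)) p = g y := ⟨_, fun _ => rfl⟩
  simp only [hg] at h0 ⊢
  refine Submodule.span_induction (p := fun (g : Hu → ℂ) _ => TW R N ℂ P (fun x => ∑ u ∈ On 1,
    f (u * x) * (g (u * x) / nm (u * x) ^ e)) = 0) ?_ ?_ (fun a b _ _ ha hb => ?_)
    (fun c a _ ha => ?_) h0
  · rintro _ ⟨r, w, ξ, e1, hξ, rfl⟩
    obtain ⟨m, rfl⟩ : ∃ m, e = r + m := ⟨e - r, by omega⟩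
    rw [← kill1 hN hR (f := fun x => 4 ^ r * f x) (fun x y => by rw [per])
      (fun e he x => by rw [sc e he, mul_left_comm]) hξ (hP w m (by omega) (by omega))]
    refine congrArg _ (funext fun x => Finset.sum_congr rfl fun u _ => ?_)
    generalize u * x = y
    by_cases y0 : y = 0
    · rw [y0, f0, mul_zero, zero_mul, zero_mul, zero_div]
    have h1 : (nm y : ℂ) ≠ 0 := Int.cast_ne_zero.2 (mt nm_eq_zero.1 y0)
    have h2 : ∑ i, (co y i : ℂ) ^ 2 = 4 * nm y := by exact_mod_cast (nm_co y).symm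
    beta_reduce
    rw [h2, dot, mul_pow, pow_add]
    field_simp
  · simp only [Pi.zero_apply, zero_div, mul_zero, Finset.sum_const_zero]
    exact map_zero _
  · simp only [Pi.add_apply, add_div, mul_add, Finset.sum_add_distrib]
    exact (map_add _ _ _).trans (by rw [ha, hb, add_zero])
  · have := TW_map (R := R) (AddMonoidHom.mulLeft c) P fun x => ∑ u ∈ On 1,
      f (u * x) * (a (u * x) / nm (u * x) ^ e)
    rw [ha] at this
    refine Eq.trans (congrArg _ (funext fun x => ?_)) (this.trans (funext fun x => ?_))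
    · simp [Finset.mul_sum, mul_div_assoc, mul_left_comm]
    · simp

/-- **KILL** for families of polynomials of any degree with a character -/
theorem kill3 {χ : ℤ → ℤ} (hN : 16 * (4 * M) ^ 2 ∣ N) (hR : ∀ l : PA N, Hk R l.1)
    (hR' : ∀ l : PA N, ∀ α ∈ R l.1, Odd (nm α)) (hn : n ≤ 2 * e + 1)
    (hP : ∀ w i, i ≤ e → w + 2 * e = n + 2 * i → ∀ F, Tc (fun d => χ d) F →
      wg N (w + 2) i P F = 0)
    {K : Type*} [Field K] [CharZero K] {p : Hu → MvPolynomial (Fin 4) K}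
    (hp : ∀ x, (p x).IsHomogeneous n) (per : ∀ x y, p (x + (4 * M) • y) = p x)
    (sc : ∀ d : ℤ, IsCoprime d N → ∀ x, p (d • x) = χ d • p x) {x : Hu} (hx : Odd (nm x)) :
    TW R N K P (fun x => ∑ u ∈ On 1,
      eval (fun i => (co (u * x) i : K)) (p (u * x)) / nm (u * x) ^ e) x = 0 := by
  classical
  refine (Module.forall_dual_apply_eq_zero_iff ℚ _).1 fun φ => Rat.cast_injective (α := ℂ) ?_
  have h2 : (2 : ℤ) ∣ N := Int.natCast_dvd_natCast.2
    ((Dvd.intro (8 * (4 * M) ^ 2) (by ring)).trans hN)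
  have h1 := Finset.sum_eq_zero fun s (hs : s ∈ Finset.univ.finsuppAntidiag n) => kill2 hN hR hn hP
    (f := fun y => if Odd (nm y) then (φ (coeff s (p y)) : ℂ) else 0) (fun y z => by
      rw [← nsmul_eq_mul, per, show (4 * M) • z = 2 * ((2 * M) • z) by
        rw [two_mul ((2 * M) • z), ← add_nsmul]
        congr 1
        ring]
      simp only [odd_add]) (fun d hd y => by
      have := Int.isCoprime_two_right.1 (hd.of_isCoprime_of_dvd_right h2)
      simp only [map_mul, nm_int, Int.odd_mul, Int.odd_pow, this, true_or, true_and]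
      rw [← zsmul_eq_mul, sc d hd, coeff_smul, map_zsmul]
      split_ifs <;> simp) (by simp [nm_def])
    (isHomogeneous_monomial (d := s) (1 : ℂ) (by
      rw [← (Finset.mem_finsuppAntidiag.1 hs).1, Finsupp.degree_eq_sum]))
  rw [← map_sum] at h1
  rw [Rat.cast_zero]
  refine (congrFun (TW_map ((Rat.castHom ℂ).toAddMonoidHom.comp φ.toAddMonoidHom) P _)
    x).symm.trans ((TW_congr (S := {y | Odd (nm y)}) (fun l α a y hy => ?_) P _ _
      (fun y hy => ?_) x hx).trans (congrFun h1 x))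
  · exact (congrArg Odd (map_mul nm α y)).mpr ((hR' l α a).mul hy)
  · rw [Finset.sum_apply, Finset.sum_comm, Function.comp_apply, map_sum]
    refine Finset.sum_congr rfl fun u hu => ?_
    have : Odd (nm (u * y)) := by rwa [map_mul, mem_On.1 hu, one_mul]
    generalize u * y = z at this
    rw [eval_eq', Finset.sum_subset (s₂ := Finset.univ.finsuppAntidiag n) (fun s hs => by
      rw [Finset.mem_finsuppAntidiag, ← Finsupp.degree_eq_sum, Finsupp.degree_eq_weight_one]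
      exact ⟨hp z (mem_support_iff.1 hs), Finset.subset_univ _⟩)
      (fun s _ hs => by rw [notMem_support_iff.1 hs, zero_mul]), Finset.sum_div, map_sum]
    refine Finset.sum_congr rfl fun s _ => ?_
    rw [if_pos this, show coeff s (p z) * (∏ i, (co z i : K) ^ s i) / (nm z : K) ^ e =
      ((∏ i, (co z i : ℚ) ^ s i) / (nm z : ℚ) ^ e) • coeff s (p z) by
        rw [Rat.smul_def]; push_cast; ring]
    simp [eval_monomial, Finsupp.prod_fintype, mul_comm]

end Vale.Agent.P014Y.W1.Th
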