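import Vale.Agent.P004M.A6b
import Vale.Agent.P014Y.W1.Th1

/-!
# P014Y, block W1, row a6: from occurrence at odd level to forms of odd weight with a character
-/

set_option autoImplicit false
set_option linter.all false

open UpperHalfPlane CongruenceSubgroup
open scoped MatrixGroups ModularForm

noncomputable section

namespace Vale.Agent.P014Y.W1.A6

open Vale.Agent.P022 Vale.Agent.P022.H783 Vale.Agent.P022K.UC.Hm Vale.Agent.P014Y.W1.Th
open Vale.Agent.P022.H567.Tw (Lim cf tz cf_tz incl incl_inj gHk_incl dec dec1 decG gen_inr uℓ)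
open Vale.Agent.P022.H811.L3 (zero_of_coeff Up Up_dia Up_Tl coeff_Up)
open Vale.Agent.P004M.A6 (Ct Bo mem_Bo Ub dia_mul dia_one ex_pr lift_int bd_lift odd_pa lim_of_hom
  norm_two)

/-- an odd character modulo `N` with values in the integers -/
structure Chi (N : ℕ) (χ : ℤ → ℤ) : Prop where
  mul : ∀ a b, χ (a * b) = χ a * χ b
  per : ∀ a b : ℤ, (a : ZMod N) = b → χ a = χ b
  one : χ 1 = 1
  neg : χ (-1) = -1

/-- **UC0**: the system `lam` is a limit of systems of the forms of odd weight with character -/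
def UC0 (χ : ℤ → ℤ) (N : ℕ) [NeZero N] {L : Type*} [NormedField L] (lam : ℕ → L) : Prop :=
  ∀ ε : ℝ, 0 < ε → ∃ B, ∀ P : FreeAlgebra ℤ (PA N),
    (∀ m ≤ B, ∀ f, Tc (fun d => χ d) f → wg N (2 * m + 1) m P f = 0) →
    ‖FreeAlgebra.lift ℤ (fun l : PA N => lam l.1) P‖ < ε

variable {N : ℕ} [NeZero N] {χ : ℤ → ℤ}

theorem Chi.sq (h : Chi N χ) (l : PA N) : χ l.1 * χ l.1 = 1 := by
  obtain ⟨a, b, e⟩ := Nat.isCoprime_iff_coprime.2 l.coprime
  have : χ a * χ l.1 = 1 := by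
    rw [← h.mul, ← h.one]
    exact h.per _ _ (by rw [← e]; simp)
  rcases Int.eq_one_or_neg_one_of_mul_eq_one' this with e | e <;> rw [e.2] <;> rfl

theorem tc_tl {ψ : ℤ → ℂ} {k : ℕ} {f : MF N k} (h : Tc ψ f) (l : PA N) : Tc ψ (Tl k l f) :=
  fun l' => by rw [dia_Tl, h, map_smul]

theorem tc_wg {ψ : ℤ → ℂ} {k e : ℕ} {f : MF N k} (h : Tc ψ f) (P : FreeAlgebra ℤ (PA N)) :
    Tc ψ (wg N k e P f) := fun l => by rw [wg_comm (dia_Tl _ l), h, map_smul]

theorem wg_kill {ψ : ℤ → ℂ} (h2 : 2 ∣ N) {k e : ℕ} (hk : 1 ≤ k) {P : FreeAlgebra ℤ (PA N)}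
    (h : ∀ f, Tc ψ f → cf (wg N k e P f) 1 = 0) (f : MF N k) (hf : Tc ψ f) :
    wg N k e P f = 0 := by
  refine zero_of_coeff hk _ fun n hn => ?_
  induction n using Nat.strong_induction_on generalizing f with
  | _ n ih =>
    rcases hn.eq_or_lt with rfl | h1
    · exact h f hf
    obtain ⟨p, hp, n, rfl⟩ := Nat.exists_prime_and_dvd h1.ne'
    have h3 : 0 < n := Nat.pos_of_mul_pos_left hn
    have h4 : n < p * n := lt_mul_left h3 hp.one_lt
    by_cases hN : p ∣ N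
    · rw [← coeff_Up hp hN, wg_comm (Up_Tl hp hN _)]
      exact ih n h4 _ (fun ℓ => by rw [← Up_dia, hf, map_smul]) h3
    · let ℓ : PA N := ⟨p, hp, fun e => hN (by
        rcases (Nat.Prime.dvd_mul hp).1 e with e | e
        · exact e.trans h2
        · exact e)⟩
      have h5 := (tc_wg (e := e) hf P).cf_tl ℓ n
      rw [wg_comm (Tl_Tl _ ℓ), show cf _ n = 0 from ih n h4 _ (tc_tl hf ℓ) h3] at h5
      split_ifs at h5 with h6
      · rw [show cf _ (n / p) = 0 from ih _ ((Nat.div_le_self _ _).trans_lt h4) _ hf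
          (Nat.div_pos (Nat.le_of_dvd h3 h6) hp.pos), mul_zero, mul_zero, add_zero] at h5
        exact h5.symm
      · exact ((add_zero _).symm.trans h5.symm)

theorem tc_even {ψ : ℤ → ℂ} {k : ℕ} (hk : Even k) {f : MF N k} (hf : Tc ψ f) {l : PA N}
    (h : (l.1 : ZMod N) = -1) (h' : ψ l.1 = -1) : f = 0 := by
  ext τ
  have e := congrFun (dFun_eq l (s := -1) (by simp [Gamma0_mem]) (by simp [h]) f) τ
  rw [← dia_coe, hf, ModularForm.SL_slash_apply, h'] at e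
  have e1 : denom ((-1 : SL(2, ℤ)) : GL (Fin 2) ℝ) τ = -1 := by simp [denom]
  rw [e1, show (-1 : SL(2, ℤ)) • τ = τ by simp, (Even.neg (by exact_mod_cast hk)).neg_one_zpow] at e
  show f τ = 0
  have e2 : ((-1 : ℂ) • f) τ = -1 * f τ := rfl
  linear_combination (e2 - e) / 2

/-- the forms with character `χ` -/
def TV (χ : ℤ → ℤ) (N k : ℕ) [NeZero N] : Submodule ℂ (MF N k) where
  carrier := {f | Tc (fun d => χ d) f}
  zero_mem' _ := by rw [map_zero, smul_zero]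
  add_mem' hf hg l := by rw [map_add, hf, hg, smul_add]
  smul_mem' c f hf l := by rw [map_smul, hf, smul_comm]

/-- the Hecke operators on them -/
def tl (χ : ℤ → ℤ) (k : ℕ) (l : PA N) : Module.End ℂ (TV χ N k) :=
  (Tl k l).restrict fun _ h => tc_tl (ψ := fun d => χ d) h l

/-- words in both kinds of generators -/
def pv (χ : ℤ → ℤ) (N : ℕ) [NeZero N] (m : ℕ) :
    FreeAlgebra ℤ (Gen N) →+* Module.End ℂ (TV χ N (2 * m + 1)) :=
  (FreeAlgebra.lift ℤ (Sum.elim (tl χ _) fun l =>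
    (((l.1 : ℤ) ^ (2 * m) * χ l.1 : ℤ) : _))).toRingHom

/-- normalised operators -/
def nt (χ : ℤ → ℤ) (m : ℕ) (l : PA N) : Module.End ℂ (TV χ N (2 * m + 1)) :=
  ((l.1 : ℂ) ^ m)⁻¹ • tl χ _ l

theorem wg_nt (m : ℕ) (P : FreeAlgebra ℤ (PA N)) (f : TV χ N (2 * m + 1)) :
    wg N (2 * m + 1) m P f = FreeAlgebra.lift ℤ (nt χ m) P f :=
  lift_int (TV χ N _).subtype (fun _ _ => rfl) P f

variable {L : Type} [NormedField L] [IsUltrametricDist L]

/-- **averaging over the diamond operators** -/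
theorem avg [CharZero L] (hN : Odd N) (hχ : Chi N χ) (h2 : ‖(2 : L)‖ < 1) {t : Gen N → L}
    (hb : ∀ s, ‖t s‖ ≤ 1) (hS : ∀ l, t (Sum.inr l) = χ l.1) (h : Lim N t) :
    Ct (pv χ N) (FreeAlgebra.lift ℤ t).toRingHom := by
  intro ε hε
  obtain ⟨y, y1, -⟩ := ex_pr hN 1 0 odd_one
  obtain ⟨z, z1, -⟩ := ex_pr hN (-1) 0 odd_one
  have φ0 : 0 < ‖(Fintype.card (ZMod N)ˣ : L)‖ :=
    norm_pos_iff.2 (Nat.cast_ne_zero.2 Fintype.card_ne_zero)
  let π : ∀ i, FreeAlgebra ℤ (Gen N) →+* Module.End ℂ (MF N (i + 1)) := fun i =>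
    (FreeAlgebra.lift ℤ fun s => gHk N s i).toRingHom
  have hπ : ∀ i l, π i (FreeAlgebra.ι ℤ (Sum.inr l)) = (l.1 : ℤ) ^ i • dia (i + 1) l :=
    fun i l => by
      rw [← Int.cast_smul_eq_zsmul ℂ, Int.cast_pow, Int.cast_natCast]
      exact FreeAlgebra.lift_ι_apply _ _
  obtain ⟨k, s, s1, s2⟩ := Ct.rob (π := π) (lam := (FreeAlgebra.lift ℤ t).toRingHom) h
    (bd_lift hb) h2 (FreeAlgebra.ι ℤ (Sum.inr y)) (c := fun i => (y.1 : ℤ) ^ i)
    (Int.pow_right_injective (by simpa using y.2.1.one_lt)) (fun i => by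
      rw [hπ, show dia (i + 1) y = 1 from LinearMap.ext (dia_one _ y1), zsmul_eq_mul, mul_one])
    _ (mul_pos hε φ0)
  choose l l1 l2 using fun d => ex_pr hN d s odd_one
  refine ⟨k, fun a ha => ?_⟩
  have h3 := s2 (a * ∑ d, χ (l d).1 • FreeAlgebra.ι ℤ (Sum.inr (l d))) fun i hi => by
    choose c hc using fun d => (l2 d).trans (sub_one_dvd_pow_sub_one _ i)
    refine ⟨π i a * ∑ d, (χ (l d).1 * c d) • dia (i + 1) (l d), mul_mem (mem_Bo _ _)
      (sum_mem fun d _ => zsmul_mem (show dia (i + 1) (l d) ∈ Bo _ from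
        ⟨_, (odd_pa _).pow, _, (hπ _ _).symm⟩) _), ?_⟩
    have e0 : π i a * ∑ d, χ (l d).1 • dia (i + 1) (l d) = 0 := LinearMap.ext fun f => by
      have e1 : Tc (fun d => χ d) ((∑ d, χ (l d).1 • dia (i + 1) (l d)) f) := fun p => by
        rw [LinearMap.sum_apply, map_sum, Finset.smul_sum, ← Equiv.sum_comp
          (Equiv.mulRight (ZMod.unitOfCoprime p.1 p.coprime)) fun d =>
            (χ p.1 : ℂ) • (χ (l d).1 • dia (i + 1) (l d)) f]
        refine Finset.sum_congr rfl fun d _ => ?_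
        have e2 : ((l (Equiv.mulRight (ZMod.unitOfCoprime p.1 p.coprime) d)).1 : ZMod N) =
            (l d).1 * p.1 := by simp [l1]
        rw [LinearMap.smul_apply, LinearMap.smul_apply, map_zsmul, dia_mul _ e2,
          Int.cast_smul_eq_zsmul, smul_smul, hχ.per (l (Equiv.mulRight _ d)).1 ((l d).1 * p.1) (by exact_mod_cast e2),
          hχ.mul, mul_left_comm, hχ.sq, mul_one]
      rw [Module.End.mul_apply]
      rcases Nat.even_or_odd' i with ⟨m, rfl | rfl⟩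
      · refine (lift_int (TV χ N (2 * m + 1)).subtype (y := fun s => gHk N s (2 * m)) (x :=
          Sum.elim (tl χ _) fun l => (((l.1 : ℤ) ^ (2 * m) * χ l.1 : ℤ) : _)) ?_ a ⟨_, e1⟩).trans ?_
        · rintro (p | p) f
          · rfl
          · show (p.1 : ℂ) ^ (2 * m) • dia _ p f.1 = _
            rw [f.2 p, Sum.elim_inr, Module.End.intCast_apply, map_zsmul,
              ← Int.cast_smul_eq_zsmul ℂ, Int.cast_mul, Int.cast_pow, Int.cast_natCast, smul_smul]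
            rfl
        · exact congrArg (fun x : Module.End ℂ _ => (TV χ N (2 * m + 1)).subtype (x _))
            (ha m (by omega))
      · rw [tc_even ⟨m + 1, by ring⟩ e1 z1 (by
          rw [hχ.per _ (-1) (by simpa using z1), hχ.neg, Int.cast_neg, Int.cast_one]), map_zero,
          LinearMap.zero_apply]
    rw [map_mul, map_sum, ← mul_smul_comm, Finset.smul_sum, ← sub_zero (π i a * _), ← e0,
      ← mul_sub, ← Finset.sum_sub_distrib]
    refine congrArg _ (Finset.sum_congr rfl fun d _ => ?_)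
    rw [map_zsmul, hπ, smul_smul, smul_smul, mul_left_comm, ← hc, mul_sub, sub_smul, mul_one]
  refine lt_of_mul_lt_mul_right (((norm_mul _ _).symm.trans (congrArg _ ?_)).trans_lt h3) φ0.le
  have e : ∀ d, (χ (l d).1 : L) * χ (l d).1 = 1 := fun d => by exact_mod_cast hχ.sq (l d)
  simp [hS, e]

/-- some twist of conductor `8` is a limit at the odd level -/
theorem ex_tw [CharZero L] (hN : Odd N) (hχ : Chi N χ) (h2 : ‖(2 : L)‖ < 1) {t : Gen N → L}
    (hb : ∀ s, ‖t s‖ ≤ 1) (hS : ∀ l, t (Sum.inr l) = χ l.1) (h : Lim N t) {a : ℕ → L}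
    (ha : ∀ l, t (Sum.inl l) = a l.1) : ∃ κ : ZMod 8 →* ℤ, (∀ x : ℤ, Odd x → κ x ^ 2 = 1) ∧
      UC0 χ N fun l => (κ l : L) * a l := by
  obtain ⟨g, g0, g1⟩ := ex_pr hN 1 3 (r := 5) (by decide)
  have g2 : χ g.1 = 1 := (hχ.per _ 1 (by exact_mod_cast g0)).trans hχ.one
  obtain ⟨κ, c1, c2⟩ := (avg hN hχ h2 hb hS h).nor (bd_lift hb) two_ne_zero h2
    (fun l : PA N => (l.1 : ℤ)) odd_pa (fun l => FreeAlgebra.ι ℤ (Sum.inl l)) (nt χ) (fun m l => by
      rw [← Int.cast_smul_eq_zsmul ℂ, Int.cast_pow, Int.cast_natCast, nt, smul_inv_smul₀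
        (pow_ne_zero _ (Nat.cast_ne_zero.2 l.2.1.ne_zero))]
      simp [pv])
    ((g.1 : ℤ) ^ 2 • FreeAlgebra.ι ℤ (Sum.inr g)) (g := g.1) (by omega) (fun m => by
      rw [map_zsmul, show pv χ N m (FreeAlgebra.ι ℤ (Sum.inr g)) = _ from
        FreeAlgebra.lift_ι_apply _ _, Sum.elim_inr, zsmul_eq_mul, ← Int.cast_mul, ← Int.cast_pow,
        g2]
      congr 1
      ring) (by simp [hS, g2])
  refine ⟨κ, c1, fun ε hε => ?_⟩
  obtain ⟨k, hk⟩ := c2 ε hε
  refine ⟨k, fun P hP => ?_⟩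
  have := hk P fun m hm => LinearMap.ext fun f => Subtype.ext
    ((wg_nt m P f).symm.trans (hP m hm.le _ f.2))
  simpa [ha] using this

/-- words of level `M` come from words of level `N`, the generators being scaled by `c` -/
def Tr (χ : ℤ → ℤ) (N M : ℕ) [NeZero N] [NeZero M] (c : ℕ → ℤ) : Prop :=
  ∀ P : FreeAlgebra ℤ (PA M), ∃ Q : FreeAlgebra ℤ (PA N),
    (∀ m, (∀ f, Tc (fun d => χ d) f → wg M (2 * m + 1) m P f = 0) →
      ∀ f, Tc (fun d => χ d) f → wg N (2 * m + 1) m Q f = 0) ∧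
    ∀ (R : Type) [Ring R] [Algebra ℤ R] (a b : ℕ → R), (∀ l : PA M, b l.1 = c l.1 * a l.1) →
      FreeAlgebra.lift ℤ (fun l : PA M => b l.1) P = FreeAlgebra.lift ℤ (fun l : PA N => a l.1) Q

/-- transfer along intertwining maps -/
theorem tr {M : ℕ} [NeZero M] (d : PA M → PA N) (hd : ∀ l, (d l).1 = l.1) (c : ℕ → ℤ)
    (φ : ∀ m, MF N (2 * m + 1) →ₗ[ℂ] MF M (2 * m + 1))
    (h1 : ∀ m f, Tc (fun d => χ d) f → Tc (fun d => χ d) (φ m f))
    (h2 : ∀ m f l, Tc (fun d => χ d) f → Tl _ l (φ m f) = c l.1 • φ m (Tl _ (d l) f))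
    (h3 : ∀ m P, (∀ f, Tc (fun d => χ d) f → φ m (wg N (2 * m + 1) m P f) = 0) →
      ∀ f, Tc (fun d => χ d) f → wg N (2 * m + 1) m P f = 0) : Tr χ N M c := by
  refine fun P => ⟨FreeAlgebra.lift ℤ (fun l => c l.1 • FreeAlgebra.ι ℤ (d l)) P,
    fun m hP => h3 m _ fun f hf => ?_, fun R _ _ a b hab => ?_⟩
  · rw [← hP _ (h1 m f hf), wg_nt m _ ⟨f, hf⟩]
    refine Eq.trans ?_ (lift_int (φ m ∘ₗ (TV χ N _).subtype) (x := fun l => c l.1 • nt χ m (d l))
      (fun l f => ?_) P ⟨f, hf⟩).symm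
    · have := P004M.A6.map_lift (FreeAlgebra.lift ℤ (nt (N := N) χ m)).toRingHom
        (fun l => c l.1 • FreeAlgebra.ι ℤ (d l)) P
      simp only [AlgHom.toRingHom_eq_coe, RingHom.coe_coe, map_zsmul,
        FreeAlgebra.lift_ι_apply] at this
      rw [this]
      rfl
    · rw [LinearMap.smul_apply, LinearMap.smul_apply, map_zsmul, nt, LinearMap.smul_apply,
        map_smul, hd, smul_comm]
      exact congrArg _ (h2 m f.1 l f.2)
  · have e := P004M.A6.map_lift (FreeAlgebra.lift ℤ fun l : PA N => a l.1).toRingHom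
      (fun l => c l.1 • FreeAlgebra.ι ℤ (d l)) P
    simp only [AlgHom.toRingHom_eq_coe, RingHom.coe_coe, map_zsmul, FreeAlgebra.lift_ι_apply,
      hd] at e
    rw [e]
    simp only [hab, zsmul_eq_mul]

theorem tr_raise (χ : ℤ → ℤ) (N M : ℕ) [NeZero N] [NeZero M] : Tr χ N (N * M) fun _ => 1 :=
  tr dec1 (fun _ => rfl) (fun _ => 1) (fun _ => incl N M _) (fun m f hf l => by
      have := gHk_incl (Sum.inr l) (2 * m) f
      refine smul_right_injective _ (pow_ne_zero (2 * m)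
        (Nat.cast_ne_zero.2 l.2.1.ne_zero : (l.1 : ℂ) ≠ 0)) (this.trans ?_)
      exact (map_smul (incl N M _) _ _).trans (congrArg _ ((congrArg _ (hf _)).trans
        (map_smul _ _ _))))
    (fun m f l _ => (gHk_incl (Sum.inl l) (2 * m) f).trans (one_smul _ _).symm)
    fun m P hP f hf => incl_inj N M _ ((hP f hf).trans (map_zero _).symm)

theorem tr_twist (χ : ℤ → ℤ) (h2 : 2 ∣ N) (κ : ZMod 8 →* ℤ)
    (hκ : ∀ x : ℤ, Odd x → κ x ^ 2 = 1) : Tr χ N (N * 8 ^ 2) fun l => κ l := by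
  let c := ZMod.dft.symm fun u : ZMod 8 => (κ (-u) : ℂ)
  let φ : ∀ m, MF N (2 * m + 1) →ₗ[ℂ] MF (N * 8 ^ 2) (2 * m + 1) := fun m =>
    ∑ u, c u • tz N 8 u _
  have e : ∀ m f n, cf (φ m f) n = κ n * cf f n := fun m f n => by
    have h1 : ZMod.dft c (-(n : ZMod 8)) = _ := congrFun (LinearEquiv.apply_symm_apply _ _) _
    rw [ZMod.dft_apply, neg_neg] at h1
    simp only [mul_neg, neg_neg, smul_eq_mul] at h1
    rw [← cfL_apply, LinearMap.sum_apply, map_sum]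
    simp only [LinearMap.smul_apply, map_smul, cfL_apply, cf_tz, smul_eq_mul, ← mul_assoc,
      ← Finset.sum_mul]
    rw [Finset.sum_congr rfl fun u _ => mul_comm (c u) _, h1]
  have h1 : ∀ m f, Tc (fun d => χ d) f → Tc (fun d => χ d) (φ m f) := fun m f hf l => by
    rw [LinearMap.sum_apply, map_sum, Finset.smul_sum]
    refine Finset.sum_congr rfl fun u _ => ?_
    rw [LinearMap.smul_apply, map_smul, smul_comm]
    refine congrArg _ (smul_right_injective _ (pow_ne_zero (2 * m)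
      (Nat.cast_ne_zero.2 l.2.1.ne_zero : (l.1 : ℂ) ≠ 0)) ((gen_inr u (2 * m) l f).trans ?_))
    rw [show uℓ l ^ 2 = 1 from (by decide : ∀ x : (ZMod 8)ˣ, x ^ 2 = 1) _, Units.val_one, one_mul]
    exact (map_smul (tz N 8 u _) _ _).trans (congrArg _ ((congrArg _ (hf _)).trans
      (map_smul _ _ _)))
  refine tr dec (fun _ => rfl) (fun l => κ l) φ h1 (fun m f l hf => ?_)
    fun m P hP => wg_kill h2 (by omega) fun f hf => ?_
  · refine sub_eq_zero.1 (zero_of_coeff (by omega) _ fun n _ => ?_)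
    show cfL _ _ n _ = 0
    rw [map_sub, map_zsmul, cfL_apply, cfL_apply, (h1 m f hf).cf_tl, e, e, e, hf.cf_tl,
      show (dec l).1 = l.1 from rfl]
    have e1 : (κ l.1 : ℂ) ^ 2 = 1 := by exact_mod_cast hκ _ (odd_pa l)
    split_ifs with h6
    · obtain ⟨n, rfl⟩ := h6
      simp only [Nat.mul_div_cancel_left _ l.2.1.pos, Nat.cast_mul, map_mul, Int.cast_mul,
        zsmul_eq_mul]
      linear_combination
        (-((l.1 : ℂ) ^ (((2 * m + 1 : ℕ) : ℤ) - 1) * χ l.1 * κ n * cf f n)) * e1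
    · simp only [Nat.cast_mul, map_mul, Int.cast_mul, zsmul_eq_mul]
      ring
  · have := e m (wg N (2 * m + 1) m P f) 1
    rw [hP f hf, ← cfL_apply, map_zero] at this
    simpa using this.symm

omit [IsUltrametricDist L] in
theorem UC0.tr {M : ℕ} [NeZero M] {c : ℕ → ℤ} (t : Tr χ N M c) {a b : ℕ → L}
    (hab : ∀ l : PA M, b l.1 = c l.1 * a l.1) (h : UC0 χ N a) : UC0 χ M b := fun ε hε =>
  (h ε hε).imp fun _ hB P hP => by
    obtain ⟨Q, q1, q2⟩ := t P
    rw [q2 L a b hab]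
    exact hB Q fun m hm => q1 m (hP m hm)

/-- **a6**, odd level: the level has the odd primes of `M`, some twist is a limit -/
theorem tw_of_q1 {E : Type} [NontriviallyNormedField E] [NormedAlgebra ℚ_[2] E]
    {r : (AlgebraicClosure ℚ ≃ₐ[ℚ] AlgebraicClosure ℚ) →* GL (Fin 2) E} (h : St.Q1Concl r)
    {o : ℕ} (ho : Odd o) (hχ : Chi o χ) {a : ℕ → E}
    (ha : ∀ l : ℕ, l.Prime → ¬ l ∣ 2 * o → St.UnrAt r l ∧ ∃ g, St.IsFrob l g ∧
      (r g : Matrix (Fin 2) (Fin 2) E).trace = a l ∧ (r g : Matrix (Fin 2) (Fin 2) E).det = χ l) :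
    ∃ (N : ℕ) (_ : NeZero N) (κ : ZMod 8 →* ℤ), Odd N ∧ o ∣ N ∧
      (∀ l : ℕ, l.Prime → l ∣ N → l ∣ o) ∧ (∀ x : ℤ, Odd x → κ x ^ 2 = 1) ∧
      UC0 χ N fun l => (κ l : E) * a l := by
  obtain ⟨N, _, hN, hr, -, lam, h1, h3⟩ := h
  have : NeZero o := ⟨ho.pos.ne'⟩
  have : IsUltrametricDist E := IsUltrametricDist.of_normedAlgebra ℚ_[2]
  have : CharZero E := charZero_of_injective_algebraMap (algebraMap ℚ_[2] E).injective
  have h4 : ∀ l : PA (N * o), lam (St.elT N (dec1 l)) = a l.1 ∧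
      lam (St.elS N (dec1 l)) = χ l.1 := fun l => by
    obtain ⟨-, g, g1, g2, g3⟩ := ha l.1 l.2.1 fun e => l.2.2 (e.trans ⟨N, by ring⟩)
    exact ⟨(h3 _ g g1).1.trans g2, (h3 _ g g1).2.trans g3⟩
  obtain ⟨κ, c1, c2⟩ := ex_tw (χ := χ) (hN.mul ho) ⟨hχ.mul, fun a b e => hχ.per a b (by
      simpa using congrArg (ZMod.castHom (dvd_mul_left o N) (ZMod o)) e), hχ.one, hχ.neg⟩
    (norm_two E) (by rintro (l | l) <;> exact h1.2.1 _) (fun l => (h4 l).2)
    ((lim_of_hom h1).raise o) fun l => (h4 l).1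
  refine ⟨N * o, inferInstance, κ, hN.mul ho, dvd_mul_left _ _, fun l hl e => ?_, c1, c2⟩
  refine ((Nat.Prime.dvd_mul hl).1 e).elim (fun e => by_contra fun e' => hr l hl e
    (ha l hl fun e2 => ((Nat.Prime.dvd_mul hl).1 e2).elim (fun e3 => ?_) e').1) id
  exact (Nat.coprime_two_right.2 hN).symm.of_dvd_left e3 |>.eq_one_of_dvd e |> hl.ne_one

end Vale.Agent.P014Y.W1.A6
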