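import Vale.Agent.P014Y.W1.St
import Vale.Agent.P022.H567.Tw.Four
import Mathlib.NumberTheory.LSeries.PrimesInAP

/-!
# P014Y, block W1: the two words for forms with character, twists modulo eight
-/

set_option autoImplicit false
set_option linter.all false

open UpperHalfPlane CongruenceSubgroup
open scoped MatrixGroups ModularForm

noncomputable section

namespace Vale.Agent.P014Y.W1

open Vale.Agent.P022 Vale.Agent.P022.H218.L3 Vale.Agent.P022K.UC Vale.Agent.P022K.UC.Hm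
open Vale.Agent.P022.H783
open Vale.Agent.P022.H567.Tw (cf cf_unique tz cf_tz dec gen_inr uℓ)

variable {M k : ℕ} [NeZero M]

theorem k3_cast (h3 : 3 ∣ M) {x y : ℤ} (h : (x : ZMod M) = y) : k3 x = k3 y :=
  (k3_congr ((Int.natCast_dvd_natCast.2 h3).trans ((ZMod.intCast_eq_intCast_iff_dvd_sub _ _ _).1 h))).symm

theorem Tx.mx (h3 : 3 ∣ M) {f : P022.MF M k} (h : Tx f) : Mx M k f :=
  ⟨isMF_of_form (Gamma1 M) f, fun γ hγ => by
    have d := γ.det_coe
    rw [Matrix.det_fin_two] at d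
    have d' := congrArg (Int.cast : ℤ → ZMod M) d
    push_cast at d'
    rw [Gamma0_mem.1 hγ, mul_zero, sub_zero] at d'
    obtain ⟨p, p1, p2, p3⟩ := Nat.forall_exists_prime_gt_and_eq_mod (IsUnit.of_mul_eq_one_right _ d')
      (2 * M)
    let l : PA M := ⟨p, p2, fun e => (Nat.le_of_dvd (by have := NeZero.pos M; omega) e).not_gt p1⟩
    rw [← dFun_eq l hγ p3.symm, ← dia_coe, h l, k3_cast h3 (x := γ 1 1) (y := p) (by simpa using p3.symm)]
    rfl⟩

theorem Mx.tx (h3 : 3 ∣ M) {F : ℍ → ℂ} (h : Mx M k F) : ∃ f : P022.MF M k, ⇑f = F ∧ Tx f :=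
  ⟨Ab.toMF h.mf, rfl, fun l => DFunLike.coe_injective (by
    show ⇑(dia k l _) = _
    rw [dia_coe, dFun_eq l (gd_mem l.coprime) (gd_d l.coprime),
      ← k3_cast h3 (x := gd M l.1 l.coprime 1 1) (by simpa using gd_d l.coprime)]
    exact h.chi _ (gd_mem l.coprime))⟩

/-- twisting by a character modulo eight -/
theorem Mx.twist (h3 : 3 ∣ M) {F : ℍ → ℂ} {d : ℕ → ℂ} (h : Mx M (k + 1) F) (hs : Sm d F)
    (χ : ZMod 8 → ℂ) : ∃ G, Mx (M * 8 ^ 2) (k + 1) G ∧ Sm (fun n => χ n * d n) G := by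
  obtain ⟨f, rfl, hf⟩ := h.tx h3
  let c := ZMod.dft.symm fun u : ZMod 8 => χ (-u)
  have e : ∀ n, cf ((∑ u, c u • tz M 8 u (k + 1)) f) n = χ n * d n := fun n => by
    have h1 : ZMod.dft c (-(n : ZMod 8)) = _ := congrFun (LinearEquiv.apply_symm_apply _ _) _
    rw [ZMod.dft_apply, neg_neg] at h1
    simp only [mul_neg, neg_neg, smul_eq_mul] at h1
    rw [← cfL_apply, LinearMap.sum_apply, map_sum, ← cf_unique f d hs n]
    simp only [LinearMap.smul_apply, map_smul, cfL_apply, cf_tz, smul_eq_mul, ← mul_assoc,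
      ← Finset.sum_mul]
    rw [Finset.sum_congr rfl fun u _ => mul_comm (c u) _, h1]
  refine ⟨(∑ u, c u • tz M 8 u (k + 1)) f, Tx.mx (h3.mul_right _) fun l => ?_,
    funext e ▸ hasSum_form _⟩
  rw [LinearMap.sum_apply, map_sum, Finset.smul_sum]
  refine Finset.sum_congr rfl fun u _ => ?_
  rw [LinearMap.smul_apply, map_smul, smul_comm]
  refine congrArg _ (smul_right_injective _ (pow_ne_zero k
    (Nat.cast_ne_zero.2 l.2.1.ne_zero : (l.1 : ℂ) ≠ 0)) ((gen_inr u k l f).trans ?_))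
  rw [show uℓ l ^ 2 = 1 from (by decide : ∀ x : (ZMod 8)ˣ, x ^ 2 = 1) _, Units.val_one, one_mul]
  exact (map_smul (tz M 8 u _) _ _).trans (congrArg _ ((congrArg _ (hf _)).trans (map_smul _ _ _)))

end Vale.Agent.P014Y.W1
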