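import Vale.Agent.P004M.D.Du0

/-!
# P014Y, block W1: the forms with rational coefficients span (any weight, level at least three)
-/

set_option autoImplicit false
set_option linter.all false

open UpperHalfPlane hiding I
open Matrix CongruenceSubgroup
open scoped MatrixGroups ModularForm

noncomputable section

namespace Vale.Agent.P014Y.W1.Rat

open Vale.Agent.P022 Vale.Agent.P022.H783 Vale.Agent.P022K.UC Vale.Agent.P022K.UC.Hm
open Vale.Agent.P027M.M Vale.Agent.P022D.V Vale.Agent.P022D.Th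
open Vale.Agent.P022.H567.Tw (cf cf_unique)
open Vale.Agent.P004M.Du (Rb)

theorem sep_all {M : ℕ} [NeZero M] (k : ℕ) (h3 : 3 ≤ M) :
    ∃ (d : ℕ) (δ : FT M ℂ) (t : Finset (FT M ℂ)), δ ∈ XC M d ∧ δ ∈ PQ M ∧ NVC δ ∧
      (∀ y ∈ t, y ∈ XC M (k + d) ∧ y ∈ PQ M) ∧
      ∀ s ∈ XC M k, s * δ ∈ Submodule.span ℂ (t : Set (FT M ℂ)) := by
  haveI : Fact (1 < M) := ⟨by omega⟩
  have B := xb M (NeZero.pos M)
  have a : ∀ h : GM M, h ≠ 1 → h ≠ dg (-1) (-1) →
      ∃ θ, θ ∈ XC M 2 ∧ θ ∈ PQ M ∧ NVC (rt ℂ ℂ h θ - θ) := fun h h1 h2 => by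
    obtain ⟨v, hv, k1, k2⟩ := Genq.moved h1 h2
    exact ⟨Genq.th v, Genq.th_mem hv, Genq.th_pq hv, Genq.th_nv hv k1 k2⟩
  rcases Nat.even_or_odd k with hk | hk
  · exact Sepx.even B lv1 a hk
  have v0 : (![1, 0] : Fin 2 → ZMod M) ≠ 0 := fun e => by simpa using congrFun e 0
  have p1 := Genq.pt_mem v0
  have p2 := Genq.pt_pq v0
  have p3 := Genq.pt_nv v0 fun e => by
    have e1 : (1 : ZMod M) = -1 := by simpa using congrFun e 0
    have e2 : ((2 : ℕ) : ZMod M) = 0 := by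
      push_cast
      linear_combination e1
    have e3 := Nat.le_of_dvd two_pos ((ZMod.natCast_eq_zero_iff 2 M).1 e2)
    omega
  obtain ⟨d, δ, t, b, c, e, f, g⟩ := Sepx.even B lv1 a (hk.add_odd (show Odd 3 by decide))
  refine ⟨3 + d, Genq.pt ![1, 0] * δ, t, B.mul _ _ _ p1 _ b, (Sepx.PR M).mul_mem p2 c,
    B.nvm _ _ p3 e, ?_, fun s hs => ?_⟩
  · rwa [← add_assoc]
  · rw [← mul_assoc]
    exact g _ (B.mul _ _ _ hs _ p1)

open Basq in
theorem basq_all {M : ℕ} [NeZero M] (k : ℕ) (h3 : 3 ≤ M) :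
    (∀ σ a, Ok M σ a → ∀ s ∈ XC M k, cj σ a s ∈ XC M k) ∧
    ∀ W : Submodule ℂ (FT M ℂ), W ≤ XC M k → (∀ σ a, Ok M σ a → ∀ s ∈ W, cj σ a s ∈ W) →
      ∃ t : Finset (FT M ℂ), (∀ y ∈ t, y ∈ W ∧ y ∈ PQ M) ∧
        W ≤ Submodule.span ℂ (t : Set (FT M ℂ)) := by
  have B := xb M (NeZero.pos M)
  obtain ⟨d, δ, t, δX, δQ, δN, ht, hs⟩ := sep_all (M := M) k h3
  have tX : Submodule.span ℂ (t : Set (FT M ℂ)) ≤ XC M (k + d) :=
    Submodule.span_le.2 fun y hy => (ht y hy).1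
  refine ⟨fun σ a ok s h => B.div k d _ δ (tX ?_) δX δN, fun W hW st => ?_⟩
  · have := cj_span σ a (fun y hy => (ht y hy).2 σ a ok) (hs s h)
    rwa [cj_mul, δQ σ a ok] at this
  have inj : Function.Injective (LinearMap.mulRight ℂ δ) := fun x y e => funext fun g =>
    mul_right_cancel₀ (B.nv0 δ δN g) (congrFun e g)
  set S : Set (FT M ℂ) := {y | y ∈ W ∧ y ∈ PQ M} with hSd
  have h1 : W.map (LinearMap.mulRight ℂ δ) ≤ Submodule.span ℂ (t : Set (FT M ℂ)) := by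
    rintro _ ⟨s, h, rfl⟩
    exact hs s (hW h)
  have h2 : W ≤ Submodule.span ℂ S := by
    intro s h
    have key := dsc0 ℂ (FT M ℂ) {p : (ℂ ≃+* ℂ) × (ZMod M)ˣ // Ok M p.1 p.2}
      (fun i => (i.1.1 : ℂ →+* ℂ)) (fun i => cjA i.1.1 i.1.2) (fun i c x => cj_smul _ _ c x)
      (W.map (LinearMap.mulRight ℂ δ)) (by
        rintro i _ ⟨x, hx, rfl⟩
        refine ⟨cj i.1.1 i.1.2 x, st _ _ i.2 x hx, ?_⟩
        show cj i.1.1 i.1.2 x * δ = cj i.1.1 i.1.2 (x * δ)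
        rw [cj_mul, δQ _ _ i.2]) (s * δ) ⟨s, h, rfl⟩
      (Submodule.span_mono (by
        intro y hy i
        exact (ht y hy).2 _ _ i.2) (hs s (hW h)))
    have sub : {y | y ∈ W.map (LinearMap.mulRight ℂ δ) ∧
        ∀ i : {p : (ℂ ≃+* ℂ) × (ZMod M)ˣ // Ok M p.1 p.2}, cjA i.1.1 i.1.2 y = y} ⊆
        LinearMap.mulRight ℂ δ '' S := by
      rintro _ ⟨⟨x, hx, rfl⟩, fx⟩
      refine ⟨x, ⟨hx, fun σ a ok => inj ?_⟩, rfl⟩
      have e : cj σ a (x * δ) = x * δ := fx ⟨(σ, a), ok⟩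
      rw [cj_mul, δQ σ a ok] at e
      exact e
    have k2 := Submodule.span_mono sub key
    rw [← Submodule.map_span] at k2
    obtain ⟨x, hx, e⟩ := k2
    rw [← inj (show LinearMap.mulRight ℂ δ x = LinearMap.mulRight ℂ δ s from e)]
    exact hx
  have h3' : Submodule.span ℂ S = W := le_antisymm (Submodule.span_le.2 fun y hy => hy.1) h2
  have fg : W.FG := by
    refine Submodule.fg_of_fg_map_injective _ inj ?_
    haveI := FiniteDimensional.span_finset ℂ t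
    haveI := Submodule.finiteDimensional_of_le h1
    exact Module.Finite.iff_fg.1 inferInstance
  rw [← h3'] at fg
  obtain ⟨t', a, b⟩ := (Submodule.fg_span_iff_fg_span_finset_subset S).1 fg
  exact ⟨t', fun y hy => a hy, by rw [← b]; exact h2⟩

open Latc in
/-- **rational structure** -/
theorem ratq' (N k : ℕ) [NeZero N] (h3 : 3 ≤ N) (h0 : k ≠ 0) : ∃ t : Finset (MF N k),
    Submodule.span ℂ (t : Set (MF N k)) = ⊤ ∧
      ∀ f ∈ t, ∃ c : ℕ → ℚ, ∀ n, cf f n = c n ∧ Odd (c n).den := by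
  classical
  obtain ⟨i, rfl⟩ : ∃ i, k = i + 1 := ⟨k - 1, by omega⟩
  have M0 := NeZero.pos N
  obtain ⟨inst⟩ := emb ℚ_[2] (PadicInt.subring 2) fun x => Iff.rfl
  obtain ⟨b1, b2⟩ := basq_all (M := N) (i + 1) h3
  obtain ⟨-, -, -, -, d5⟩ := bd xb (PadicInt.subring 2) 1 0 odd_one
  obtain ⟨t, t1, t2⟩ := b2 (XC N (i + 1) ⊓ Iv ℂ ℂ (H0 N 1 N)) inf_le_left
    fun σ a ha s hs => ⟨b1 σ a ha s hs.1, fun h hh => by
      funext g
      have e := congrFun (hs.2 h hh) (dg 1 a * g)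
      rw [one_smul, rt_apply, mul_assoc] at e
      rw [one_smul, rt_apply, cj, cj, e]⟩
  have key : ∀ y : FT N ℂ, ∃ f : MF N (i + 1), y ∈ t → (∃ z : ℂ, Rd _ N i y (z • f)) ∧
      ∃ c : ℕ → ℚ, ∀ n, cf f n = c n ∧ Odd (c n).den := by
    intro y
    by_cases hy : y ∈ t
    swap
    · exact ⟨0, fun h => (hy h).elim⟩
    obtain ⟨y1, y2⟩ := t1 y hy
    obtain ⟨F, f1, f2⟩ := y1.1
    obtain ⟨m, hm⟩ := Bdd0.one_g (O := PadicInt.subring 2) M0 (Bdd0.tp_mf f1 (dg 1 1)) (f2 _)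
    obtain ⟨f, c, r1, r2⟩ := back N N i M0 dvd_rfl _ (Submodule.smul_mem _ ((2 : ℂ) ^ m) y1)
    refine ⟨f, fun _ => ⟨⟨((2 : ℂ) ^ m)⁻¹, ?_⟩, ?_⟩⟩
    · have := rd_smul ((2 : ℂ) ^ m)⁻¹ (rd_of M0 r2 r1)
      rwa [inv_smul_smul₀ (pow_ne_zero _ two_ne_zero)] at this
    have k : ∀ n, ∃ x : ℚ, cf f n = x ∧ Odd x.den := by
      intro n
      have e := fun b => dic_coeff M0 r2 1 b (Nat.coprime_one_left _) ⟨0, by simp⟩ n
      simp only [Pi.smul_apply, PowerSeries.coeff_smul, smul_eq_mul, Nat.cast_one, one_pow,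
        one_mul] at e
      obtain ⟨x, hx⟩ := aut.1 (c n 1) fun σ => by
        obtain ⟨a₁, h₁⟩ := aut.2 N σ M0
        have e2 := congrArg (PowerSeries.coeff (N * n)) (congrFun (y2 σ a₁ h₁) (dg 1 1))
        rw [cj, dg_mul, one_mul, mul_one, PowerSeries.coeff_map] at e2
        rw [e a₁, map_mul, map_pow, map_ofNat, ← e a₁, e 1, ← e2]
        rfl
      refine ⟨x, ?_, d5 x ?_⟩
      · rw [cf_of_rd (rd_of M0 r2 r1), hx, e 1, Pi.smul_apply, PowerSeries.coeff_smul,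
          smul_eq_mul]
      · rw [hx, e 1]
        exact hm _
    choose x x1 using k
    exact ⟨x, x1⟩
  choose F hF using key
  refine ⟨t.image F, eq_top_iff.2 fun f _ => ?_, fun f hf => ?_⟩
  · obtain ⟨c, hc⟩ := H353.exists_rep f
    obtain ⟨s, s1, s2⟩ := tup N 1 N i M0 (one_dvd _) dvd_rfl f c hc
    have k : ∀ s ∈ Submodule.span ℂ (t : Set (FT N ℂ)),
        ∃ f' ∈ Submodule.span ℂ ((t.image F : Finset _) : Set (MF N (i + 1))), Rd _ N i s f' := by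
      intro s hs
      induction hs using Submodule.span_induction with
      | mem y hy =>
        obtain ⟨z, hz⟩ := (hF y hy).1
        exact ⟨_, Submodule.smul_mem _ z (Submodule.subset_span
          (Finset.mem_coe.2 (Finset.mem_image_of_mem F hy))), hz⟩
      | zero => exact ⟨0, zero_mem _, rd_zero⟩
      | add a b _ _ ha hb =>
        obtain ⟨f1, m1, r1⟩ := ha
        obtain ⟨f2, m2, r2⟩ := hb
        exact ⟨_, add_mem m1 m2, rd_add r1 r2⟩
      | smul z a _ ha =>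
        obtain ⟨f1, m1, r1⟩ := ha
        exact ⟨_, Submodule.smul_mem _ z m1, rd_smul z r1⟩
    obtain ⟨f', m, r⟩ := k s (t2 s1)
    rwa [rd_inj (rd_of M0 s2 hc) r]
  · obtain ⟨y, hy, rfl⟩ := Finset.mem_image.1 hf
    exact (hF y hy).2

open Latc in
/-- **rational structure**, with the diamond operators -/
theorem ratd' (N k : ℕ) [NeZero N] (h3 : 3 ≤ N) (h0 : k ≠ 0) : ∃ t : Finset (MF N k),
    Submodule.span ℂ (t : Set (MF N k)) = ⊤ ∧ ∀ f ∈ t, ∀ l : PA N, Rb (cf (dia k l f)) := by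
  classical
  obtain ⟨i, rfl⟩ : ∃ i, k = i + 1 := ⟨k - 1, by omega⟩
  have M0 := NeZero.pos N
  obtain ⟨inst⟩ := emb ℚ_[2] (PadicInt.subring 2) fun x => Iff.rfl
  obtain ⟨b1, b2⟩ := basq_all (M := N) (i + 1) h3
  obtain ⟨-, -, -, -, d5⟩ := bd xb (PadicInt.subring 2) 1 0 odd_one
  obtain ⟨t, t1, t2⟩ := b2 (XC N (i + 1) ⊓ Iv ℂ ℂ (H0 N 1 N)) inf_le_left
    fun σ a ha s hs => ⟨b1 σ a ha s hs.1, fun h hh => by
      funext g
      have e := congrFun (hs.2 h hh) (dg 1 a * g)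
      rw [one_smul, rt_apply, mul_assoc] at e
      rw [one_smul, rt_apply, cj, cj, e]⟩
  have key : ∀ y : FT N ℂ, ∃ f : MF N (i + 1), y ∈ t → Rd _ N i y f ∧
      ∀ l : PA N, Rb (cf (dia _ l f)) := by
    intro y
    by_cases hy : y ∈ t
    swap
    · exact ⟨0, fun h => (hy h).elim⟩
    obtain ⟨y1, y2⟩ := t1 y hy
    obtain ⟨F, f1, f2⟩ := y1.1
    obtain ⟨f, c, r1, r2⟩ := back N N i M0 dvd_rfl _ y1
    refine ⟨f, fun _ => ⟨rd_of M0 r2 r1, fun l => ?_⟩⟩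
    obtain ⟨a, ha⟩ := ex_unit (dvd_refl N) l.coprime
    obtain ⟨m, hm⟩ := Bdd0.one_g (O := PadicInt.subring 2) M0 (Bdd0.tp_mf f1 (dg a 1)) (f2 _)
    have l0 : (l.1 : ℂ) ^ i ≠ 0 := pow_ne_zero _ (Nat.cast_ne_zero.2 l.2.1.ne_zero)
    have e := fun b => dic_coeff M0 r2 a b (H353.PA_cop2 l) ha
    have e1 : ∀ n, cf (dia _ l f) n = (y (dg a 1)).coeff (N * n) := cf_unique _ _ fun τ => by
      have := (r1 l.1 (H353.PA_cop2 l) τ).mul_left ((l.1 : ℂ) ^ i)⁻¹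
      rw [inv_mul_cancel_left₀ l0] at this
      rw [dia_coe]
      refine this.congr_fun fun n => ?_
      dsimp only
      rw [e 1, mul_assoc, inv_mul_cancel_left₀ l0, H783.qq, Function.Periodic.qParam,
        ← Complex.exp_nat_mul]
      congr 2
      push_cast
      ring
    have k : ∀ n, ∃ x : ℚ, cf (dia _ l f) n = x ∧
        Rat.padicValuation 2 x ≤ (Rat.padicValuation 2 (2 ^ m))⁻¹ := by
      intro n
      obtain ⟨x, hx⟩ := aut.1 ((y (dg a 1)).coeff (N * n)) fun σ => by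
        obtain ⟨a₁, h₁⟩ := aut.2 N σ M0
        have e2 := congrArg (PowerSeries.coeff (N * n)) (congrFun (y2 σ a₁ h₁) (dg a 1))
        rw [cj, dg_mul, one_mul, mul_one, PowerSeries.coeff_map,
          mul_left_cancel₀ l0 ((e a₁ n).symm.trans (e 1 n))] at e2
        exact e2
      refine ⟨x, by rw [e1, hx], ?_⟩
      have := Rat.padicValuation_le_one_iff.2 (d5 (2 ^ m * x) (by
        push_cast
        rw [hx]
        exact hm _)).not_two_dvd_nat
      rwa [map_mul, ← le_inv_mul_iff₀ (zero_lt_iff.2 (by simp)), mul_one] at this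
    choose x x1 using k
    exact ⟨x, _, x1⟩
  choose F hF using key
  refine ⟨t.image F, eq_top_iff.2 fun f _ => ?_, fun f hf => ?_⟩
  · obtain ⟨c, hc⟩ := H353.exists_rep f
    obtain ⟨s, s1, s2⟩ := tup N 1 N i M0 (one_dvd _) dvd_rfl f c hc
    have k : ∀ s ∈ Submodule.span ℂ (t : Set (FT N ℂ)),
        ∃ f' ∈ Submodule.span ℂ ((t.image F : Finset _) : Set (MF N (i + 1))), Rd _ N i s f' := by
      intro s hs
      induction hs using Submodule.span_induction with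
      | mem y hy => exact ⟨_, Submodule.subset_span
          (Finset.mem_coe.2 (Finset.mem_image_of_mem F hy)), (hF y hy).1⟩
      | zero => exact ⟨0, zero_mem _, rd_zero⟩
      | add a b _ _ ha hb =>
        obtain ⟨f1, m1, r1⟩ := ha
        obtain ⟨f2, m2, r2⟩ := hb
        exact ⟨_, add_mem m1 m2, rd_add r1 r2⟩
      | smul z a _ ha =>
        obtain ⟨f1, m1, r1⟩ := ha
        exact ⟨_, Submodule.smul_mem _ z m1, rd_smul z r1⟩
    obtain ⟨f', m, r⟩ := k s (t2 s1)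
    rwa [rd_inj (rd_of M0 s2 hc) r]
  · obtain ⟨y, hy, rfl⟩ := Finset.mem_image.1 hf
    exact (hF y hy).2

end Vale.Agent.P014Y.W1.Rat
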