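import Vale.Agent.P014Y.W1.Fun0
import Vale.Agent.P014Y.W1.Bg
import Vale.Agent.P014Y.W1.Rat
import Vale.Agent.P004M.D.Du0

/-!
# P014Y, block W1, row DU: a limit system is a congruence limit of expansions
-/

set_option autoImplicit false
set_option linter.all false

open UpperHalfPlane hiding I
open Matrix CongruenceSubgroup
open scoped MatrixGroups ModularForm

noncomputable section

namespace Vale.Agent.P014Y.W1

open Vale.Agent.P022 Vale.Agent.P022.H783 Vale.Agent.P022K.UC Vale.Agent.P022K.UC.Hm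
open Vale.Agent.P022.H567.Tw (cf cf_unique tz cf_tz gen_inr uℓ dec)
open Vale.Agent.P022.H811.L3 (zero_of_coeff)
open Vale.Agent.P022.H218.L3 (IsMF isMF_of_form)
open Vale.Agent.P004M.A6 (dia_mul)
open Vale.Agent.P004M.Du (Rb ex_pa)

variable {N : ℕ} [NeZero N]

theorem k3_pa (d3 : 3 ∣ N) (l : PA N) : (k3 l.1 : ℂ) * k3 l.1 = 1 := by
  exact_mod_cast congrArg (Int.cast : ℤ → ℂ) (k3_sq (x := l.1) fun e => l.2.2 (by
    rw [← (Nat.prime_dvd_prime_iff_eq Nat.prime_three l.2.1).1 (Int.natCast_dvd_natCast.1 e)]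
    exact d3.mul_left 2))

theorem rb_mul (z : ℤ) {c : ℕ → ℂ} (h : Rb c) : Rb fun n => z * c n := by
  obtain ⟨x, g, h⟩ := h
  refine ⟨fun n => z * x n, g, fun n => ⟨by simp [h], ?_⟩⟩
  rw [map_mul]
  exact (mul_le_mul' (Rat.padicValuation_le_one_iff.2 (by simp)) (h n).2).trans (one_mul g).le

/-- the forms with character `k3` and rational bounded coefficients span -/
theorem tx_ind (d3 : 3 ∣ N) {k : ℕ} (h0 : k ≠ 0) (S : Submodule ℂ (MF N k))
    (h : ∀ f, Tx f → Rb (cf f) → f ∈ S) (f : MF N k) (hf : Tx f) : f ∈ S := by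
  obtain ⟨t, t1, t2⟩ := Rat.ratd' N k (Nat.le_of_dvd (NeZero.pos N) d3) h0
  choose l l1 using fun d : (ZMod N)ˣ => ex_pa d.isUnit
  have e : (⊤ : Submodule ℂ (MF N k)) ≤ S.comap (∑ d, (k3 (l d).1 : ℂ) • dia k (l d)) := by
    rw [← t1, Submodule.span_le]
    refine fun f hf => h _ (fun p => ?_) ?_
    · rw [LinearMap.sum_apply, map_sum, ← Equiv.sum_comp
        (Equiv.mulRight (ZMod.unitOfCoprime p.1 p.coprime))
        fun d => ((k3 (l d).1 : ℂ) • dia k (l d)) f, Finset.smul_sum]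
      refine Finset.sum_congr rfl fun d _ => ?_
      have e1 : ((l (d * ZMod.unitOfCoprime p.1 p.coprime)).1 : ZMod N) = (l d).1 * p.1 := by
        simp [l1]
      simp only [Equiv.coe_mulRight]
      rw [LinearMap.smul_apply, LinearMap.smul_apply, map_smul, dia_mul _ e1, smul_smul,
        k3_cast d3 (x := (l (d * _)).1) (y := (l d).1 * p.1) (by exact_mod_cast e1), k3_mul,
        Int.cast_mul, mul_left_comm, k3_pa d3, mul_one]
    · convert Rb.sum Finset.univ fun d => rb_mul (k3 (l d).1) (t2 f hf (l d)) with n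
      rw [← cfL_apply, LinearMap.sum_apply, map_sum]
      simp only [LinearMap.smul_apply, map_smul, cfL_apply, smul_eq_mul]
  have := e (Submodule.mem_top (x := f))
  rw [Submodule.mem_comap, LinearMap.sum_apply, Finset.sum_congr rfl (g := fun _ => f)
    fun d _ => by rw [LinearMap.smul_apply, hf, smul_smul, k3_pa d3, one_smul],
    Finset.sum_const, ← Nat.cast_smul_eq_nsmul ℂ] at this
  exact (S.smul_mem_iff (Nat.cast_ne_zero.2 Fintype.card_ne_zero)).1 this

/-- depletion keeps the character -/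
theorem dep_tx (M : ℕ) [NeZero M] {i : ℕ} (f : MF N (i + 1)) (hf : Tx f) :
    ∃ g : MF (N * M ^ 2) (i + 1), Tx g ∧ ∀ n, cf g n = if n.Coprime M then cf f n else 0 := by
  classical
  let c := ZMod.dft.symm fun u : ZMod M => if IsUnit (-u) then (1 : ℂ) else 0
  have key : ∀ (w : (ZMod M)ˣ) n, cf (∑ u, c u • tz N M (w * u) _ f) n =
      if n.Coprime M then cf f n else 0 := fun w n => by
    have h1 : ZMod.dft c (-(w * n : ZMod M)) = _ := congrFun (LinearEquiv.apply_symm_apply _ _) _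
    rw [ZMod.dft_apply, neg_neg] at h1
    simp only [Units.isUnit_units_mul, ZMod.isUnit_iff_coprime, mul_neg, neg_neg,
      smul_eq_mul] at h1
    rw [← cfL_apply, map_sum]
    simp only [map_smul, cfL_apply, cf_tz, smul_eq_mul, ← mul_assoc, ← Finset.sum_mul]
    rw [Finset.sum_congr rfl fun u _ => (mul_comm (c u) _).trans (by
      rw [mul_comm (w : ZMod M) u, mul_assoc u]), h1]
    split_ifs <;> simp
  refine ⟨∑ u, c u • tz N M ((1 : (ZMod M)ˣ) * u) _ f, fun l => ?_, key 1⟩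
  refine sub_eq_zero.1 (zero_of_coeff (by omega) _ fun n _ => ?_)
  show cfL _ _ n _ = 0
  rw [map_sub, map_smul, cfL_apply, cfL_apply, key, ← key (uℓ l ^ 2), sub_eq_zero, map_sum,
    ← cfL_apply n (∑ u, _ • tz _ _ _ _ _), ← map_smul, Finset.smul_sum, cfL_apply]
  refine congrArg (cf · n) (Finset.sum_congr rfl fun u _ => ?_)
  rw [map_smul, Units.val_one, one_mul, smul_comm]
  refine congrArg _ (smul_right_injective _ (pow_ne_zero i
    (Nat.cast_ne_zero.2 l.2.1.ne_zero : (l.1 : ℂ) ≠ 0)) ((gen_inr u i l f).trans ?_))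
  exact (map_smul (tz N M _ _) _ _).trans
    (congrArg _ ((congrArg _ (hf _)).trans (map_smul (tz N M _ _) _ _)))

open PowerSeries in
/-- relations give congruences -/
theorem relx (h2 : 2 ∣ N) (d3 : 3 ∣ N) {R : Type*} [CommRing R] (φ : R →+* ℂ) {x : ℕ → R}
    (hx : Ewx N x) {B j : ℕ} (h : UAx N x B j) :
    ∃ f : ∀ m, MF N (2 * m + 1), (∀ m, Tx (f m)) ∧ ∀ n : ℕ, ∃ (D : ℕ) (z : R), Odd D ∧
      D * ((n : ℂ) ^ B * φ (x n) - ∑ m ∈ Finset.range (B + 1), (n : ℂ) ^ B * nx N m n (f m)) =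
        2 ^ j * φ z := by
  classical
  have fd : ∀ m, FiniteDimensional ℂ (MF N (2 * m + 1)) := fun m => by
    obtain ⟨t, t1, -⟩ := Rat.ratd' N (2 * m + 1) (Nat.le_of_dvd (NeZero.pos N) d3) (by omega)
    exact ⟨⟨t, t1⟩⟩
  let Φ : (∀ m : Fin (B + 1), TX N (2 * m + 1)) →ₗ[ℂ] ℂ⟦X⟧ :=
    { toFun := fun f => PowerSeries.mk fun n => ∑ m : Fin (B + 1), (n : ℂ) ^ B * nx N m n (f m)
      map_add' := fun f g => PowerSeries.ext fun n => by
        simp [mul_add, Finset.sum_add_distrib]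
      map_smul' := fun c f => PowerSeries.ext fun n => by
        simp [Finset.mul_sum, mul_left_comm] }
  let v := Rat.padicValuation 2
  let V : Submodule ℚ ℚ⟦X⟧ :=
    { carrier := {y | PowerSeries.map (algebraMap ℚ ℂ) y ∈ LinearMap.range Φ ∧
        ∃ g, ∀ n, v (coeff n y) ≤ g}
      zero_mem' := ⟨by simp, 0, by simp⟩
      add_mem' := fun ⟨h1, g, h2⟩ ⟨h3, g', h4⟩ => ⟨by rw [map_add]; exact add_mem h1 h3,
        max g g', fun n => by
          rw [map_add]
          exact v.map_add_le ((h2 n).trans (le_max_left _ _)) ((h4 n).trans (le_max_right _ _))⟩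
      smul_mem' := fun c y ⟨h1, g, h2⟩ => ⟨by
          rw [smul_eq_C_mul, map_mul, map_C, ← smul_eq_C_mul]
          exact Submodule.smul_mem _ _ h1, v c * g, fun n => by
          rw [map_smul, smul_eq_mul, map_mul]
          exact mul_le_mul_right (h2 n) _⟩ }
  haveI := (Rt.dim (E := ℚ) (LinearMap.range Φ)).1
  haveI : FiniteDimensional ℚ V := Submodule.finiteDimensional_of_le
    (show V ≤ Rt ℚ (LinearMap.range Φ) from fun y hy => by
      convert Rt.of (E := ℚ) hy.1 using 1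
      ext n
      simp)
  obtain ⟨b, p, r1, r2⟩ := echelon v _ V rfl fun y hy => hy.2
  have key : ∀ m ≤ B, ∀ (f : MF N (2 * m + 1)), Tx f → ∀ n : ℕ, (n : ℂ) ^ B * nx N m n f =
      ∑ k, ((p k : ℂ) ^ B * nx N m (p k) f) * (coeff n (b k) : ℚ) := fun m hm f hf n => by
    have := tx_ind d3 (by omega) (LinearMap.ker ((n : ℂ) ^ B • nx N m n -
      ∑ k, ((coeff n (b k) : ℚ) * (p k : ℂ) ^ B) • nx N m (p k))) (fun f hf ⟨c, g, hc⟩ => ?_) f hf
    · simpa [sub_eq_zero, mul_comm, mul_left_comm, mul_assoc] using this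
    obtain ⟨r, rfl⟩ := Nat.exists_eq_add_of_le hm
    let y : ℚ⟦X⟧ := PowerSeries.mk fun n => (n : ℚ) ^ r * if n.Coprime (2 * N) then c n else 0
    have e : ∀ n : ℕ, (n : ℂ) ^ (m + r) * nx N m n f = (coeff n y : ℚ) := fun n => by
      rw [coeff_mk, nx]
      split_ifs with hn
      · have : (n : ℂ) ≠ 0 := Nat.cast_ne_zero.2 (by
          rintro rfl
          have := Nat.coprime_zero_left _ |>.1 hn
          omega)
        rw [LinearMap.smul_apply, cfL_apply, (hc n).1, smul_eq_mul]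
        push_cast
        field_simp
        ring
      · simp
    have hy : y ∈ V := by
      refine ⟨⟨Pi.single ⟨m, by omega⟩ ⟨f, hf⟩, PowerSeries.ext fun n => ?_⟩, g, fun n => ?_⟩
      · rw [coeff_map, eq_ratCast, ← e]
        simp only [Φ, LinearMap.coe_mk, AddHom.coe_mk, coeff_mk]
        rw [Finset.sum_eq_single (⟨m, by omega⟩ : Fin (m + r + 1)) (fun i _ hi => by
          rw [Pi.single_eq_of_ne hi]
          simp) (by simp), Pi.single_eq_same]
      · rw [coeff_mk, map_mul, map_pow]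
        refine (mul_le_mul' (pow_le_one' (Rat.padicValuation_le_one_iff.2 (by simp)) _)
          (?_ : _ ≤ g)).trans (one_mul g).le
        split_ifs
        · exact (hc n).2
        · simp
    simp only [LinearMap.mem_ker, LinearMap.sub_apply, LinearMap.sum_apply, LinearMap.smul_apply,
      smul_eq_mul, mul_assoc, e, sub_eq_zero]
    nth_rewrite 1 [r2 y hy]
    simp [mul_comm]
  obtain ⟨f, hf⟩ := sum_mem (t := Finset.univ) fun k _ =>
    Submodule.smul_mem _ ((p k : ℂ) ^ B * φ (x (p k))) (r1 k).1.1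
  refine ⟨fun m => if h : m < B + 1 then f ⟨m, h⟩ else 0, fun m => ?_, fun n => ?_⟩
  · dsimp only
    split_ifs
    · exact (f _).2
    · exact (TX N _).zero_mem
  obtain ⟨D, a, h1, h3⟩ := ex_int (fun k => coeff n (b k)) fun k =>
    Rat.padicValuation_le_one_iff.1 ((r1 k).2 n)
  have h4 : ∀ k, (a k : ℂ) = D * (coeff n (b k) : ℚ) := fun k => by
    exact_mod_cast congrArg (Rat.cast : ℚ → ℂ) (h3 k)
  obtain ⟨z, hz⟩ := rel_of_uax h2 hx h (Option (Fin _))
    (fun i => i.elim (D * n ^ B) fun k => -(a k * p k ^ B)) (fun i => i.elim n p)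
    fun m hm f hf => by
      simp only [Fintype.sum_option, Option.elim]
      push_cast
      rw [mul_assoc, key m hm f hf n, Finset.mul_sum, ← Finset.sum_add_distrib]
      refine Finset.sum_eq_zero fun k _ => ?_
      rw [h4]
      ring
  refine ⟨D, z, h1, ?_⟩
  have h5 := (coeff_mk n fun n : ℕ => ∑ m : Fin (B + 1), (n : ℂ) ^ B * nx N m n (f m)).symm.trans
    (congrArg (coeff n) hf)
  have h6 := congrArg φ hz
  simp only [Fintype.sum_option, Option.elim, map_add, map_sum, map_mul, map_intCast, map_pow,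
    map_ofNat] at h6
  push_cast at h6
  rw [Finset.sum_range, ← h6]
  simp only [Fin.is_lt, dite_true, Fin.eta]
  rw [h5, mul_sub, map_sum, Finset.mul_sum, sub_eq_add_neg,
    ← Finset.sum_neg_distrib, mul_assoc]
  refine congrArg _ (Finset.sum_congr rfl fun k _ => ?_)
  rw [h4, map_smul, coeff_map, smul_eq_mul, eq_ratCast]
  ring

theorem J_int {A : ValuationSubring ℂ} (x : O) : A.valuation (J x) ≤ 1 := by
  have e : (Complex.I * (√2 : ℝ) : ℂ) ^ 2 = ((-2 : ℤ) : ℂ) := by
    rw [mul_pow, Complex.I_sq, ← Complex.ofReal_pow, Real.sq_sqrt zero_le_two]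
    norm_num
  have := (A.valuation_le_one_iff _).2 (intCast_mem A (-2))
  rw [← e, map_pow] at this
  rw [J_apply, A.valuation_le_one_iff]
  exact add_mem (intCast_mem _ _) (mul_mem (intCast_mem _ _) ((A.valuation_le_one_iff _).1
    ((pow_le_one_iff two_ne_zero).1 this)))

/-- **DU** -/
theorem dux : DUx := by
  intro A hA N _ a _ d3 h j
  obtain ⟨x, x1, x2, x3⟩ := ex_eig (M := 2 * N) (by omega) a fun l => (k3 l : O)
  obtain ⟨B, hB⟩ := h j
  have co : ∀ n : ℕ, n.Coprime (2 * (N * 2)) ↔ n.Coprime (2 * N) := fun n => by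
    simp only [Nat.coprime_mul_iff_right]
    tauto
  have hp : ∀ l : PA (N * 2), ¬ l.1 ∣ 2 * N := fun l e => l.2.2 (e.trans ⟨2, by ring⟩)
  obtain ⟨f, f1, f2⟩ := relx (N := N * 2) (dvd_mul_left _ _) (d3.mul_right _) J (x := x) (B := B)
    (j := j) ⟨x1, fun n hn => x2 n (mt (co n).2 hn), fun l => (x3 _ l.2.1 (hp l)).2⟩
    (uax_raise 2 (fun l => (x3 _ l.2.1 (hp l)).1) hB)
  choose g g1 g2 using fun m => dep_tx (2 * N) (i := 2 * m) (f m) (f1 m)
  refine ⟨x, B, fun m => g m, fun m => cf (g m), ⟨x1, x2, fun l => (x3 _ l.2.1 l.2.2).2⟩,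
    fun l => (x3 _ l.2.1 l.2.2).1, fun m => ⟨?_, hasSum_form (g m)⟩, fun n => ?_⟩
  · have k := (g1 m).mx ((d3.mul_right _).mul_right _)
    have dv : N * 2 * (2 * N) ^ 2 ∣ N ^ 3 * 2 ^ 5 := ⟨4, by ring⟩
    refine ⟨k.mf.mono fun γ hγ => ?_, fun γ hγ => k.chi γ ?_⟩
    · rw [Gamma1_mem] at hγ ⊢
      have c := fun {u v : ℤ} (e : (u : ZMod (N ^ 3 * 2 ^ 5)) = v) =>
        (ZMod.intCast_eq_intCast_iff_dvd_sub u v _).2 ((Int.natCast_dvd_natCast.2 dv).trans
          ((ZMod.intCast_eq_intCast_iff_dvd_sub u v _).1 e))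
      exact ⟨by simpa using c (v := 1) (by simpa using hγ.1),
        by simpa using c (v := 1) (by simpa using hγ.2.1),
        by simpa using c (v := 0) (by simpa using hγ.2.2)⟩
    · rw [Gamma0_mem, ZMod.intCast_zmod_eq_zero_iff_dvd] at hγ ⊢
      exact (Int.natCast_dvd_natCast.2 dv).trans hγ
  obtain ⟨D, z, ⟨d, rfl⟩, e⟩ := f2 n
  rw [Finset.sum_congr rfl (g := fun m => (n : ℂ) ^ (B - m) * cf (g m) n) fun m hm => by
    rw [g2, nx]
    simp only [co]
    split_ifs with hn
    · have : (n : ℂ) ≠ 0 := Nat.cast_ne_zero.2 (by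
        rintro rfl
        have := Nat.coprime_zero_left _ |>.1 hn
        omega)
      rw [LinearMap.smul_apply, cfL_apply, smul_eq_mul, ← mul_assoc,
        pow_sub₀ _ this (Nat.lt_succ_iff.1 (Finset.mem_range.1 hm))]
    · simp] at e
  have h1 := congrArg A.valuation e
  rw [map_mul, map_mul, map_pow, Nat.cast_add, Nat.cast_one, add_comm,
    A.valuation.map_one_add_of_lt (by
      rw [Nat.cast_mul, map_mul]
      exact mul_lt_one_of_lt_of_le hA.two (A.valuation_le_one_iff _ |>.2 (natCast_mem A d))),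
    one_mul] at h1
  rw [h1]
  exact mul_le_of_le_one_right' (J_int z)

end Vale.Agent.P014Y.W1
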