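import Vale.Agent.P004M.D.Se

/-!
# P014Y, block W1: Serre's trace to odd level, with a multiplier
-/

set_option autoImplicit false
set_option linter.all false

open scoped ModularForm MatrixGroups Manifold Real
open UpperHalfPlane Matrix CongruenceSubgroup

noncomputable section

namespace Vale.Agent.P014Y.W1.Se

open Vale.Agent.P022 Vale.Agent.P022.H220 Vale.Agent.P022.H645 Vale.Agent.P022.H218.L3
open Vale.Agent.P022.H353 Vale.Agent.P022.H67 Vale.Agent.P022D Vale.Agent.P022K.UC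
open Vale.Agent.P004M.D.Se

/-- Serre's trace from `Γ₀(M) ∩ Γ₀(2 ^ t)` to `Γ₀(M)` -/
theorem tr0 {O : Subring ℂ} (hO : Ex.RootStable O.toAddSubgroup) {M t k R : ℕ} (hM : Odd M)
    (hR : 0 < R) (B n : ℕ) {F : ℍ → ℂ} {ψ : SL(2, ℤ) → ℂ}
    (hψ : ∀ r ∈ Gamma M, ∀ r' ∈ Gamma M, ∀ δ, ψ (r * δ * r'⁻¹) = ψ δ)
    (hF : ∀ γ ∈ Gamma0 M, γ ∈ Gamma0 (2 ^ t) → F ∣[(k : ℤ)] γ = ψ γ • F)
    (hFe : ∀ γ : SL(2, ℤ), Ex (two O (-B)) R (F ∣[(k : ℤ)] γ)) :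
    ∃ G, Bdd ((k + 2 ^ n * H889.kk t : ℕ) : ℤ) G ∧
      (∀ γ ∈ Gamma0 M, G ∣[((k + 2 ^ n * H889.kk t : ℕ) : ℤ)] γ = ψ γ • G) ∧
      Ex (two O (n + 1 - B)) (R * 2 ^ t) fun τ => G τ - F τ := by
  have hH1 : Ex (two O 1) (R * 2 ^ t) (fun τ => H889.H t τ - 1) := by
    have h1 := Ex.up one_pos (S := R * 2 ^ t) (by positivity) (H889.H_one O t)
    rw [one_mul] at h1
    refine Ex.congr (fun τ => ?_) (Ex.smul (c := 2) (B := two O 1) (fun a ha => ⟨a, ha, by simp⟩)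
      h1)
    push_cast
    ring
  have hH2 : ∀ γ : SL(2, ℤ), γ ∉ Gamma0 (2 ^ t) →
      Ex (two O 1) (R * 2 ^ t) (H889.H t ∣[((H889.kk t : ℕ) : ℤ)] γ) := fun γ hγ => by
    have h2 := Ex.up (by positivity) (S := R) hR
      (H889.H_off O hO t γ fun h => hγ (gamma0_of_dvd h))
    rw [mul_comm] at h2
    refine Ex.congr (fun τ => ?_) (Ex.smul (c := 2) (B := two O 1) (fun a ha => ⟨a, ha, by simp⟩)
      h2)
    ring
  have hH := fun γ (h : γ ∈ Gamma0 (2 ^ t)) => H889.H_inv t γ (dvd_of_gamma0 h)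
  have hE := fun γ => Ex.up hR (Nat.two_pow_pos t) (hFe γ)
  generalize H889.H t = H, H889.kk t = h at hH1 hH2 hH
  have e1 := slash_mul_pow k h (2 ^ n) F H
  have e0 : ∀ γ ∈ Gamma0 M, γ ∈ Gamma0 (2 ^ t) →
      (fun τ => F τ * H τ ^ 2 ^ n) ∣[((k + 2 ^ n * h : ℕ) : ℤ)] γ =
        ψ γ • fun τ => F τ * H τ ^ 2 ^ n := fun γ h1 h2 => by
    rw [e1, hF γ h1 h2, hH γ h2]
    funext τ
    simp only [Pi.smul_apply, smul_eq_mul, mul_assoc]
  generalize (fun τ => F τ * H τ ^ 2 ^ n) = f, ((k + 2 ^ n * h : ℕ) : ℤ) = w at e1 e0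
  have hle : ((n : ℤ) + 1) ≤ ((2 ^ n : ℕ) : ℤ) := by exact_mod_cast Nat.lt_two_pow_self
  have e2 : ∀ γ : SL(2, ℤ), γ ∉ Gamma0 (2 ^ t) →
      Ex (two O (n + 1 - B)) (R * 2 ^ t) (f ∣[w] γ) := fun γ hγ => by
    rw [e1]
    exact Ex.mono (two_anti O (by linarith)) (Ex.mul (two_mul_mem (m := -B) (n := (2 ^ n : ℕ)))
      (hE γ) (Ex_pow (hH2 γ hγ) (2 ^ n)))
  have e3 : ∀ γ ∈ Gamma0 (2 ^ t), Ex (two O (n + 1 - B)) (R * 2 ^ t)
      (fun τ => (f ∣[w] γ) τ - (F ∣[(k : ℤ)] γ) τ) := fun γ hγ => by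
    rw [e1, hH γ hγ]
    exact Ex.congr (fun τ => by ring) (Ex.mono (two_anti O (by linarith))
      (Ex.mul (two_mul_mem (m := -B) (n := (n + 1))) (hE γ) (Ex_one_pow hH1 n)))
  have e4 : ∀ γ : SL(2, ℤ), Ex (two O (-B)) (R * 2 ^ t) (f ∣[w] γ) := fun γ => by
    by_cases hγ : γ ∈ Gamma0 (2 ^ t)
    · exact Ex.congr (fun τ => by ring)
        (Ex.add (Ex.mono (two_anti O (by linarith)) (e3 γ hγ)) (hE γ))
    · exact Ex.mono (two_anti O (by linarith)) (e2 γ hγ)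
  have : NeZero (2 ^ t) := ⟨by positivity⟩
  obtain ⟨ι, _, _, i0, r, h0, h1, h2, -, -, h5⟩ := H875.cos (N := M) (M := 2 ^ t)
    (Nat.Coprime.pow_right t (Nat.coprime_two_right.2 hM))
  have h1' : ∀ i, r i ∈ Gamma0 M := fun i => Gamma0_mem.2 (Gamma_mem.1 (h1 i)).2.2.1
  have e5 : ∀ γ : SL(2, ℤ), Ex (two O (-B)) (R * 2 ^ t) ((∑ i, f ∣[w] r i) ∣[w] γ) := fun γ => by
    rw [SlashAction.sum_slash]
    refine Ex.congr (fun τ => Finset.sum_apply _ _ _) (Ex.sum _ fun i _ => ?_)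
    rw [slash_mk]
    exact e4 _
  have e6 := e5 1
  rw [slash_one_eq] at e6
  refine ⟨∑ i, f ∣[w] r i, ⟨Ex_mdiff (by positivity) e6, fun γ => Ex_bdd (e5 γ)⟩,
    fun δ hδ => ?_, ?_⟩
  · obtain ⟨σ, hσ⟩ := h5 δ
    rw [SlashAction.sum_slash, ← Equiv.sum_comp σ fun i => f ∣[w] r i, Finset.smul_sum]
    refine Finset.sum_congr rfl fun i _ => ?_
    rw [slash_mk, ← inv_mul_cancel_right (r i * δ) (r (σ i)), ← slash_mk,
      e0 _ (mul_mem (mul_mem (h1' i) hδ) (inv_mem (h1' _))) (hσ i), hψ _ (h1 i) _ (h1 _),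
      ModularForm.SL_smul_slash]
  · refine Ex.congr (fun τ => ?_) (Ex.add (e3 1 (one_mem _)) (Ex.sum (Finset.univ.erase i0)
      fun i hi => e2 (r i) fun h => Finset.ne_of_mem_erase hi (h2 i h)))
    rw [Finset.sum_apply, ← Finset.add_sum_erase _ _ (Finset.mem_univ i0), h0, slash_one_eq k]
    ring

variable {A : ValuationSubring ℂ} (h2 : A.valuation 2 < 1)

include h2

theorem bd (hA : Irr.Arch A) {L k : ℕ} (hL : 0 < L) {f : ℍ → ℂ} (h1 : IsMF (Gamma L) k f) :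
    ∃ B : ℕ, ∀ γ : SL(2, ℤ), Ex (two A.toSubring (-B)) L (f ∣[(k : ℤ)] γ) := by
  have : NeZero L := ⟨hL.ne'⟩
  obtain ⟨c, c0, hc⟩ := Irr.bnd A hA hL h1
  obtain ⟨B, hB⟩ := hA 2⁻¹ c (fun e => by
    have := (A.valuation_le_one_iff _).2 e
    rw [map_inv₀, inv_le_one₀ (zero_lt_iff.2 ((map_ne_zero _).2 two_ne_zero))] at this
    exact h2.not_ge this) c0
  refine ⟨B, fun γ => ⟨_, fun n => ⟨_, mul_mem ((A.mem_or_inv_mem _).resolve_left hB) (hc γ n),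
    ?_⟩, exq hL (Irr.conjN h1 γ) (Irr.T_pow_Gamma L)⟩⟩
  rw [_root_.zpow_neg, zpow_natCast, inv_pow]
  field_simp

/-- **SE** with a multiplier `ψ` of level `M`, in the weights `2 m + k` -/
theorem se0 (hA : Irr.Arch A) (M s B k : ℕ) (f : ℕ → ℍ → ℂ) (c : ℕ → ℕ → ℂ) (hM : Odd M)
    {ψ : SL(2, ℤ) → ℂ} (hψ : ∀ r ∈ Gamma M, ∀ r' ∈ Gamma M, ∀ δ, ψ (r * δ * r'⁻¹) = ψ δ)
    (ψ1 : ψ 1 = 1) (ψT : ψ ModularGroup.T = 1)
    (hf : ∀ m, Bdd ((2 * m + k : ℕ) : ℤ) (f m) ∧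
      (∀ γ ∈ Gamma0 (M * 2 ^ s), f m ∣[((2 * m + k : ℕ) : ℤ)] γ = ψ γ • f m) ∧ Sm (c m) (f m))
    (j : ℕ) :
    ∃ (w : ℕ) (H : ℍ → ℂ) (d : ℕ → ℂ), Bdd ((2 * (B + 2 ^ j * w) + k : ℕ) : ℤ) H ∧
      (∀ γ ∈ Gamma0 M, H ∣[((2 * (B + 2 ^ j * w) + k : ℕ) : ℤ)] γ = ψ γ • H) ∧
      Sm d H ∧ ∀ n : ℕ, A.valuation (d n - ∑ m ∈ Finset.range (B + 1),
        (n : ℂ) ^ (B - m) * c m n) ≤ A.valuation 2 ^ j := by
  have hL : 0 < M * 2 ^ s := Nat.mul_pos hM.pos (Nat.two_pow_pos s)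
  have g0 : ∀ m, IsMF (Gamma (M * 2 ^ s)) ((2 * m + k : ℕ) : ℤ) (f m) := fun m =>
    ⟨(hf m).1.1, fun γ h => by
      have e := hψ γ (by
        rw [Gamma_mem'] at h ⊢
        have := congrArg (Matrix.SpecialLinearGroup.map (ZMod.castHom (dvd_mul_right M (2 ^ s))
          (ZMod M))) h
        rw [map_one] at this
        rw [← this]
        ext i j
        simp) 1 (one_mem _) 1
      rw [mul_one, inv_one, mul_one, ψ1] at e
      rw [(hf m).2.1 γ (Gamma0_mem.2 (Gamma_mem.1 h).2.2.1), e, one_smul], (hf m).1.2⟩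
  choose b hb using fun m => bd h2 hA hL (g0 m)
  obtain ⟨b0, h0⟩ := ((Finset.range (B + 1)).image b).bddAbove
  have hb0 : ∀ m ∈ Finset.range (B + 1), ∀ γ, Ex (two A.toSubring (-b0)) _ _ := fun m hm γ =>
    Ex.mono (two_anti _ (neg_le_neg (Int.ofNat_le.2 (h0 (by simpa using ⟨m, by simpa using hm,
      rfl⟩))))) (hb m γ)
  obtain ⟨t, ht⟩ : ∃ t, t = s + j + b0 + 2 := ⟨_, rfl⟩
  choose b' R' p' h' using itM_cusps root_mem (odd_mem h2) t b0 _ hL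
  have ew : ∀ m ∈ Finset.range (B + 1), 2 * m + k + 2 * (B - m) = 2 * B + k := fun m hm => by
    have := Finset.mem_range.1 hm
    omega
  obtain ⟨G, g1, g3, g2⟩ := tr0 (rs_self root_mem) (t := t) (k := 2 * B + k) hM
    (R := ∏ i ∈ Finset.range (B + 1), R' (B - i)) (Finset.prod_pos fun i _ => p' _)
    (∑ i ∈ Finset.range (B + 1), b' (B - i)) (j + 1 + ∑ i ∈ Finset.range (B + 1), b' (B - i))
    (F := ∑ m ∈ Finset.range (B + 1), itM t (2 * m + k) (f m) (B - m)) hψ (fun γ h1 h3 => by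
      rw [SlashAction.sum_slash, Finset.smul_sum]
      refine Finset.sum_congr rfl fun m hm => ?_
      rw [← ew m hm]
      refine itM_law t _ (hf m).1.1 γ (dvd_of_gamma0 h3) _ ((hf m).2.1 γ ?_) _
      refine gamma0_of_dvd ?_
      rw [Nat.cast_mul]
      exact IsCoprime.mul_dvd (Nat.isCoprime_iff_coprime.2 (Nat.Coprime.pow_right s
        (Nat.coprime_two_right.2 hM))) (dvd_of_gamma0 h1) ((Int.natCast_dvd_natCast.2
          (pow_dvd_pow 2 (by omega))).trans (dvd_of_gamma0 h3))) fun γ => by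
      rw [SlashAction.sum_slash]
      refine Ex.congr (fun τ => Finset.sum_apply _ _ _) (Ex.sum _ fun m hm => ?_)
      rw [← ew m hm, ← Finset.mul_prod_erase _ _ hm]
      exact Ex.mono (two_anti _ (neg_le_neg (Int.ofNat_le.2
        (Finset.single_le_sum (f := fun i => b' (B - i)) (fun _ _ => Nat.zero_le _) hm))))
        (Ex.up (p' _) (Finset.prod_pos fun i _ => p' _) (h' _ _ _ (hb0 m hm) γ))
  have hG : Hs G _ := exq (Γ := Subgroup.zpowers ModularGroup.T) one_pos ⟨g1.1, fun γ hγ => by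
    refine Subgroup.zpowers_le.2 (show ModularGroup.T ∈ (
      { carrier := {γ : SL(2, ℤ) | G ∣[_] γ = G}
        mul_mem' := fun {a b} ha hb => by
          rw [Set.mem_setOf_eq, ← slash_mk, ha, hb]
        one_mem' := slash_one_eq _ _
        inv_mem' := fun {a} ha => by
          rw [Set.mem_setOf_eq] at ha ⊢
          conv_lhs => rw [← ha, slash_mk, mul_inv_cancel, slash_one_eq] } : Subgroup SL(2, ℤ)) from ?_) hγ
    show G ∣[_] _ = G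
    rw [g3 _ (gamma0_of_dvd (by simp [ModularGroup.T])), ψT, one_smul], g1.2⟩
    (by rw [pow_one]; exact Subgroup.mem_zpowers _)
  have hc := fun m => sm_iff.1 (hf m).2.2
  choose! e e1 e2 using fun m (hm : m ∈ Finset.range (B + 1)) =>
    itM_coeff (by simpa using odd_mem h2 3 (by decide)) root_mem t (2 * m + k) (by omega) (-b0)
      (f m) (c m) ((hc m).mem hL (slash_one_eq _ (f m) ▸ hb0 m hm 1)) (hc m) (B - m)
  have ek : 2 * (B + 2 ^ j * (2 ^ (∑ i ∈ Finset.range (B + 1), b' (B - i)) * H889.kk t)) + k =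
      2 * B + k + 2 ^ (j + 1 + ∑ i ∈ Finset.range (B + 1), b' (B - i)) * H889.kk t := by ring
  refine ⟨2 ^ (∑ i ∈ Finset.range (B + 1), b' (B - i)) * H889.kk t, G, _, ek ▸ g1, ek ▸ g3,
    sm_iff.2 hG, fun n => le_of_two ?_⟩
  have h3 := (hG.sub (Hs.sum _ e2)).mem (Nat.mul_pos (Finset.prod_pos fun i _ => p' _)
    (Nat.two_pow_pos t)) (Ex.congr (fun τ => by rw [Finset.sum_apply]) g2) n
  have h4 := (two _ _).sum_mem fun m hm => e1 m hm n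
  rw [Finset.sum_sub_distrib] at h4
  have := add_mem (two_anti _ (m := j) (by push_cast; omega) h3)
    (two_anti _ (m := j) (by omega) h4)
  rwa [sub_add_sub_cancel] at this

end Vale.Agent.P014Y.W1.Se
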