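import Vale.Agent.P014Y.W1.Hk
import Vale.Agent.P014Y.W1.Bg
import Vale.Agent.P014Y.W1.Se

/-!
# P014Y, block W1: the rows SE and D0
-/

set_option autoImplicit false
set_option linter.all false

open UpperHalfPlane CongruenceSubgroup
open scoped MatrixGroups ModularForm

noncomputable section

namespace Vale.Agent.P014Y.W1

open Vale.Agent.P022 Vale.Agent.P022.H218.L3 Vale.Agent.P022K.UC Vale.Agent.P022K.UC.Hm
open Vale.Agent.P004M.D Vale.Agent.P004M.D.Hk

theorem Mx.of {M k : ℕ} [NeZero M] (h3 : 3 ∣ M) {f : ℍ → ℂ} (h : Bdd (k : ℤ) f)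
    (e : ∀ γ ∈ Gamma0 M, f ∣[(k : ℤ)] γ = (k3 (γ 1 1) : ℂ) • f) : Mx M k f :=
  ⟨⟨h.1, fun γ hγ => by
    rw [e γ (Gamma1_in_Gamma0 M hγ), k3_cast h3 (y := 1)
      (by simpa using ((Gamma1_mem M γ).1 hγ).2.1), k3_one, Int.cast_one, one_smul], h.2⟩, e⟩

/-- **SE** -/
theorem sex : SEx := fun A hA M s B f c hM h3 hf j => by
  have : NeZero M := ⟨hM.pos.ne'⟩
  obtain ⟨w, H, d, h1, h2, h4⟩ := Se.se0 hA.two hA.arch M s B 1 f c hM
    (ψ := fun γ => (k3 (γ 1 1) : ℂ)) (fun r hr r' hr' δ => congrArg _ (k3_cast h3 (by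
      have e : Matrix.SpecialLinearGroup.map (Int.castRingHom (ZMod M)) (r * δ * r'⁻¹) =
          Matrix.SpecialLinearGroup.map (Int.castRingHom (ZMod M)) δ := by
        rw [map_mul, map_mul, map_inv, Gamma_mem'.1 hr, Gamma_mem'.1 hr', inv_one, one_mul, mul_one]
      exact congrArg (fun x : SL(2, ZMod M) => x 1 1) e)))
    (by simp) (by simp [ModularGroup.T])
    (fun m => ⟨⟨(hf m).1.mf.hol, (hf m).1.mf.bdd⟩, (hf m).1.chi, (hf m).2⟩) j
  exact ⟨w, H, d, Mx.of h3 h1 h2, h4⟩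

/-- **D0** -/
theorem d0_of (hU : DUx) (hS : SEx) : D0x := by
  intro A hA N _ a hN h3 ha j
  obtain ⟨x, B, f, c, hx, xa, hf, e1⟩ := hU A hA N a hN h3 ha (j + 1)
  obtain ⟨w, H, d, h1, h2, e2⟩ := hS A hA (N ^ 3) 5 B f c hN.pow
    (h3.trans (dvd_pow_self N three_ne_zero)) hf (j + 1)
  have e : ∀ n : ℕ, A.valuation (d n - (n : ℂ) ^ (B + 2 ^ (j + 1) * w) * J (x n)) ≤
      A.valuation 2 ^ (j + 1) := fun n => by
    obtain ⟨k, hk⟩ : (2 : O) ^ (j + 1) ∣ ((n : O) ^ (2 ^ (j + 1) * w) - 1) * x n := by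
      rcases Nat.even_or_odd' n with ⟨k, rfl | rfl⟩
      · rw [hx.dep _ fun e => by simpa using e.coprime_mul_right.coprime_mul_right_right, mul_zero]
        exact dvd_zero _
      · refine Dvd.dvd.mul_right ?_ _
        have := dvd_sub_pow_of_dvd_sub (R := O) (p := 2) (a := (2 * k + 1 : ℕ)) (b := 1)
          ⟨k, by push_cast; ring⟩ (j + 1)
        rw [one_pow] at this
        rw [pow_mul]
        exact ((pow_dvd_pow _ (Nat.le_succ _)).trans this).trans (sub_one_dvd_pow_sub_one _ _)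
    have hk' : ((n : ℂ) ^ (2 ^ (j + 1) * w) - 1) * J (x n) = 2 ^ (j + 1) * J k := by
      simpa [map_ofNat] using congrArg J hk
    rw [show d n - (n : ℂ) ^ (B + 2 ^ (j + 1) * w) * J (x n) =
      (d n - ∑ m ∈ Finset.range (B + 1), (n : ℂ) ^ (B - m) * c m n) - ((n : ℂ) ^ B * J (x n) -
        ∑ m ∈ Finset.range (B + 1), (n : ℂ) ^ (B - m) * c m n) - (n ^ B * J k) * 2 ^ (j + 1) by
      linear_combination (-(n : ℂ) ^ B) * hk']
    exact A.valuation.map_sub_le (A.valuation.map_sub_le (e2 n) (e1 n))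
      (val_mul_le (mul_mem (pow_mem (natCast_mem A n) _) (J_mem k)) (map_pow _ _ _).le)
  generalize B + 2 ^ (j + 1) * w = m at h1 e
  have lt : A.valuation 2 ^ (j + 1) < 1 := pow_lt_one₀ zero_le' hA.two (Nat.succ_ne_zero j)
  refine ⟨m, H, d, ⟨h1, h2, fun n => ?_⟩, ?_, fun l hl k n => ?_⟩
  · have := add_mem (mem_of_lt ((e n).trans_lt lt))
      (mul_mem (pow_mem (natCast_mem A n) m) (J_mem (x n)))
    rwa [sub_add_cancel] at this
  · have := A.valuation.map_one_add_of_lt ((e 1).trans_lt lt)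
    simpa [hx.one] using this
  · have k1 : J (x (l * n)) + (if l ∣ n then (k3 l : ℂ) * J (x (n / l)) else 0) =
        J (a l) * J (x n) := by
      have := congrArg J (hx.hecke ⟨l, hl, k⟩ n)
      rw [xa ⟨l, hl, k⟩] at this
      simpa [apply_ite] using this
    refine le_trans ?_ (pow_le_pow_right_of_le_one' hA.two.le (Nat.le_succ j))
    have lA := natCast_mem A l
    have k2 := A.valuation.map_sub_le (e (l * n))
      (val_mul_le (mul_mem (pow_mem lA m) (J_mem (a l))) (e n))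
    split_ifs at k1 ⊢ with k4
    · obtain ⟨n, rfl⟩ := k4
      rw [Nat.mul_div_cancel_left _ hl.pos] at k1 ⊢
      refine le_of_eq_of_le (congrArg _ ?_) (A.valuation.map_add_le k2
        (val_mul_le (mul_mem (intCast_mem A (k3 l)) (pow_mem lA (2 * m))) (e n)))
      push_cast
      linear_combination ((l : ℂ) * (l * n)) ^ m * k1
    · refine le_of_eq_of_le (congrArg _ ?_) k2
      push_cast
      linear_combination ((l : ℂ) * n) ^ m * k1

end Vale.Agent.P014Y.W1
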