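import Vale.Agent.P014Y.W1.Ama2

/-!
# P014Y, block W1: step (4) for a relation of weights `2, 4, 6, k`
-/

set_option autoImplicit false

open UpperHalfPlane ModularForm CongruenceSubgroup Polynomial
open scoped MatrixGroups ModularForm Real PowerSeries

noncomputable section

namespace Vale.Agent.P014Y.W1

open Vale.Agent.P022.H218.L3 Vale.Agent.P022K.UC Vale.Agent.P022K.UC.Am

/-- a homogeneous relation in weight zero -/
theorem rel1 {L : Type} [Field L] [Algebra ℂ L] {K : IntermediateField ℂ L} {ω t f : L} {j u : K}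
    (hj : Transcendental ℂ j) (h0 : ω ≠ 0) (u0 : u ≠ 0)
    {κ D : ℕ} {P : MvPolynomial (Fin 4) ℂ} (P0 : P ≠ 0)
    (hP : P.IsWeightedHomogeneous ![2, 4, 6, κ] D)
    (h : MvPolynomial.aeval ![ω ^ 2 * u * t, ω ^ 4 * u ^ 2 * j, ω ^ 6 * u ^ 3 * j, ω ^ κ * f] P = 0) :
    ∃ R : K[X][X], R ≠ 0 ∧ eval₂ (aeval t : K[X] →ₐ[K] L).toRingHom f R = 0 := by
  classical
  have hw : ∀ d ∈ P.support, 2 * (d 0 + 2 * d 1 + 3 * d 2) + κ * d 3 = D := fun d hd => by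
    have h1 := hP (MvPolynomial.mem_support_iff.1 hd)
    rw [Finsupp.weight_apply, Finsupp.sum_fintype _ _ (by simp), Fin.sum_univ_four] at h1
    simp only [smul_eq_mul, Matrix.cons_val] at h1
    rw [← h1]
    ring
  refine ⟨∑ d ∈ P.support, monomial (d 3) (monomial (d 0) (u ^ (d 0 + 2 * d 1 + 3 * d 2) *
    aeval j (monomial (d 1 + d 2) (P.coeff d)))), fun e => ?_, ?_⟩
  · obtain ⟨d₀, hd₀⟩ := MvPolynomial.support_nonempty.2 P0
    have h1 := congrArg (fun R : K[X][X] => (R.coeff (d₀ 3)).coeff (d₀ 0)) e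
    have h2 : u ^ (d₀ 0 + 2 * d₀ 1 + 3 * d₀ 2) * aeval j (∑ d ∈ P.support,
        if d 3 = d₀ 3 ∧ d 0 = d₀ 0 then monomial (d 1 + d 2) (P.coeff d) else 0) = 0 := by
      simp only [finsetSum_coeff, coeff_zero] at h1
      rw [map_sum, ← h1, Finset.mul_sum]
      refine Finset.sum_congr rfl fun d hd => ?_
      by_cases a : d 3 = d₀ 3
      · have h4 := hw d hd
        have h5 := hw d₀ hd₀
        rw [a] at h4
        rw [show d₀ 0 + 2 * d₀ 1 + 3 * d₀ 2 = d 0 + 2 * d 1 + 3 * d 2 by omega]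
        by_cases b : d 0 = d₀ 0 <;> simp [a, b, coeff_monomial]
      · simp [a, coeff_monomial]
    have h3 := congrArg (coeff · (d₀ 1 + d₀ 2)) (transcendental_iff.1 hj _
      ((mul_eq_zero.1 h2).resolve_left (pow_ne_zero _ u0)))
    simp only [finsetSum_coeff, coeff_zero] at h3
    rw [Finset.sum_eq_single_of_mem d₀ hd₀] at h3
    · exact MvPolynomial.mem_support_iff.1 hd₀ (by simpa using h3)
    · intro d hd hne
      split_ifs with a
      · rw [coeff_monomial, if_neg fun b => hne ?_]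
        have h4 := hw d hd
        have h5 := hw d₀ hd₀
        rw [a.1, a.2] at h4
        ext i
        fin_cases i <;> simp <;> omega
      · rfl
  · refine mul_left_cancel₀ (pow_ne_zero D h0) ?_
    rw [mul_zero, ← h, MvPolynomial.aeval_def, MvPolynomial.eval₂_eq', eval₂_finsetSum,
      Finset.mul_sum]
    refine Finset.sum_congr rfl fun d hd => ?_
    rw [← hw d hd, Fin.prod_univ_four]
    simp [aeval_monomial]
    ring

variable {S : Finset ℕ} {k : ℕ} {q : ℕ} {χ : DirichletCharacter ℂ q} {c : ℕ → ℂ}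

theorem alx_one {g : Cv} {D : ℕ} {P : MvPolynomial (Fin 4) ℂ} (P0 : P ≠ 0)
    (hP : P.IsWeightedHomogeneous ![2, 4, 6, k] D)
    (h0 : MvPolynomial.aeval ![e2, e4, e6, g.1] P = 0) : Alx k g := by
  have o0 := om_ne
  have p0 := o1_ne
  let v : KK := ⟨_, o1_sq⟩
  have v0 : v ≠ 0 := fun e => div_ne_zero (pow_ne_zero 2 o1_ne) o0 (congrArg Subtype.val e)
  refine rel1 (K := KK) (t := tt) (f := al g / o1 ^ k) jj_tr p0 (inv_ne_zero v0) P0 hP ?_
  have h1 : MvPolynomial.aeval ![c2, c4, c6, g] P = 0 := Subtype.ext (by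
    refine (MvPolynomial.comp_aeval_apply _ Cv.val P).trans (Eq.trans ?_ h0)
    congr 2
    funext i
    fin_cases i <;> simp [c2, c4, c6])
  have h2 := MvPolynomial.comp_aeval_apply ![c2, c4, c6, g] (IsScalarTower.toAlgHom ℂ Cv LL) P
  rw [h1, map_zero] at h2
  rw [h2]
  congr 2
  have := al_ne c4_ne
  have := al_ne c6_ne
  funext i
  fin_cases i
  · change o1 ^ 2 * (o1 ^ 2 / om)⁻¹ * (al c2 / om) = al c2
    field_simp
  · change o1 ^ 4 * (o1 ^ 2 / om)⁻¹ ^ 2 * (al (c4 ^ 3) / al (c6 ^ 2)) = al c4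
    rw [om, map_pow, map_pow]
    field_simp
  · change o1 ^ 6 * (o1 ^ 2 / om)⁻¹ ^ 3 * (al (c4 ^ 3) / al (c6 ^ 2)) = al c6
    rw [om, map_pow, map_pow]
    field_simp
  · exact mul_div_cancel₀ _ (pow_ne_zero _ p0)

/-- **step (4)** in any weight -/
theorem amy (h : Eix S k χ c) {D : ℕ} {P : MvPolynomial (Fin 4) ℂ} (P0 : P ≠ 0)
    (hP : P.IsWeightedHomogeneous ![2, 4, 6, k] D)
    (h0 : MvPolynomial.aeval ![e2, e4, e6, PowerSeries.mk c] P = 0) :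
    ∃ (s M : ℕ) (F : ℍ → ℂ), 2 * s < k ∧ M ≠ 0 ∧ q ∣ M ∧ (∀ l : ℕ, l.Prime → l ∣ M → l ∈ S) ∧
      Sm (fun n => c n / (n : ℂ) ^ s) F ∧ IsMF (Gamma1 M) ((k : ℤ) - 2 * s) F ∧
      ∀ γ ∈ Gamma0 M, F ∣[(k : ℤ) - 2 * s] γ = χ (γ 1 1) • F := by
  obtain ⟨s, Γ, F, h1, h2, h3⟩ := ama_of h fun _ hg => alx_one P0 hP (by rwa [hg])
  obtain ⟨h5, M, h6, h7, h8, h9, h10⟩ := amb (h.twist s) h1 h2 h3
  exact ⟨s, M, F, by omega, h6, h7, h8, h2, h9, h10⟩

/-- **step (4)** in weight one -/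
theorem amy1 (h : Eix S 1 χ c) {D : ℕ} {P : MvPolynomial (Fin 4) ℂ} (P0 : P ≠ 0)
    (hP : P.IsWeightedHomogeneous ![2, 4, 6, 1] D)
    (h0 : MvPolynomial.aeval ![e2, e4, e6, PowerSeries.mk c] P = 0) :
    ∃ (M : ℕ) (F : ℍ → ℂ), M ≠ 0 ∧ q ∣ M ∧ (∀ l : ℕ, l.Prime → l ∣ M → l ∈ S) ∧
      Sm c F ∧ IsMF (Gamma1 M) 1 F ∧ ∀ γ ∈ Gamma0 M, F ∣[(1 : ℤ)] γ = χ (γ 1 1) • F := by
  obtain ⟨s, M, F, h1, h2, h3, h4, h5, h6, h7⟩ := amy (k := 1) h P0 hP h0
  obtain rfl : s = 0 := by omega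
  exact ⟨M, F, h2, h3, h4, by simpa using h5, by simpa using h6, by simpa using h7⟩

end Vale.Agent.P014Y.W1
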