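import Vale.Agent.P022K.UC.Qm

/-!
# P014Y, block W1: the spaces of quasi-modular expansions in all weights

`QY E Γ a` is the `E`-span of the rational series among the expansions of the quasi-modular forms
of weight `a` for `Γ`.
-/

set_option autoImplicit false
set_option linter.all false

open PowerSeries UpperHalfPlane ModularForm Derivative
open scoped MatrixGroups ModularForm Real

noncomputable section

namespace Vale.Agent.P014Y.W1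

open Vale.Agent.P022.H218.L3 Vale.Agent.P022K.UC Vale.Agent.P022K.UC.Hm

variable (Γ : Subgroup SL(2, ℤ))

/-- the expansions of the modular forms of weight `a` -/
def SX (a : ℕ) : Submodule ℂ ℂ⟦X⟧ where
  carrier := {x | ∃ F, IsMF Γ (a : ℤ) F ∧ Sp x F}
  zero_mem' := ⟨0, IsMF.zero, Sp.zero⟩
  add_mem' := fun ⟨F, h1, h2⟩ ⟨G, h3, h4⟩ => ⟨F + G, h1.add h3, h2.add h4⟩
  smul_mem' := fun c _ ⟨F, h1, h2⟩ => ⟨c • F, h1.smul c, h2.smul c⟩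

/-- the expansions of the quasi-modular forms of weight `a` -/
def QX (a : ℕ) : Submodule ℂ ℂ⟦X⟧ :=
  Submodule.span ℂ {y | ∃ i b x, 2 * i + b = a ∧ x ∈ SX Γ b ∧ y = Rm.E2 ℂ ^ i * x}

/-- the same over `E` -/
def QY (E : Type*) [Field E] [CharZero E] (Γ : Subgroup SL(2, ℤ)) (a : ℕ) : Submodule E E⟦X⟧ :=
  Rt E (QX Γ a)

variable {Γ}

theorem SX.mul {a b : ℕ} {x y : ℂ⟦X⟧} (hx : x ∈ SX Γ a) (hy : y ∈ SX Γ b) :
    x * y ∈ SX Γ (a + b) := by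
  obtain ⟨F, h1, h2⟩ := hx
  obtain ⟨G, h3, h4⟩ := hy
  exact ⟨F * G, by rw [Nat.cast_add]; exact h1.mul h3, h2.mul h4⟩

theorem SX.one : (1 : ℂ⟦X⟧) ∈ SX Γ 0 := ⟨1, IsMF.const 1, Sp.one⟩

theorem SX.e4 : Rm.E4 ℂ ∈ SX Γ 4 := ⟨E₄, (isMF_top E₄).mono le_top, Rm.sp_E4⟩

theorem SX.e6 : Rm.E6 ℂ ∈ SX Γ 6 := ⟨E₆, (isMF_top E₆).mono le_top, Rm.sp_E6⟩

theorem SX.serre {a : ℕ} {x : ℂ⟦X⟧} (hx : x ∈ SX Γ a) :
    Rm.th ℂ x - ((((a : ℤ) : ℤ) : ℂ) * 12⁻¹) • (Rm.E2 ℂ * x) ∈ SX Γ (a + 2) := by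
  obtain ⟨F, h1, h2⟩ := hx
  exact ⟨_, by rw [Nat.cast_add]; exact isMF_serre h1, Rm.sp_serre h2 _⟩

theorem SX.dim [Γ.FiniteIndex] (a : ℕ) : FiniteDimensional ℂ (SX Γ a) ∧
    Module.finrank ℂ (SX Γ a) ≤ a * Γ.index + 1 := by
  let φ : SX Γ a →ₗ[ℂ] (Fin (a * Γ.index + 1) → ℂ) :=
    LinearMap.pi fun i => (coeff i.1).comp (SX Γ a).subtype
  have hφ : Function.Injective φ := by
    refine (injective_iff_map_eq_zero φ).2 fun ⟨x, F, h1, h2⟩ h => Subtype.ext ?_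
    refine h2.eq_zero_iff.2 (P022.H29.L3.sturm h1 (a := fun n => coeff n x) h2
      (m := a * Γ.index + 1) (fun n hn => congrFun h ⟨n, hn⟩) ?_)
    push_cast
    nlinarith [mul_nonneg (Int.natCast_nonneg a) (Int.natCast_nonneg Γ.index)]
  exact ⟨Module.Finite.of_injective φ hφ, by
    simpa using LinearMap.finrank_le_finrank_of_injective hφ⟩

theorem QX.of {a : ℕ} {x : ℂ⟦X⟧} (hx : x ∈ SX Γ a) : x ∈ QX Γ a :=
  Submodule.subset_span ⟨0, a, x, by omega, hx, by simp⟩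

theorem QX.e2 : Rm.E2 ℂ ∈ QX Γ 2 := Submodule.subset_span ⟨1, 0, 1, rfl, SX.one, by simp⟩

theorem QX.mul {a b : ℕ} {x y : ℂ⟦X⟧} (hx : x ∈ QX Γ a) (hy : y ∈ QX Γ b) :
    x * y ∈ QX Γ (a + b) := by
  refine span_mul ?_ hx hy
  rintro _ ⟨i, c, x, rfl, h1, rfl⟩ _ ⟨i', c', y, rfl, h2, rfl⟩
  exact Submodule.subset_span ⟨i + i', c + c', x * y, by ring, SX.mul h1 h2, by ring⟩

theorem QX.th {a : ℕ} {x : ℂ⟦X⟧} (hx : x ∈ QX Γ a) : th x ∈ QX Γ (a + 2) := by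
  refine span_th ?_ hx
  rintro _ ⟨i, b, x, rfl, h1, rfl⟩
  have h2 : Rm.th ℂ (Rm.E2 ℂ) ∈ QX Γ 4 := by
    have h3 := Submodule.smul_mem _ (12 : ℂ)⁻¹
      (sub_mem (QX.mul (Γ := Γ) QX.e2 QX.e2) (QX.of SX.e4))
    rwa [← pow_two, ← Rm.th_E2, show (12 : ℂ⟦X⟧) * Rm.th ℂ (Rm.E2 ℂ) =
      (12 : ℂ) • Rm.th ℂ (Rm.E2 ℂ) by rw [smul_eq_C_mul, map_ofNat],
      inv_smul_smul₀ (by norm_num)] at h3
  rw [th_eq]
  clear hx
  induction i with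
  | zero =>
    have h3 := add_mem (QX.of (SX.serre h1)) (Submodule.smul_mem _
      ((((b : ℤ) : ℤ) : ℂ) * 12⁻¹) (add_comm 2 b ▸ QX.mul QX.e2 (QX.of h1)))
    rw [sub_add_cancel] at h3
    simpa using h3
  | succ i ih =>
    have h3 : Rm.E2 ℂ ^ i * x ∈ QX Γ (2 * i + b) := Submodule.subset_span ⟨i, b, x, rfl, h1, rfl⟩
    rw [pow_succ', mul_assoc, Rm.th_mul]
    refine add_mem ?_ ?_
    · rw [show 2 * (i + 1) + b + 2 = 2 + (2 * i + b + 2) by ring]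
      exact QX.mul QX.e2 ih
    · rw [show 2 * (i + 1) + b + 2 = 4 + (2 * i + b) by ring]
      exact QX.mul h2 h3

theorem QX.th_iter {a : ℕ} {x : ℂ⟦X⟧} (hx : x ∈ QX Γ a) (r : ℕ) :
    Hm.th^[r] x ∈ QX Γ (a + 2 * r) := by
  induction r with
  | zero => exact hx
  | succ r ih => rw [Function.iterate_succ_apply']; exact QX.th ih

theorem QX.dim [Γ.FiniteIndex] (a : ℕ) : FiniteDimensional ℂ (QX Γ a) ∧
    Module.finrank ℂ (QX Γ a) ≤ (a + 1) * (a * Γ.index + 1) := by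
  induction a using Nat.strong_induction_on with
  | _ a ih =>
  obtain ⟨h2, h3⟩ := SX.dim (Γ := Γ) a
  by_cases ha : a < 2
  · have h1 : QX Γ a ≤ SX Γ a := Submodule.span_le.2 (by
      rintro _ ⟨i, b, x, h, hx, rfl⟩
      obtain ⟨rfl, rfl⟩ : i = 0 ∧ b = a := by omega
      simpa using hx)
    exact ⟨Submodule.finiteDimensional_of_le h1, (Submodule.finrank_mono h1).trans
      (h3.trans (Nat.le_mul_of_pos_left _ a.succ_pos))⟩
  obtain ⟨a, rfl⟩ : ∃ a', a = a' + 2 := ⟨a - 2, by omega⟩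
  obtain ⟨h4, h5⟩ := ih a (by omega)
  have h1 : QX Γ (a + 2) ≤ (QX Γ a).map (LinearMap.mulLeft ℂ (Rm.E2 ℂ)) ⊔ SX Γ (a + 2) :=
    Submodule.span_le.2 (by
      rintro _ ⟨i, b, x, h, hx, rfl⟩
      rcases i with _ | i
      · obtain rfl : b = a + 2 := by omega
        exact Submodule.mem_sup_right (by simpa using hx)
      · exact Submodule.mem_sup_left ⟨Rm.E2 ℂ ^ i * x,
          Submodule.subset_span ⟨i, b, x, by omega, hx, rfl⟩, by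
            rw [LinearMap.mulLeft_apply]; ring⟩)
  refine ⟨Submodule.finiteDimensional_of_le h1, (Submodule.finrank_mono h1).trans
    ((Submodule.finrank_add_le_finrank_add_finrank _ _).trans ?_)⟩
  have h6 := Submodule.finrank_map_le (LinearMap.mulLeft ℂ (Rm.E2 ℂ)) (QX Γ a)
  nlinarith [Nat.zero_le (a * Γ.index), Nat.zero_le Γ.index]

variable {E : Type*} [Field E] [CharZero E]

theorem QY.one : (1 : E⟦X⟧) ∈ QY E Γ 0 := by
  simpa [QY] using Rt.of (E := E) (y := 1) (by simpa using QX.of (Γ := Γ) SX.one)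

theorem QY.mul {a b : ℕ} {x y : E⟦X⟧} (hx : x ∈ QY E Γ a) (hy : y ∈ QY E Γ b) :
    x * y ∈ QY E Γ (a + b) := by
  refine span_mul ?_ hx hy
  rintro _ ⟨x, h1, rfl⟩ _ ⟨y, h2, rfl⟩
  rw [← map_mul]
  exact Rt.of (by rw [map_mul]; exact QX.mul h1 h2)

theorem QY.th {a : ℕ} {x : E⟦X⟧} (hx : x ∈ QY E Γ a) : th x ∈ QY E Γ (a + 2) := by
  refine span_th ?_ hx
  rintro _ ⟨x, h1, rfl⟩
  rw [← map_th]
  exact Rt.of (by rw [map_th]; exact QX.th h1)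

theorem QY.es {a : ℕ} {c : ℤ} {r : ℕ} (h : Rm.Es ℂ c r ∈ QX Γ a) : Rm.Es E c r ∈ QY E Γ a := by
  simpa [Rm.map_Es, QY] using Rt.of (E := E) (y := Rm.Es ℚ c r) (by rwa [Rm.map_Es])

theorem QY.e2 : Rm.E2 E ∈ QY E Γ 2 := QY.es QX.e2

theorem QY.e4 : Rm.E4 E ∈ QY E Γ 4 := QY.es (QX.of SX.e4)

theorem QY.e6 : Rm.E6 E ∈ QY E Γ 6 := QY.es (QX.of SX.e6)

/-- **DIM** -/
theorem QY.dim [Γ.FiniteIndex] (a : ℕ) : FiniteDimensional E (QY E Γ a) ∧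
    Module.finrank E (QY E Γ a) ≤ (Γ.index + 1) * (a + 1) ^ 2 := by
  obtain ⟨h1, h2⟩ := QX.dim (Γ := Γ) a
  obtain ⟨h3, h4⟩ := Rt.dim (E := E) (QX Γ a)
  refine ⟨h3, h4.trans (h2.trans ?_)⟩
  nlinarith [Nat.zero_le (a * Γ.index), Nat.zero_le Γ.index, Nat.zero_le (a * a)]

end Vale.Agent.P014Y.W1
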