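import Vale.Agent.P022K.UC.UcA
import Vale.Agent.P014Y.W1.Qx
import Vale.Agent.P014Y.W1.Ama3

/-!
# P014Y, block W1: the algebraic relation in any weight, and the weight one form
-/

set_option autoImplicit false
set_option linter.all false

open NumberField PowerSeries UpperHalfPlane CongruenceSubgroup
open scoped MatrixGroups ModularForm

noncomputable section

namespace Vale.Agent.P014Y.W1

open Vale.Agent.P022.H218.L3 Vale.Agent.P022K.UC Vale.Agent.P022K.UC.Hm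

/-- the polynomial Sturm bound in all weights -/
theorem zey {O : Type} [CommRing O] [IsDomain O] [IsDiscreteValuationRing O] [CharZero O]
    [Finite (IsLocalRing.ResidueField O)] (h2 : ¬ IsUnit (2 : O))
    (Γ : Subgroup SL(2, ℤ)) [Γ.FiniteIndex] (W n : ℕ) (H : O⟦X⟧)
    (hH : PowerSeries.map (algebraMap O (FractionRing O)) H ∈ QY (FractionRing O) Γ W)
    (hn : ∀ m < n, coeff m H ∈ IsLocalRing.maximalIdeal O)
    (hu : ∃ m, coeff m H ∉ IsLocalRing.maximalIdeal O) :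
    n ≤ (2 ^ 22 * (6 * (36 * (4 * (Γ.index + 1)) + 1)) ^ 5) * (W + 1) ^ 5 := by
  refine Qs.ze h2 (fun W => QY (FractionRing O) Γ (2 * W)) QY.one
    (fun a b x y hx hy => by rw [mul_add]; exact QY.mul hx hy) QY.e2 QY.e4 QY.e6
    (fun W => ⟨(QY.dim _).1, (QY.dim _).2.trans (by
      rw [mul_comm 4, mul_assoc]
      refine Nat.mul_le_mul_left _ ?_
      rw [show 4 * (W + 1) ^ 2 = (2 * W + 2) ^ 2 by ring]
      exact Nat.pow_le_pow_left (by omega) 2)⟩) W n (H * H)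
    (by rw [map_mul, two_mul]; exact QY.mul hH hH) (fun m hm => ?_) ?_
  · rw [coeff_mul]
    refine sum_mem fun x hx => Ideal.mul_mem_right _ _ (hn _ ?_)
    have := Finset.HasAntidiagonal.mem_antidiagonal.1 hx
    omega
  · by_contra h3
    push Not at h3
    obtain ⟨m, hm⟩ := hu
    have h4 : PowerSeries.map (IsLocalRing.residue O) H * PowerSeries.map (IsLocalRing.residue O) H
        = 0 := by
      rw [← map_mul]
      ext m
      rw [coeff_map, map_zero]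
      exact (IsLocalRing.residue_eq_zero_iff _).2 (h3 m)
    have h5 := congrArg (coeff m) (mul_self_eq_zero.1 h4)
    rw [coeff_map, map_zero] at h5
    exact hm ((IsLocalRing.residue_eq_zero_iff _).1 h5)

variable {K : Type*} [Field K] [NumberField K]

/-- **the algebraic relation** -/
theorem ex_rely {O : Type} [CommRing O] [IsDomain O] [IsDiscreteValuationRing O] [CharZero O]
    [Finite (IsLocalRing.ResidueField O)] (h2 : ¬ IsUnit (2 : O)) (ι : 𝓞 K →+* O)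
    (Γ : Subgroup SL(2, ℤ)) [Γ.FiniteIndex] {f : (𝓞 K)⟦X⟧} {κ A a b C : ℕ} (hκ : κ ≠ 0)
    (hA : Gr A f) (hb : b ≠ 0) (h1 : b ≤ a) (h3 : 2 * a < 3 * b)
    (h4 : ∀ n, Even n → coeff n f = 0)
    (h : ∀ j, ∃ (B : ℕ) (G : O⟦X⟧), B ^ b ≤ C * (j + 1) ^ a ∧
      PowerSeries.map (algebraMap O (FractionRing O)) G ∈ QY (FractionRing O) Γ (κ + 2 * B) ∧
      ∀ n : ℕ, (2 : O) ^ j ∣ (n : O) ^ B * ι (coeff n f) - coeff n G) :
    ∃ (D : ℕ) (P : MvPolynomial (Fin 4) ℤ), P ≠ 0 ∧ P.IsWeightedHomogeneous ![2, 4, 6, κ] D ∧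
      MvPolynomial.aeval ![Rm.E2 (𝓞 K), Rm.E4 (𝓞 K), Rm.E6 (𝓞 K), f] P = 0 := by
  have hw : ∀ i, ![2, 4, 6, κ] i ≠ 0 := fun i => by fin_cases i <;> simp [hκ]
  obtain ⟨A2, g2⟩ := gr_Es (K := K) (-24) 1
  obtain ⟨A4, g4⟩ := gr_Es (K := K) 240 3
  obtain ⟨A6, g6⟩ := gr_Es (K := K) (-504) 5
  obtain ⟨C', hC⟩ := hom ι (QY (FractionRing O) Γ) (d := 2) (Rm.E2 O) QY.one
    (fun _ _ _ _ => QY.mul) (fun _ _ => QY.th) (by rw [Rm.map_Es]; exact QY.e2)
    (fun n => by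
      rw [Rm.E2, Rm.Es_eq, add_sub_cancel_left, ← map_intCast (PowerSeries.C (R := O)),
        coeff_C_mul]
      exact dvd_mul_of_dvd_left ⟨-12, by norm_num⟩ _)
    (isUnit_iff_constantCoeff.2 (by rw [Rm.cc_Es]; exact isUnit_one))
    ![Rm.E2 (𝓞 K), Rm.E4 (𝓞 K), Rm.E6 (𝓞 K), f] ![2, 4, 6, κ] hw hb h1 (C := C) fun i => by
      fin_cases i
      · exact Or.inl (by simpa [Rm.map_Es] using QY.e2)
      · exact Or.inl (by simpa [Rm.map_Es] using QY.e4)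
      · exact Or.inl (by simpa [Rm.map_Es] using QY.e6)
      · exact Or.inr ⟨h4, h⟩
  obtain ⟨C₀, k1, k2, k3⟩ : ∃ C₀, Γ.index + 1 ≤ C₀ ∧ C' ≤ C₀ ∧
      2 ^ 22 * (6 * (36 * (4 * (Γ.index + 1)) + 1)) ^ 5 ≤ C₀ :=
    ⟨_, le_max_left _ _, (le_max_left _ _).trans (le_max_right _ _),
      (le_max_right _ _).trans (le_max_right _ _)⟩
  refine pig (s := 3) _ _ hw (c := A + A2 + A4 + A6) (fun i => ?_) Nat.prime_two
    (by rwa [Nat.cast_ofNat]) ι (QY (FractionRing O) Γ) (r := 2) (A := 5) (C := C₀) h3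
    (fun W => ⟨(QY.dim W).1, (QY.dim W).2.trans (Nat.mul_le_mul_right _ k1)⟩)
    (fun W n H r1 r2 r3 => (zey h2 Γ W n H r1 r2 r3).trans (Nat.mul_le_mul_right _ k3))
    fun D j => ?_
  · fin_cases i
    · exact g2.mono (by omega)
    · exact g4.mono (by omega)
    · exact g6.mono (by omega)
    · exact hA.mono (by omega)
  · obtain ⟨W, u, r1, r2, r3⟩ := hC D j
    rw [Nat.cast_ofNat]
    exact ⟨W, u, r1, r2.trans (Nat.mul_le_mul_right _ k2), r3⟩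

/-- from the relation to a form of weight one -/
theorem ex_form1 {S : Finset ℕ} {q D : ℕ} {χ : DirichletCharacter ℂ q} {c : ℕ → ℂ}
    (h : Eix S 1 χ c) {P : MvPolynomial (Fin 4) ℤ} (h0 : P ≠ 0)
    (h1 : P.IsWeightedHomogeneous ![2, 4, 6, 1] D)
    (h2 : MvPolynomial.aeval ![Rm.E2 ℂ, Rm.E4 ℂ, Rm.E6 ℂ, PowerSeries.mk c] P = 0) :
    ∃ (M : ℕ) (F : ℍ → ℂ), M ≠ 0 ∧ q ∣ M ∧ (∀ l : ℕ, l.Prime → l ∣ M → l ∈ S) ∧
      Sm c F ∧ IsMF (Gamma1 M) 1 F ∧ ∀ γ ∈ Gamma0 M, F ∣[(1 : ℤ)] γ = χ (γ 1 1) • F :=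
  amy1 (D := D) (P := MvPolynomial.map (algebraMap ℤ ℂ) P) h
    (mt (map_eq_zero_iff _ (MvPolynomial.map_injective _ (algebraMap ℤ ℂ).injective_int)).1 h0)
    (fun d hd => h1 (d := d) fun e => hd (by rw [MvPolynomial.coeff_map, e, map_zero]))
    (by rw [MvPolynomial.aeval_map_algebraMap, Rm.e2_eq, Rm.e4_eq, Rm.e6_eq, h2])

end Vale.Agent.P014Y.W1
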