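import Vale.Agent.P014Y.W1.St
import Vale.Agent.P014Y.W1.Uca
import Vale.Agent.P022K.UC.UcB

/-!
# P014Y, block W1: a limit with linear rate is classical
-/

set_option autoImplicit false
set_option linter.all false

open NumberField PowerSeries UpperHalfPlane CongruenceSubgroup
open scoped MatrixGroups ModularForm

noncomputable section

namespace Vale.Agent.P014Y.W1

open Vale.Agent.P022 Vale.Agent.P022.H218.L3 Vale.Agent.P022K.UC Vale.Agent.P022K.UC.Hm

/-- **FUN**: from congruences of Hecke systems to congruences of expansions -/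
def FUNx : Prop := ∀ (N : ℕ) [NeZero N], 2 ∣ N → 3 ∣ N → ∃ Γ : Subgroup SL(2, ℤ), Γ.FiniteIndex ∧
  ∀ (R : Type) [CommRing R] [IsDomain R] [CharZero R], (∀ n : ℕ, Odd n → IsUnit (n : R)) →
    ∀ (x : ℕ → R) (B j : ℕ), Ewx N x → UAx N x B j →
    ∃ G : R⟦X⟧, PowerSeries.map (algebraMap R (FractionRing R)) G ∈
      QY (FractionRing R) Γ (1 + 2 * B) ∧
      ∀ n : ℕ, (2 : R) ^ j ∣ (n : R) ^ B * x n - coeff n G

theorem norm_hom (ψ : O →+* ℂ) (x : O) : ‖ψ x‖ = ‖J x‖ := by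
  have h1 : ψ Zsqrtd.sqrtd * ψ Zsqrtd.sqrtd = J Zsqrtd.sqrtd * J Zsqrtd.sqrtd := by
    rw [← map_mul, ← map_mul, Zsqrtd.dmuld, map_intCast, map_intCast]
  have h2 : ∀ φ : O →+* ℂ, ∀ y : O, φ y = y.re + φ Zsqrtd.sqrtd * y.im := fun φ y => by
    conv_lhs => rw [show y = (y.re : O) + Zsqrtd.sqrtd * (y.im : O) from Zsqrtd.decompose]
    rw [map_add, map_mul, map_intCast, map_intCast]
  rcases mul_self_eq_mul_self_iff.1 h1 with e | e
  · rw [h2 ψ, h2 J, e]
  · have h3 : ψ x = J (star x) := by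
      rw [h2 ψ, h2 J, e, Zsqrtd.re_star, Zsqrtd.im_star]
      push_cast
      ring
    rw [h3, ← sq_eq_sq₀ (norm_nonneg _) (norm_nonneg _), J_normSq, J_normSq, Zsqrtd.norm_conj]

/-- the field of the eigenvalues -/
theorem ex_field : ∃ (K : Type) (_ : Field K) (_ : NumberField K) (κ : O →+* 𝓞 K) (φ : K →+* ℂ),
    ∀ x, φ (κ x) = J x := by
  have h1 : J Zsqrtd.sqrtd * J Zsqrtd.sqrtd = ((-2 : ℤ) : ℂ) := by
    rw [← map_mul, Zsqrtd.dmuld, map_intCast]
  have h2 : IsIntegral ℤ (J Zsqrtd.sqrtd) := by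
    refine IsIntegral.of_pow two_pos ?_
    rw [sq, h1]
    exact isIntegral_algebraMap (x := (-2 : ℤ))
  let K := IntermediateField.adjoin ℚ {J Zsqrtd.sqrtd}
  haveI : FiniteDimensional ℚ K := IntermediateField.adjoin.finiteDimensional h2.tower_top
  haveI : NumberField K := ⟨⟩
  let s : 𝓞 K := ⟨IntermediateField.AdjoinSimple.gen ℚ _, (isIntegral_algHom_iff
    (algebraMap K ℂ).toIntAlgHom (algebraMap K ℂ).injective).1 h2⟩
  have h3 : s * s = ((-2 : ℤ) : 𝓞 K) := by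
    refine RingOfIntegers.coe_injective ((algebraMap K ℂ).injective ?_)
    rw [map_mul, map_mul, map_intCast, map_intCast]
    exact h1
  refine ⟨K, inferInstance, inferInstance, Zsqrtd.lift ⟨s, h3⟩, algebraMap K ℂ, fun x => ?_⟩
  refine RingHom.congr_fun (Zsqrtd.hom_ext ((algebraMap K ℂ).comp ((algebraMap (𝓞 K) K).comp
    (Zsqrtd.lift ⟨s, h3⟩))) J ?_) x
  simp only [RingHom.comp_apply, Zsqrtd.lift_apply_apply, Zsqrtd.re_sqrtd, Zsqrtd.im_sqrtd,
    Int.cast_zero, Int.cast_one, zero_add, one_mul]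
  rfl

/-- a local ring above two -/
theorem ex_loc (K : Type) [Field K] [NumberField K] :
    ∃ (R : Type) (_ : CommRing R) (_ : IsDomain R) (_ : IsDiscreteValuationRing R)
      (_ : CharZero R) (_ : Finite (IsLocalRing.ResidueField R)) (_ : 𝓞 K →+* R),
      ¬ IsUnit (2 : R) := by
  obtain ⟨R, _, _, _, _, _, ι, _, h, -⟩ := ex_dvr (L := PadicAlgCl 2)
    (IsAlgClosed.lift (R := ℚ) (S := K) (M := PadicAlgCl 2)).toRingHom (by
      rw [← map_ofNat (algebraMap ℚ_[2] (PadicAlgCl 2)), norm_algebraMap']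
      exact Padic.norm_p_lt_one)
  exact ⟨R, _, _, ‹_›, ‹_›, ‹_›, ι, h⟩

theorem Ewx.map {N : ℕ} {R R' : Type*} [CommRing R] [CommRing R'] (μ : R →+* R') {x : ℕ → R}
    (h : Ewx N x) : Ewx N fun n => μ (x n) :=
  ⟨by simp [h.one], fun n hn => by simp [h.dep n hn], fun l n => by
    simpa [apply_ite] using congrArg μ (h.hecke l n)⟩

theorem UAx.map {N : ℕ} [NeZero N] {R R' : Type*} [CommRing R] [CommRing R'] (μ : R →+* R')
    {x : ℕ → R} {B j : ℕ} (h : UAx N x B j) : UAx N (fun n => μ (x n)) B j := fun P hP => by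
  have := map_dvd μ (h P hP)
  rwa [map_pow, map_ofNat, map_lift] at this

/-- **UCB** -/
theorem ucb_of (hF : FUNx) : UCBx := by
  intro N _ c h2 h3 hc ⟨A, hA⟩ ⟨C, hC⟩
  have N0 := NeZero.ne N
  obtain ⟨Γ, _, hΓ⟩ := hF N h2 h3
  obtain ⟨K, _, _, κ, φ, hφ⟩ := ex_field
  obtain ⟨R, _, _, _, _, _, ι, o1⟩ := ex_loc K
  have hodd : ∀ n : ℕ, Odd n → IsUnit (n : R) := by
    rintro _ ⟨k, rfl⟩
    have := (IsLocalRing.isUnit_or_isUnit_one_sub_self (2 * -(k : R))).resolve_left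
      fun e => o1 (isUnit_of_mul_isUnit_left e)
    convert this using 1
    push_cast
    ring
  obtain ⟨D, P, p0, p1, p2⟩ := ex_rely o1 ι Γ (f := PowerSeries.mk fun n => κ (c n))
    one_ne_zero (A := A) (a := 1) (b := 1) (C := C)
    (fun n => (canonicalEmbedding.norm_le_iff _ _).2 fun ψ => by
      rw [coeff_mk]
      exact (norm_hom (ψ.comp ((algebraMap (𝓞 K) K).comp κ)) (c n)).trans_le (hA n))
    one_ne_zero le_rfl (by norm_num) (fun n hn => by
      rw [coeff_mk, hc.dep n fun e => (Nat.not_odd_iff_even.2 hn)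
        (Nat.coprime_two_right.1 e.coprime_mul_right_right), map_zero]) fun j => by
      obtain ⟨G, g1, g2⟩ := hΓ R hodd _ _ j (hc.map (ι.comp κ)) ((hC j).map (ι.comp κ))
      exact ⟨_, G, by simp, g1, fun n => by rw [coeff_mk]; exact g2 n⟩
  let φ' := φ.comp (algebraMap (𝓞 K) K)
  have hN : ∀ {l : ℕ}, l.Prime → (l ∣ 2 * N ↔ l ∣ N) := fun hl =>
    ⟨fun e => (hl.dvd_mul.1 e).elim (·.trans h2) id, fun e => e.mul_left 2⟩
  have hS : ∀ {l : ℕ}, l.Prime → (l ∈ N.primeFactors ↔ l ∣ N) := fun hl => by simp [hl, N0]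
  obtain ⟨M, F, r1, r2, r3, r4, r5, r6⟩ := ex_form1 (S := N.primeFactors) (χ := χ3) (D := D)
    (c := fun n => J (c n)) ⟨(hS Nat.prime_two).2 h2, by norm_num,
      fun l k1 k2 => (hS k1).2 (k2.trans h3), by simp [hc.one], fun p k3 k4 n k5 => by
        rw [hc.dep n fun e => k4.one_lt.ne' (Nat.eq_one_of_dvd_coprimes e k5
          (((hS k4).1 k3).mul_left 2)), map_zero], fun l n k3 k4 => by
        have := congrArg J (hc.hecke ⟨l, k3, mt (fun e => (hS k3).2 ((hN k3).1 e)) k4⟩ n)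
        rw [χ3_nat]
        simpa [apply_ite] using this, A, hA⟩ p0 p1 (by
      have := congrArg (PowerSeries.map φ') p2
      rw [map_aeval_int, map_zero] at this
      refine (congrArg (MvPolynomial.aeval · P) (funext fun i => ?_)).trans this
      fin_cases i
      · exact (Rm.map_Es _ _ _).symm
      · exact (Rm.map_Es _ _ _).symm
      · exact (Rm.map_Es _ _ _).symm
      · ext n
        simpa [φ'] using (hφ (c n)).symm)
  exact ⟨M, F, r1, r2, fun l k1 k2 => (hS k1).1 (r3 l k1 k2), r4, r5, r6⟩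

end Vale.Agent.P014Y.W1
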