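import Vale.Agent.P014Y.W1.Fun0
import Vale.Agent.P014Y.W1.Ucb
import Vale.Agent.P014Y.W1.Rat

/-!
# P014Y, block W1, row FUN: from congruences of Hecke systems to congruences of expansions
-/

set_option autoImplicit false
set_option linter.all false

open PowerSeries UpperHalfPlane CongruenceSubgroup
open scoped MatrixGroups ModularForm

noncomputable section

namespace Vale.Agent.P014Y.W1

open Vale.Agent.P022 Vale.Agent.P022.H218.L3 Vale.Agent.P022.H783 Vale.Agent.P022K.UC
open Vale.Agent.P022K.UC.Hm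
open Vale.Agent.P022.H567.Tw (cf cf_unique)

variable {N : ℕ} [NeZero N]

/-- **FUN**, relation form -/
theorem fun_relx (d2 : 2 ∣ N) (d3 : 3 ∣ N) {R E : Type*} [CommRing R] [Field E] [CharZero E]
    [Algebra R E] (hodd : ∀ n : ℕ, Odd n → IsUnit (n : R)) {x : ℕ → R} {B j : ℕ} (hx : Ewx N x)
    (h : UAx N x B j) :
    ∃ G : R⟦X⟧, PowerSeries.map (algebraMap R E) G ∈
      QY E (Gamma1 (N * (2 * N) ^ 2)) (1 + 2 * B) ∧
      ∀ n : ℕ, (2 : R) ^ j ∣ (n : R) ^ B * x n - coeff n G := by
  classical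
  have hq := fun m : ℕ => Rat.ratq' N (2 * m + 1) (Nat.le_of_dvd (NeZero.pos N) d3) (by omega)
  haveI : NeZero (2 * N) := ⟨mul_ne_zero two_ne_zero (NeZero.ne N)⟩
  obtain ⟨Γ, hΓ⟩ : ∃ Γ, Γ = Gamma1 (N * (2 * N) ^ 2) := ⟨_, rfl⟩
  haveI : Γ.FiniteIndex := hΓ ▸ inferInstance
  rw [← hΓ]
  let v := Rat.padicValuation 2
  let V : Submodule ℚ ℚ⟦X⟧ :=
    { carrier := {y | PowerSeries.map (algebraMap ℚ ℂ) y ∈ QX Γ (1 + 2 * B) ∧
        ∃ g, ∀ n, v (coeff n y) ≤ g}
      zero_mem' := ⟨by simp, 0, by simp⟩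
      add_mem' := fun ⟨h1, g, h2⟩ ⟨h3, g', h4⟩ => ⟨by rw [map_add]; exact add_mem h1 h3,
        max g g', fun n => by
          rw [map_add]
          exact v.map_add_le ((h2 n).trans (le_max_left _ _)) ((h4 n).trans (le_max_right _ _))⟩
      smul_mem' := fun c y ⟨h1, g, h2⟩ => ⟨by
          rw [smul_eq_C_mul, map_mul, map_C, ← smul_eq_C_mul]
          exact Submodule.smul_mem _ _ h1, v c * g, fun n => by
          rw [map_smul, smul_eq_mul, map_mul]
          exact mul_le_mul_right (h2 n) _⟩ }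
  haveI := (QX.dim (Γ := Γ) (1 + 2 * B)).1
  haveI := (Rt.dim (E := ℚ) (QX Γ (1 + 2 * B))).1
  haveI : FiniteDimensional ℚ V := Submodule.finiteDimensional_of_le
    (show V ≤ Rt ℚ (QX Γ (1 + 2 * B)) from fun y hy => by
      convert Rt.of (E := ℚ) hy.1 using 1
      ext n
      simp)
  obtain ⟨b, p, r1, r2⟩ := echelon v _ V rfl fun y hy => hy.2
  have key : ∀ m ≤ B, ∀ (f : MF N (2 * m + 1)) (n : ℕ), (n : ℂ) ^ B * nx N m n f =
      ∑ k, ((p k : ℂ) ^ B * nx N m (p k) f) * (coeff n (b k) : ℚ) := fun m hm f n => by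
    obtain ⟨t, t1, t2⟩ := hq m
    obtain ⟨r, rfl⟩ := Nat.exists_eq_add_of_le hm
    have h1 : f ∈ Submodule.span ℂ (t : Set (MF N (2 * m + 1))) := t1 ▸ Submodule.mem_top
    induction h1 using Submodule.span_induction with
    | zero => simp
    | add f g _ _ hf hg => simp only [map_add, mul_add, add_mul, Finset.sum_add_distrib, hf, hg]
    | smul c f _ hf =>
      simp only [map_smul, smul_eq_mul, mul_left_comm _ c, mul_assoc c, ← Finset.mul_sum, hf]
    | mem f hf =>
      obtain ⟨c, hc⟩ := t2 f hf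
      obtain ⟨g, hg⟩ := ex_dep (2 * N) f
      let y : ℚ⟦X⟧ := PowerSeries.mk fun n => (n : ℚ) ^ r * if n.Coprime (2 * N) then c n else 0
      have e : ∀ n : ℕ, (n : ℂ) ^ (m + r) * nx N m n f = (coeff n y : ℚ) := fun n => by
        rw [coeff_mk, nx]
        split_ifs with hn
        · have : (n : ℂ) ≠ 0 := Nat.cast_ne_zero.2 (by
            rintro rfl
            have := Nat.coprime_zero_left _ |>.1 hn
            omega)
          rw [LinearMap.smul_apply, cfL_apply, (hc n).1, smul_eq_mul]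
          push_cast
          field_simp
          ring
        · simp
      have hy : y ∈ V := by
        refine ⟨?_, 1, fun n => ?_⟩
        · rw [show 1 + 2 * (m + r) = 2 * m + 1 + 2 * r by ring]
          convert QX.th_iter (Γ := Γ) (QX.of (x := PowerSeries.mk (cf g))
            ⟨g, by rw [hΓ]; exact isMF_of_form _ g, sp_mk.2 (hasSum_form g)⟩) r using 1
          ext n
          rw [coeff_map, coeff_mk, coeff_th_iter, coeff_mk, hg]
          split_ifs <;> simp [(hc n).1]
        · rw [coeff_mk, map_mul, map_pow]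
          refine mul_le_one' (pow_le_one' (Rat.padicValuation_le_one_iff.2 (by simp)) _) ?_
          split_ifs
          · exact Rat.padicValuation_le_one_iff.2 (hc n).2.not_two_dvd_nat
          · simp
      simp only [e]
      nth_rewrite 1 [r2 y hy]
      simp
  have k2 : ∀ n : ℕ, ∃ o : _ → R, (∀ k, algebraMap R E (o k) = (coeff n (b k) : ℚ)) ∧
      (2 : R) ^ j ∣ (n : R) ^ B * x n - ∑ k, o k * ((p k : R) ^ B * x (p k)) := fun n => by
    obtain ⟨D, a, h1, h2⟩ := ex_int (fun k => coeff n (b k)) fun k =>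
      Rat.padicValuation_le_one_iff.1 ((r1 k).2 n)
    obtain ⟨u, hu⟩ := (hodd D h1).exists_left_inv
    have hD : (D : E) ≠ 0 := Nat.cast_ne_zero.2 h1.pos.ne'
    refine ⟨fun k => u * a k, fun k => mul_left_cancel₀ hD ?_, ?_⟩
    · rw [← map_natCast (algebraMap R E), ← map_mul, ← mul_assoc, mul_comm _ u, hu, one_mul,
        map_intCast, map_natCast]
      exact_mod_cast congrArg (Rat.cast : ℚ → E) (h2 k)
    · have h3 := rel_of_uax d2 hx h (Option (Fin _)) (fun i => i.elim (D * n ^ B) fun k => -(a k * p k ^ B))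
        (fun i => i.elim n p) fun m hm f _ => by
          simp only [Fintype.sum_option, Option.elim]
          push_cast
          rw [mul_assoc, key m hm f n, Finset.mul_sum, ← Finset.sum_add_distrib]
          refine Finset.sum_eq_zero fun k _ => ?_
          have h4 : (a k : ℂ) = D * (coeff n (b k) : ℚ) := by
            exact_mod_cast congrArg (Rat.cast : ℚ → ℂ) (h2 k)
          rw [h4]
          ring
      simp only [Fintype.sum_option, Option.elim] at h3
      push_cast at h3
      convert h3.mul_left u using 1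
      rw [mul_add, Finset.mul_sum, ← mul_assoc, ← mul_assoc, hu, one_mul, sub_eq_add_neg,
        ← Finset.sum_neg_distrib]
      exact congrArg _ (Finset.sum_congr rfl fun k _ => by ring)
  choose o o1 o2 using k2
  refine ⟨PowerSeries.mk fun n => ∑ k, o n k * ((p k : R) ^ B * x (p k)), ?_, fun n => by
    rw [coeff_mk]; exact o2 n⟩
  refine (congrArg (· ∈ _) (PowerSeries.ext fun n => ?_)).mp (sum_mem (t := Finset.univ)
    fun k _ => Submodule.smul_mem _ (algebraMap R E ((p k : R) ^ B * x (p k)))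
      (Rt.of (E := E) (r1 k).1.1))
  simp only [coeff_map, coeff_mk, map_sum, map_smul, smul_eq_mul, map_mul (algebraMap R E) (o _ _),
    o1, eq_ratCast, mul_comm]

theorem funx : FUNx := fun N _ h2 h3 =>
  haveI : NeZero (2 * N) := ⟨mul_ne_zero two_ne_zero (NeZero.ne N)⟩
  ⟨Gamma1 (N * (2 * N) ^ 2), inferInstance, fun _ _ _ _ ho _ _ _ hx h => fun_relx h2 h3 ho hx h⟩

/-- **UCB** -/
theorem ucbx : UCBx := ucb_of funx

end Vale.Agent.P014Y.W1
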