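import Vale.Agent.P014Y.W1.Geo0
import Vale.Agent.P004M.D.X4
import Vale.Agent.P004M.D.Hk2

/-!
# P014Y, block W1: the lifts of the isogenies with their sign
-/

set_option autoImplicit false
set_option linter.all false

open IsLocalRing
open scoped Classical PowerSeries

noncomputable section

namespace Vale.Agent.P014Y.W1

open Vale.Agent.P004M.D Vale.Agent.P027H Hu

/-- the lift of the isogeny `g`, with its sign -/
structure Isp {A : ValuationSubring ℂ} {Λ : Submodule ℤ ℂ} {t : ℂ} (h : Ss A Λ t)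
    (ρ : Hu →+* AddMonoid.End (Pt (0 : kk A))) (g : Hu) (c s : ℂ) (L : Submodule ℤ ℂ) : Prop
    extends Iso h ρ g c s L where
  rd : ∀ z, OT Λ z → ss.rd (c * z) = ρ g (h.rd z)

/-- the lifts exist and depend continuously on `g` -/
def GEO' : Prop := ∀ A, Ok A → ∃ ρ : Hu →+* AddMonoid.End (Pt (0 : kk A)),
  ∀ (Λ : Submodule ℤ ℂ) (t : ℂ) (h : Ss A Λ t), A.valuation 2 < A.valuation t →
    ∃ (c s : Hu → ℂ) (L : Hu → Submodule ℤ ℂ),
      (∀ g, Odd (nm g) → Isp h ρ g (c g) (s g) (L g)) ∧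
      ∀ i : ℕ, ∃ n : ℕ, ∀ g g' β : Hu, Odd (nm g) → Odd (nm g') → g - g' = 2 ^ n * β →
        A.valuation (s g - s g') ≤ A.valuation 2 ^ i ∧ A.valuation (c g - c g') ≤ A.valuation 2 ^ i

namespace Geo

variable {A : ValuationSubring ℂ} {Λ L : Submodule ℤ ℂ} {t c s : ℂ} {h : Ss A Λ t} {g : Hu}

theorem sign {ρ : Hu →+* AddMonoid.End (Pt (0 : kk A))} (hg : Odd (nm g)) (I : Iso h ρ g c s L) :
    Isp h ρ g c s L ∨ Isp h ρ g (-c) s L := by
  have k : ∀ z, OT Λ z → I.ss.rd (c * z) = ρ g (h.rd z) ∨ I.ss.rd (c * z) = -ρ g (h.rd z) := by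
    intro z hz
    have e : I.ss.rd (c * z) = 0 ↔ ρ g (h.rd z) = 0 := by
      obtain ⟨n, n1, n2⟩ := id hz
      refine ⟨fun e => ((I.mem z).1 (I.ss.inj ⟨n, n1, ?_⟩ e)).2, fun e => I.ss.rd_mem ((I.mem z).2 ⟨hz, e⟩)⟩
      rw [mul_left_comm]
      exact (I.mem _).2 ⟨.of_mem n2, by rw [h.rd_mem n2, map_zero]⟩
    by_cases e0 : ρ g (h.rd z) = 0
    · exact .inl ((e.2 e0).trans e0.symm)
    · exact xc_eq (mt e.1 e0) e0 (I.xc z hz)
  by_cases a : ∀ z, OT Λ z → I.ss.rd (c * z) = ρ g (h.rd z)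
  · exact .inl ⟨I, a⟩
  push Not at a
  obtain ⟨z₀, z1, z2⟩ := a
  have z3 := (k z₀ z1).resolve_left z2
  refine .inr ⟨⟨I.ss, I.vs, by rw [Valuation.map_neg, I.vc], fun z => by
    rw [neg_mul, neg_mem_iff, I.mem], fun z hz => by rw [neg_mul, map_neg, xc_ng, I.xc z hz]⟩,
    fun z hz => ?_⟩
  rw [neg_mul, map_neg, neg_eq_iff_eq_neg]
  refine (k z hz).elim (fun e => ?_) id
  have := k _ (hz.add z1)
  rw [mul_add, map_add, map_add, map_add, e, z3] at this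
  rcases this with b | b
  · exact (z2 (z3.trans (add_left_cancel b))).elim
  · rw [neg_add] at b
    exact e.trans (add_right_cancel b)

theorem velu {ι : Type} [Fintype ι] [DecidableEq ι] {r : ι → ℂ} {M : Submodule ℤ ℂ} (hr : Reps r Λ M) (hΛ : IsLat Λ)
    (hM : IsLat M) (H : Hom c M L) {o : ι} (ho : r o ∈ Λ) (t s z X Y : ℂ)
    (hX : X = xx Λ t z + ∑ a ∈ Finset.univ.erase o, (xx Λ t (z - r a) - xx Λ t (-r a)))
    (hY : Y = yy Λ t z + ∑ a ∈ Finset.univ.erase o, (yy Λ t (z - r a) - yy Λ t (-r a))) :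
    xx L s (c * z) = c⁻¹ ^ 2 * X + (c⁻¹ ^ 2 * t ^ 2 - s ^ 2) / 12 ∧
    yy L s (c * z) = c⁻¹ ^ 3 * Y + (c⁻¹ ^ 3 * t - s * c⁻¹ ^ 2) / 2 * X +
      (c⁻¹ ^ 3 - 1 - s * ((c⁻¹ ^ 2 * t ^ 2 - s ^ 2) / 12)) / 2 := by
  have m : z - r o - z ∈ Λ := mem_of_eq (neg_mem ho) (by ring)
  have e1 : wp M z = X + t ^ 2 / 12 := by
    rw [hr.wp hΛ hM, ← Finset.add_sum_erase _ _ (Finset.mem_univ o), hΛ.wp_congr m, hΛ.wp_mem ho, hX,
      Finset.sum_congr rfl fun a _ => show xx Λ t (z - r a) - xx Λ t (-r a) =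
        wp Λ (z - r a) - wp Λ (r a) by rw [xx, xx, hΛ.wp_neg]; ring, xx]
    ring
  have e0 := hr.dwp hΛ hM 0
  rw [hM.dwp_mem (zero_mem _), ← Finset.add_sum_erase _ _ (Finset.mem_univ o),
    hΛ.dwp_mem (sub_mem (zero_mem _) ho), zero_add] at e0
  have e2 : dwp M z = 2 * Y + t * X + 1 := by
    rw [hr.dwp hΛ hM, ← Finset.add_sum_erase _ _ (Finset.mem_univ o), hΛ.dwp_congr m,
      ← sub_zero (∑ a ∈ _, dwp Λ (z - r a)), e0, ← Finset.sum_sub_distrib, hX, hY,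
      Finset.sum_congr rfl fun a _ => show dwp Λ (z - r a) - dwp Λ (0 - r a) =
        2 * (yy Λ t (z - r a) - yy Λ t (-r a)) + t * (xx Λ t (z - r a) - xx Λ t (-r a)) by
          rw [yy, yy, zero_sub]; ring, Finset.sum_add_distrib, ← Finset.mul_sum, ← Finset.mul_sum, yy]
    ring
  have e3 : xx L s (c * z) = c⁻¹ ^ 2 * X + (c⁻¹ ^ 2 * t ^ 2 - s ^ 2) / 12 := by
    rw [xx, H.wp, e1]
    ring
  refine ⟨e3, ?_⟩
  rw [yy, H.dwp, e2, e3]
  ring

theorem inf_odd (h : Ss A Λ t) (C : Set (Pt (0 : kk A))) (hC : C.Finite) :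
    (xc '' {P | P ∉ C ∧ ∃ m : ℕ, Odd m ∧ m • P = 0}).Infinite := fun f => by
  have f1 : {P : Pt (0 : kk A) | ∃ m : ℕ, Odd m ∧ m • P = 0}.Finite := by
    refine ((Set.Finite.of_finite_fibers xc f fun x _ => ?_).union hC).subset fun P hP =>
      (em (P ∈ C)).symm.imp (fun e => ⟨e, hP⟩) id
    by_cases hx : ∃ Q : Pt (0 : kk A), Q ≠ 0 ∧ xc Q = x
    · obtain ⟨Q, h1, h3⟩ := hx
      refine (Set.toFinite {0, Q, -Q}).subset fun P hP => ?_
      by_cases h0 : P = 0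
      · exact .inl h0
      · exact .inr (eq_of_xc h0 h1 (hP.2.trans h3.symm))
    · refine (Set.toFinite {0}).subset fun P hP => ?_
      by_contra h0
      exact hx ⟨P, h0, hP.2⟩
  generalize hV : {P : Pt (0 : kk A) | ∃ m : ℕ, Odd m ∧ m • P = 0} = V at f1
  have o : Odd (2 * V.ncard + 1) := odd_two_mul_add_one _
  have := Set.ncard_le_ncard (s := {P | (2 * V.ncard + 1) • P = 0}) (fun P hP => hV ▸ ⟨_, o, hP⟩) f1
  rw [← Nat.card_coe_set_eq, show Nat.card {P : Pt (0 : kk A) | (2 * V.ncard + 1) • P = 0} = _ from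
    h.card_tors o] at this
  nlinarith

theorem vy [IsAlgClosed (kk A)] {w : kk A} (hw : Cw w) (hg : Odd (nm g))
    (I : Isp h hw.act g c s L) : ∃ β ∈ A,
      β = (c⁻¹ ^ 3 - 1 - s * ((c⁻¹ ^ 2 * t ^ 2 - s ^ 2) / 12)) / 2 ∧ Vy hw g (rs A β) := by
  obtain ⟨n, en⟩ := Int.eq_ofNat_of_zero_le (nm_nonneg g)
  have hn : Odd n := by exact_mod_cast en ▸ hg
  have n0 : (n : ℂ) ≠ 0 := Nat.cast_ne_zero.2 hn.pos.ne'
  obtain ⟨C, mC⟩ : ∃ C : AddSubgroup (Pt (0 : kk A)), ∀ P, P ∈ C ↔ hw.act g P = 0 :=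
    ⟨AddMonoidHom.ker (hw.act g), fun _ => Iff.rfl⟩
  have hC : ∀ a ∈ C, n • a = 0 := fun a ha => by
    rw [← natCast_zsmul, ← en, ← hw.cj_act, (mC a).1 ha, map_zero]
  have := h.fin hn hC
  have := Fintype.ofFinite C
  have hr := h.Up_reps hn hC
  have rl := fun a : C => (h.lf_spec hn (hC _ a.2)).2
  have c0 : c ≠ 0 := fun e => by simpa [e] using I.vc
  have cA : c⁻¹ ∈ A := mem_of_one (by rw [map_inv₀, I.vc, inv_one])
  obtain ⟨X, hX⟩ : ∃ X : ℂ → ℂ, ∀ z, xx Λ t z + ∑ a ∈ Finset.univ.erase (0 : C),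
    (xx Λ t (z - h.lf a) - xx Λ t (-h.lf a)) = X z := ⟨_, fun _ => rfl⟩
  obtain ⟨Y, hY⟩ : ∃ Y : ℂ → ℂ, ∀ z, yy Λ t z + ∑ a ∈ Finset.univ.erase (0 : C),
    (yy Λ t (z - h.lf a) - yy Λ t (-h.lf a)) = Y z := ⟨_, fun _ => rfl⟩
  have V := fun z => velu hr h.lat (h.Up_lat hn hC) (c := c) (L := L)
    ⟨c0, fun z => ((I.mem z).trans (and_congr_right fun _ => (mC _).symm)).symm⟩
    (o := 0) (h.inj (hr.mem 0).1 (rl 0)) t s z _ _ (hX z).symm (hY z).symm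
  generalize (c⁻¹ ^ 2 * t ^ 2 - s ^ 2) / 12 = δ at V ⊢
  generalize (c⁻¹ ^ 3 * t - s * c⁻¹ ^ 2) / 2 = α at V
  generalize hβ : (c⁻¹ ^ 3 - 1 - s * δ) / 2 = β at V
  have pt : ∀ z, h.rd z ≠ 0 → (xx Λ t z ∈ A ∧ rs A (xx Λ t z) = xc (h.rd z)) ∧
      yy Λ t z ∈ A ∧ rs A (yy Λ t z) = yc (h.rd z) := fun z e =>
    ⟨⟨(h.rd_ne_zero.1 e).2, (h.xc_rd e).symm⟩,
      h.yy_mem (h.rd_ne_zero.1 e).1 (h.rd_ne_zero.1 e).2, (h.yc_rd e).symm⟩
  have sm : ∀ (f : ℂ → ℂ) (φ : Pt (0 : kk A) → kk A), φ 0 = 0 →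
      (∀ z, h.rd z ≠ 0 → f z ∈ A ∧ rs A (f z) = φ (h.rd z)) → ∀ z, h.rd z ∉ C → ∀ u,
      f z + ∑ a ∈ Finset.univ.erase (0 : C), (f (z - h.lf a) - f (-h.lf a)) = u →
        u ∈ A ∧ rs A u = ∑ a : C, (φ (h.rd z - a) - φ (-a)) := by
    rintro f φ φ0 hf z hz _ rfl
    have a0 := hf z fun e => hz (e ▸ zero_mem C)
    have a1 : ∀ a : C, f (z - h.lf a) ∈ A ∧ rs A (f (z - h.lf a)) = φ (h.rd z - a) := fun a => by
      have := hf (z - h.lf a) fun e => hz (by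
        rw [map_sub, rl, sub_eq_zero] at e
        exact e ▸ a.2)
      rwa [map_sub, rl] at this
    have a2 : ∀ a ∈ Finset.univ.erase (0 : C), f (-h.lf a) ∈ A ∧ rs A (f (-h.lf a)) = φ (-a) :=
      fun a ha => by
        have := hf (-h.lf a) fun e => (Finset.mem_erase.1 ha).1 (Subtype.ext (by
          rwa [map_neg, rl, neg_eq_zero] at e))
        rwa [map_neg, rl] at this
    have a3 := fun a ha => sub_mem (a1 a).1 (a2 a ha).1
    refine ⟨add_mem a0.1 (sum_mem a3), ?_⟩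
    rw [rs_add a0.1 (sum_mem a3), rs_sum _ a3, ← Finset.add_sum_erase _ _ (Finset.mem_univ (0 : C)),
      a0.2, Finset.sum_congr rfl fun a ha => by rw [rs_sub (a1 a).1 (a2 a ha).1, (a1 a).2, (a2 a ha).2]]
    simp [φ0]
  have sX := fun z hz => sm _ xc rfl (fun z e => (pt z e).1) z hz _ (hX z)
  have sY := fun z hz => sm _ yc rfl (fun z e => (pt z e).2) z hz _ (hY z)
  have im : ∀ z, OT Λ z → h.rd z ∉ C → (xx L s (c * z) ∈ A ∧
      rs A (xx L s (c * z)) = xc (hw.act g (h.rd z))) ∧ yy L s (c * z) ∈ A ∧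
      rs A (yy L s (c * z)) = yc (hw.act g (h.rd z)) := fun z hz e => by
    have e1 : I.ss.rd (c * z) ≠ 0 := by rw [I.rd z hz]; exact mt (mC _).2 e
    rw [← I.rd z hz]
    exact ⟨⟨(I.ss.rd_ne_zero.1 e1).2, (I.ss.xc_rd e1).symm⟩,
      I.ss.yy_mem (I.ss.rd_ne_zero.1 e1).1 (I.ss.rd_ne_zero.1 e1).2, (I.ss.yc_rd e1).symm⟩
  have su : ∀ Q : Pt (0 : kk A), 3 • Q = 0 → Q ≠ 0 →
      ∃ z, OT Λ z ∧ h.rd z ∉ C ∧ hw.act g (h.rd z) = Q := fun Q q3 q0 => by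
    obtain ⟨u, rfl⟩ := h.surj Q
    obtain ⟨u, rfl⟩ : ∃ v, u = n * v := ⟨u / n, by field_simp⟩
    obtain ⟨a, b⟩ := h.lf_spec (hn.mul (by decide : Odd 3)) (P := hw.act (cj g) (h.rd u)) (by
      rw [← map_nsmul, mul_comm, mul_smul, ← h.rd_nat, q3, map_zero])
    have e : hw.act g (h.rd (h.lf (hw.act (cj g) (h.rd u)))) = h.rd (n * u) := by
      rw [b, hw.act_cj, en, natCast_zsmul, h.rd_nat]
    exact ⟨_, a, fun k => q0 (e.symm.trans ((mC _).1 k)), e⟩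
  have e1 : w ^ 2 + w = 1 ^ 3 := by linear_combination hw.cub - hw.two
  obtain ⟨z, z1, z2, z3⟩ := su (T0 0) (T0_three _) (T0_ne _)
  obtain ⟨u, u1, u2, u3⟩ := su (p0 1 w) (by
    rw [succ_nsmul, two_nsmul, (p0_two hw.two e1).2, one_pow,
      show w ^ 4 = w by linear_combination w * hw.w3, ← p0_neg hw.two e1, neg_add_cancel])
    (p0_ne hw.two e1)
  obtain ⟨⟨a1, a2⟩, a3, -⟩ := im z z1 z2
  obtain ⟨⟨b1, b2⟩, b3, -⟩ := im u u1 u2
  have v1 : A.valuation (xx L s (c * u) - xx L s (c * z)) = 1 := by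
    refine le_antisymm ((A.valuation_le_one_iff _).2 (sub_mem b1 a1)) (not_lt.1 fun k => ?_)
    rw [← rs_eq_zero (sub_mem b1 a1), rs_sub b1 a1, a2, b2, z3, u3, xc_p0 hw.two e1] at k
    exact one_ne_zero (k.symm.trans (sub_zero _)).symm
  have c3 := pow_mem cA 3
  have αA : α ∈ A := by
    have d0 : xx L s (c * u) - xx L s (c * z) ≠ 0 := fun e => by simp [e] at v1
    rw [show α = (xx L s (c * u) - xx L s (c * z))⁻¹ * (c⁻¹ ^ 2 * ((yy L s (c * u) - c⁻¹ ^ 3 * Y u) -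
        (yy L s (c * z) - c⁻¹ ^ 3 * Y z))) by
      rw [eq_inv_mul_iff_mul_eq₀ d0, (V u).1, (V z).1, (V u).2, (V z).2]
      ring]
    exact mul_mem (mem_of_one (by rw [map_inv₀, v1, inv_one])) (mul_mem (pow_mem cA 2)
      (sub_mem (sub_mem b3 (mul_mem c3 (sY u u2).1)) (sub_mem a3 (mul_mem c3 (sY z z2).1))))
  have βA : β ∈ A := by
    rw [show β = yy L s (c * z) - c⁻¹ ^ 3 * Y z - α * X z by rw [(V z).2]; ring]
    exact sub_mem (sub_mem a3 (mul_mem c3 (sY z z2).1)) (mul_mem αA (sX z z2).1)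
  have δA : δ ∈ A := by
    rw [show δ = xx L s (c * z) - c⁻¹ ^ 2 * X z by rw [(V z).1]; ring]
    exact sub_mem a1 (mul_mem (pow_mem cA 2) (sX z z2).1)
  have r3 : rs A (c⁻¹ ^ 3) = 1 := by
    rw [← rs_one, ← sub_eq_zero, ← rs_sub c3 (one_mem A), rs_eq_zero (sub_mem c3 (one_mem A)),
      show c⁻¹ ^ 3 - 1 = 2 * β + s * δ by rw [← hβ]; ring]
    exact lt_comb h.two βA I.ss.lt δA
  refine ⟨β, βA, rfl, Finset.univ.map (Function.Embedding.subtype (· ∈ C)), rs A α,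
    fun P => by simp [mC], ?_, (inf_odd h C (Set.toFinite _)).mono (Set.image_mono ?_)⟩
  · obtain ⟨S, -, hS⟩ := ex_half C fun a e => by_contra fun k => two_ne hw.two
      (fun e => k (Subtype.ext e)) (congrArg Subtype.val (add_eq_zero_iff_eq_neg.2 e))
    have := hS fun _ => 1
    simp only [Finset.sum_const, nsmul_eq_mul, mul_one] at this
    rw [Finset.card_map]
    exact ⟨S.card, by exact_mod_cast (by linear_combination this :
      ((Finset.univ : Finset C).card : ℂ) = 2 * S.card + 1)⟩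
  rintro P ⟨p1, m, m1, m2⟩
  obtain ⟨q1, q2⟩ := h.lf_spec m1 m2
  generalize h.lf P = v at q1 q2
  subst q2
  refine ⟨by simpa using p1, ?_⟩
  simp only [Finset.sum_map, Function.Embedding.coe_subtype]
  rw [← (im v q1 p1).2.2, (V v).2, ← (sX v p1).2, ← (sY v p1).2,
    rs_add (add_mem (mul_mem c3 (sY v p1).1) (mul_mem αA (sX v p1).1)) βA,
    rs_add (mul_mem c3 (sY v p1).1) (mul_mem αA (sX v p1).1), rs_mul c3 (sY v p1).1,
    rs_mul αA (sX v p1).1, r3, one_mul]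

theorem close {c' s' β β' : ℂ} {i : ℕ} (h2 : A.valuation 2 < 1) (ht : t ∈ A) (hs : s ∈ A)
    (hs' : s' ∈ A) (vc : A.valuation c = 1) (vc' : A.valuation c' = 1)
    (e : β = (c⁻¹ ^ 3 - 1 - s * ((c⁻¹ ^ 2 * t ^ 2 - s ^ 2) / 12)) / 2)
    (e' : β' = (c'⁻¹ ^ 3 - 1 - s' * ((c'⁻¹ ^ 2 * t ^ 2 - s' ^ 2) / 12)) / 2)
    (b : A.valuation (β - β') < 1) (k1 : A.valuation (s - s') ≤ A.valuation 2 ^ (i + 4))
    (k2 : A.valuation (c ^ 2 - c' ^ 2) ≤ A.valuation 2 ^ (i + 4)) :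
    A.valuation (c - c') ≤ A.valuation 2 ^ i := by
  have c0 : c ≠ 0 := fun e => by simp [e] at vc
  have c1 : c' ≠ 0 := fun e => by simp [e] at vc'
  have va : A.valuation c⁻¹ = 1 := by rw [map_inv₀, vc, inv_one]
  have va' : A.valuation c'⁻¹ = 1 := by rw [map_inv₀, vc', inv_one]
  rw [show c - c' = c * c' * (c'⁻¹ - c⁻¹) by field_simp, map_mul, map_mul, vc, vc', one_mul, one_mul,
    Valuation.map_sub_swap]
  rw [show c ^ 2 - c' ^ 2 = (c * c') ^ 2 * (c'⁻¹ ^ 2 - c⁻¹ ^ 2) by field_simp, map_mul, map_pow, map_mul,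
    vc, vc', one_mul, one_pow, one_mul, Valuation.map_sub_swap] at k2
  generalize c⁻¹ = a at *
  generalize c'⁻¹ = a' at *
  have aA := mem_of_one va
  have aA' := mem_of_one va'
  have p : 0 < A.valuation 2 := zero_lt_iff.2 ((map_ne_zero _).2 two_ne_zero)
  have v3 : A.valuation (3 : ℂ) = 1 := by exact_mod_cast val_odd h2 (n := 3) (by decide)
  have l4 : A.valuation 2 ^ (i + 4) < A.valuation 2 ^ 3 :=
    pow_lt_pow_right_of_lt_one₀ p h2 (by omega)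
  have ge : A.valuation 2 ≤ A.valuation (a + a') := by
    by_contra lt
    rw [not_le] at lt
    have j := congrArg A.valuation (show 2 ^ 3 * (3 * a ^ 3) = 2 ^ 3 * (3 * (β - β')) +
        2 ^ 2 * ((3 * (a ^ 2 - a * a' + a' ^ 2)) * (a + a')) +
        (t ^ 2 * a ^ 2 - (s ^ 2 + s * s' + s' ^ 2)) * (s - s') + t ^ 2 * s' * (a ^ 2 - a' ^ 2) by
      rw [e, e']
      ring)
    rw [map_mul, map_mul, map_pow, map_pow, v3, va, one_pow, one_mul, mul_one] at j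
    refine j.not_gt (A.valuation.map_add_lt (A.valuation.map_add_lt (A.valuation.map_add_lt ?_ ?_)
      ((Hk.val_mul_le (sub_mem (mul_mem (pow_mem ht 2) (pow_mem aA 2)) (add_mem (add_mem (pow_mem hs 2)
        (mul_mem hs hs')) (pow_mem hs' 2))) k1).trans_lt l4))
      ((Hk.val_mul_le (mul_mem (pow_mem ht 2) hs') k2).trans_lt l4))
    · rw [map_mul, map_mul, map_pow, v3, one_mul]
      exact mul_lt_of_lt_one_right (pow_pos p 3) b
    · rw [map_mul, map_pow, pow_succ _ 2]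
      exact mul_lt_mul_of_pos_left ((Hk.val_mul_le (mul_mem (ofNat_mem A 3) (add_mem (sub_mem
        (pow_mem aA 2) (mul_mem aA aA')) (pow_mem aA' 2))) le_rfl).trans_lt lt) (pow_pos p 2)
  rw [sq_sub_sq, map_mul] at k2
  refine le_of_mul_le_mul_left ((mul_le_mul_left ge _).trans (k2.trans ?_)) p
  rw [← pow_succ']
  exact pow_le_pow_right_of_le_one' h2.le (by omega)

end Geo

open Geo in
/-- **the lifts with their sign** -/
theorem geo' : GEO' := fun A hA => by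
  have h2 := hA.two
  have := kk_closed A
  obtain ⟨w, hw⟩ : ∃ w : kk A, Cw w := by
    obtain ⟨b, hb⟩ := IsAlgClosed.exists_root (Polynomial.X ^ 2 + Polynomial.X + 1 :
      Polynomial (kk A)) (by rw [show Polynomial.degree _ = 2 by compute_degree!]; norm_num)
    exact ⟨b, res_zero (a := 2) h2, by simpa using hb⟩
  refine ⟨hw.act, fun Λ t h ht => ?_⟩
  obtain ⟨t, rfl⟩ : ∃ T : A, (T : ℂ) = t := ⟨⟨t, h.mem⟩, rfl⟩
  choose c s L f H using show ∀ g, ∃ (c s : A) (L : Submodule ℤ ℂ) (f : A⟦X⟧), Odd (nm g) →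
      Isp h hw.act g c s L ∧ PowerSeries.coeff 1 f = c ^ 2 ∧ Cm t s f ∧
        Ser hw g (f.map (residue A)) from fun g => by
    by_cases hg : Odd (nm g)
    · obtain ⟨c, s, L, h', f, k1, k2, k3, k4, k⟩ := h.iso ht hw g hg (hw.kum g hg)
      rcases sign hg ⟨h', k1, k2, k3, k4⟩ with a | a
      · exact ⟨c, s, L, f, fun _ => ⟨a, k⟩⟩
      · exact ⟨-c, s, L, f, fun _ => ⟨a, by rwa [neg_sq]⟩⟩
    · exact ⟨0, 0, ⊥, 0, fun k => (hg k).elim⟩
  refine ⟨fun g => c g, fun g => s g, L, fun g hg => (H g hg).1, fun i => ?_⟩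
  obtain ⟨n, hn⟩ := Hk.ok_pow hA h.lt (i + 4)
  refine ⟨n + 2, fun g g' δ hg hg' e => ?_⟩
  have k := cont hw (residue A) (fun x => (residue_ne_zero_iff_isUnit x).1) (Ideal.span {t})
    ((span_iff 2 t).2 ht.le) (Ideal.mem_span_singleton_self t)
    ((span_iff _ t).2 (H g hg).1.vs.le) ((span_iff _ t).2 (H g' hg').1.vs.le) (H g hg).2.2.1
    (H g' hg').2.2.1 hg hg' (H g hg).2.2.2 (H g' hg').2.2.2 e
  rw [Ideal.span_singleton_pow, span_iff, span_iff, (H g hg).2.1, (H g' hg').2.1, A.coe_pow,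
    map_pow] at k
  have l := (pow_le_pow_right_of_le_one' h.lt.le n.le_succ).trans hn
  obtain ⟨β, b1, b2, b3⟩ := vy hw hg (H g hg).1
  obtain ⟨β', b1', b2', b3'⟩ := vy hw hg' (H g' hg').1
  exact ⟨(k.1.trans l).trans (pow_le_pow_right_of_le_one' h2.le (by omega)),
    close h2 t.2 (s g).2 (s g').2 (H g hg).1.vc (H g' hg').1.vc b2 b2' ((rs_eq_zero (sub_mem b1 b1')).1
      (by rw [rs_sub b1 b1', b3.eq b3' hg hg' (δ := 2 ^ n * δ) (by rw [e, ← mul_assoc, ← pow_add,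
        add_comm]), sub_self])) (k.1.trans l) (k.2.trans l)⟩

end Vale.Agent.P014Y.W1
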