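import Vale.Agent.P004M.D.Iv2
import Vale.Agent.P022D.Th.P3

/-!
# P014Y, block W1: close points have close values, odd weight with character
-/

set_option autoImplicit false
set_option linter.all false

open UpperHalfPlane hiding I
open Polynomial CongruenceSubgroup Filter
open scoped MatrixGroups ModularForm Manifold Real Classical

noncomputable section

namespace Vale.Agent.P014Y.W1.Lp

open Vale.Agent.P027H Vale.Agent.P022.H218.L3 Vale.Agent.P022.H236.L3 Vale.Agent.P022.H542.L3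
  Vale.Agent.P022D.Irr Vale.Agent.P027M.M Vale.Agent.P004M.D Vale.Agent.P004M.D.Iv
open Vale.Agent.P022D.Th (Pf Pf_slash Pf_congr Pf_bdd)

variable {A : ValuationSubring ℂ} {Λ Λ' : Submodule ℤ ℂ} {t t' ω ω' : ℂ} {τ τ' : ℍ}

theorem pf_mf {M : ℕ} (hM : 1 < M) : IsMF (Gamma M) 3 (Pf M ![0, 1]) :=
  (Pf_bdd (by omega) (Pre.nz_of 1 (by simp) (by simpa using hM))).isMF fun γ hγ => by
    obtain ⟨-, -, h1, h2⟩ := Gamma_mem.1 hγ
    rw [Pf_slash]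
    refine Pf_congr (by omega) (not_not.2 (Fin.forall_fin_two.2 ⟨?_, ?_⟩))
    · rw [Pi.sub_apply, vm0, ← ZMod.intCast_zmod_eq_zero_iff_dvd]
      simpa using h1
    · rw [Pi.sub_apply, vm1, ← ZMod.intCast_zmod_eq_zero_iff_dvd]
      simpa [sub_eq_zero] using h2

theorem w_pf (b : B Λ ω τ) (M k : ℕ) (f : ℍ → ℂ) :
    w (k + 3) (f * Pf M ![0, 1]) ω τ = w k f ω τ * dwp Λ (ω / M) := by
  have h := b.hom.dwp (zt M ![0, 1] τ)
  rw [show ω * zt M ![0, 1] τ = ω / M by simp [zt, div_eq_mul_inv]] at h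
  rw [h, w, w, Pi.mul_apply, Pf, pow_add]
  have := b.1
  have := Complex.two_pi_I_ne_zero
  field_simp

theorem dwp_eq (Λ : Submodule ℤ ℂ) (t z : ℂ) : dwp Λ z = 1 + (2 * yy Λ t z + t * xx Λ t z) := by
  rw [yy]; ring

theorem dwp_val (h : Ss A Λ t) {z : ℂ} (n : h.rd z ≠ 0) : A.valuation (dwp Λ z) = 1 := by
  obtain ⟨a, b⟩ := h.rd_ne_zero.1 n
  rw [dwp_eq Λ t]
  exact A.valuation.map_one_add_of_lt (lt_comb h.two (h.yy_mem a b) h.lt b)

theorem cl_dwp (h : Ss A Λ t) (h' : Ss A Λ' t') {z z' : ℂ} (n : h.rd z ≠ 0) (e : h.rd z = h'.rd z')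
    {J : ℕ} (c : Cl A (A.valuation 2 ^ (J + 2)) t t')
    (cx : Cl A (A.valuation 2 ^ (J + 2)) (xx Λ t z) (xx Λ' t' z')) :
    Cl A (A.valuation 2 ^ (J + 1)) (dwp Λ z) (dwp Λ' z') := by
  have n' : h'.rd z' ≠ 0 := e ▸ n
  obtain ⟨a, b⟩ := h.rd_ne_zero.1 n
  obtain ⟨a', b'⟩ := h'.rd_ne_zero.1 n'
  have y := h.yy_mem a b
  have y' := h'.yy_mem a' b'
  have v := dwp_val h n
  have v' := dwp_val h' n'
  refine ⟨(A.valuation_le_one_iff _).1 v.le, (A.valuation_le_one_iff _).1 v'.le, ?_⟩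
  have k1 : A.valuation (yy Λ t z - yy Λ' t' z') < 1 := by
    rw [← rs_eq_zero (sub_mem y y')]
    have k := rs_add (sub_mem y y') y'
    rwa [sub_add_cancel, ← h.yc_rd n, e, h'.yc_rd n', right_eq_add] at k
  have k2 : A.valuation (dwp Λ z - dwp Λ' z') < A.valuation 2 := by
    rw [dwp_eq Λ t, dwp_eq Λ' t', add_sub_add_left_eq_sub, add_sub_add_comm, ← mul_sub]
    refine A.valuation.map_add_lt ?_ (((c.mul cx).le.trans (two_anti h.two (a := 2)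
      (by omega))).trans_lt ?_)
    · rw [map_mul]
      exact mul_lt_of_lt_one_right two_pos' k1
    · rw [pow_two]
      exact mul_lt_of_lt_one_right two_pos' h.two
  have k3 : A.valuation (dwp Λ z - dwp Λ' z' + 2 * dwp Λ' z') = A.valuation 2 := by
    rw [Valuation.map_add_eq_of_lt_right, map_mul, v', mul_one]
    rwa [map_mul, v', mul_one]
  refine canc (b := 1) (u := dwp Λ z - dwp Λ' z' + 2 * dwp Λ' z') (by rw [k3, pow_one]) ?_
  have k4 := (((Cl.rf _ (ofNat_mem A 4)).mul (cx.pow 3)).add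
    (((c.mul cx).add (Cl.rf _ (one_mem A))).pow 2)).le
  refine le_of_eq_of_le (congrArg _ ?_) k4
  rw [dwp_eq Λ t, dwp_eq Λ' t']
  linear_combination 4 * h.eqn a - 4 * h'.eqn a'

end Lp

open Lp Vale.Agent.P027H Vale.Agent.P022.H218.L3 Vale.Agent.P022.H236.L3 Vale.Agent.P022.H542.L3
  Vale.Agent.P022D.Irr Vale.Agent.P027M.M Vale.Agent.P004M.D Vale.Agent.P004M.D.Iv in
/-- **LIP in odd weight** -/
theorem lipx {A : ValuationSubring ℂ} (h2 : A.valuation 2 < 1) (hA : Arch A) :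
    ∃ Z : Finset A.ValueGroup, ∀ (M : ℕ), Odd M → 1 < M → ∀ (m : ℕ) (f : ℍ → ℂ) (χ : ℤ → ℂ),
    IsMF (Gamma1 M) (2 * m + 1 : ℕ) f →
    (∀ γ ∈ Gamma0 M, f ∣[((2 * m + 1 : ℕ) : ℤ)] γ = χ (γ 1 1) • f) →
    (∀ a b : ℤ, (M : ℤ) ∣ a - b → χ a = χ b) →
    (∀ Λ t ω τ, Ss A Λ t → B Λ ω τ → w (2 * m + 1) f ω τ ∈ A) → ∀ r ∉ Z, ∀ j : ℕ, ∃ i : ℕ,
    ∀ (Λ Λ' : Submodule ℤ ℂ) (t t' ω ω' : ℂ) (τ τ' : ℍ) (h : Ss A Λ t) (h' : Ss A Λ' t') (u : ℤ),
      B Λ ω τ → B Λ' ω' τ' → A.valuation t = r →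
      A.valuation (t - t') ≤ A.valuation 2 ^ i → IsCoprime u (M : ℤ) →
      h'.rd (ω' / M) = h.rd (u * (ω / M)) →
      A.valuation (χ u * w (2 * m + 1) f ω τ - w (2 * m + 1) f ω' τ') ≤ A.valuation 2 ^ j := by
  obtain ⟨Z, hZ⟩ := low_uu h2 hA
  refine ⟨Z, fun M hM h1 m f χ hf hχ hp hi r hr j => ?_⟩
  obtain ⟨B, hB⟩ := hZ r hr
  have : NeZero M := ⟨hM.pos.ne'⟩
  have hg := ((hf.mono fun γ h => (Gamma1_mem M γ).2
    ⟨(Gamma_mem.1 h).1, (Gamma_mem.1 h).2.2.2, (Gamma_mem.1 h).2.2.1⟩).mul (pf_mf h1)).mono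
    (gamma_le (M := 4))
  rw [show ((2 * m + 1 : ℕ) : ℤ) + 3 = (2 * (m + 2) : ℕ) by push_cast; ring] at hg
  obtain ⟨x, hx⟩ := ex_W hg
  obtain ⟨y, hy⟩ : ∃ y : WW (M * 4), ∀ Λ t ω τ, Nm Λ t → Iv.B Λ ω τ →
      y.1 τ = wp Λ (ω / M) * uu t := by
    obtain ⟨y, hy⟩ := ex_W (xv_mf h1)
    refine ⟨y, fun Λ t ω τ h b => ?_⟩
    rw [hy Λ t ω τ h b, pow_one, mul_one, w_wp b]
    simp [zt, div_eq_mul_inv]
  set J := j + B * (m + 2) with hJ
  obtain ⟨i, hi'⟩ := near2 h2 hA x y (J + 2 + 2 + B)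
  refine ⟨i + (J + 2 + 2 + B), fun Λ Λ' t t' ω ω' τ τ' h h' u b b' ht hd hu e => ?_⟩
  have c : Cl A _ t t' := ⟨h.mem, h'.mem, hd⟩
  obtain ⟨g, k1, k2⟩ := hi' τ τ' ((cl_jf h h' b b' c).mono (two_anti h2 (by omega)))
  obtain ⟨γ, rfl⟩ := pr_surj _ g
  obtain ⟨δ, rfl⟩ := inv_surjective γ
  simp only [smul_coe, inv_inv] at k1 k2
  have n2 := rd_ne1 h' b' hM h1
  have m2 := (h'.rd_ne_zero.1 n2).2
  have o := (b.ot hM).int_mul u
  have cx : ∀ ω₁, Iv.B Λ ω₁ (δ • τ) →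
      Cl A (A.valuation 2 ^ (J + 2)) (xx Λ t (ω₁ / M)) (xx Λ' t' (ω' / M)) := fun ω₁ b1 => by
    have m1 := (h.rd_ne_zero.1 (rd_ne1 h b1 hM h1)).2
    have k3 := (mul_le_l (ofNat_mem A 12)).trans k2
    have w1 : ∀ Λ t z, 12 * (wp Λ z * uu t) = (12 * xx Λ t z + t ^ 2) * uu t := fun Λ t z => by
      rw [xx]
      ring
    rw [hy _ _ _ _ h.toNm b1, hy _ _ _ _ h'.toNm b', mul_sub, w1, w1] at k3
    have k4 := canc' (j := J + 2 + 2) (hB _ _ h ht) (add_mem (mul_mem (ofNat_mem A 12) m2)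
      (pow_mem h'.mem 2)) ((cl_uu h h' c).le.trans (two_anti h2 (by omega))) k3
    have k5 := A.valuation.map_sub_le k4 ((c.pow 2).le.trans (two_anti h2 (by omega)))
    have v3 : A.valuation (3 : ℂ) = 1 := by exact_mod_cast val_odd h2 (n := 3) (by decide)
    rw [show ∀ a b c d : ℂ, 12 * a + c - (12 * b + d) - (c - d) = (a - b) * (2 ^ 2 * 3) from
      fun _ _ _ _ => by ring] at k5
    exact ⟨m1, m2, canc (b := 2) (by rw [map_mul, v3, map_pow, mul_one]) k5⟩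
  have key : ∀ δ' : SL(2, ℤ), δ' • τ = δ • τ →
      h.rd (ω * ((δ' 1 0 : ℂ) * τ + δ' 1 1) / M) = h.rd (u * (ω / M)) →
      A.valuation (χ u * w (2 * m + 1) f ω τ - w (2 * m + 1) f ω' τ') ≤ A.valuation 2 ^ j := by
    intro δ' e1 e2
    have b1 := b.smul δ'
    obtain ⟨d1, d2⟩ := b.div_mem hM.pos (c := δ' 1 0) (d := δ' 1 1 - u)
      (mem_of_eq (h.inj' (b1.ot hM) o e2) (by push_cast; ring))
    have n1 := rd_ne1 h b1 hM h1
    have k3 := cl_dwp h h' n1 (e2.trans e.symm) (c.mono (two_anti h2 (by omega))) (cx _ (e1 ▸ b1))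
    rw [← e1, hx _ _ _ _ h.toNm b1, hx _ _ _ _ h'.toNm b',
      show 2 * (m + 2) = 2 * m + 1 + 3 by ring, w_pf b1, w_pf b', w_smul,
      hχ δ' (Gamma0_mem.2 ((ZMod.intCast_zmod_eq_zero_iff_dvd _ _).2 d1)), hp _ _ d2, mul_assoc,
      mul_assoc, show w (2 * m + 1) (χ u • f) ω τ = χ u * w (2 * m + 1) f ω τ by
        rw [w, w, Pi.smul_apply, smul_eq_mul]; ring] at k1
    refine canc' (b := B * (m + 2)) ?_ (hi _ _ _ _ h' b') ((k3.mono (two_anti h2 (by omega))).mul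
      (((cl_uu h h' c).pow _).mono (two_anti h2 (by omega)))).le (k1.trans (two_anti h2 (by omega)))
    rw [map_mul, dwp_val h n1, one_mul, pow_mul, map_pow]
    exact pow_le_pow_left₀ zero_le' (hB _ _ h ht) _
  have b1 := b.smul δ
  have n1 := rd_ne1 h b1 hM h1
  have k6 := cx _ b1
  have k7 := h.xc_rd n1
  rw [← sub_add_cancel (xx Λ t _) (xx Λ' t' (ω' / M)), rs_add (sub_mem k6.l m2) m2,
    (rs_eq_zero (sub_mem k6.l m2)).2 (k6.le.trans_lt (pow_lt_one₀ zero_le' h2 (by omega))), zero_add,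
    ← h'.xc_rd n2, e] at k7
  rcases xc_eq n1 (rd_ne h b hM h1 hu) k7 with k | k
  · exact key δ rfl k
  · refine key (-δ) (ModularGroup.SL_neg_smul δ τ) ?_
    rw [← neg_inj, ← k, ← map_neg]
    congr 1
    simp only [Matrix.SpecialLinearGroup.coe_neg, Matrix.neg_apply]
    push_cast
    ring

end Vale.Agent.P014Y.W1
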