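import Vale.Agent.P014Y.W1.St
import Vale.Agent.P014Y.W1.Lip
import Vale.Agent.P014Y.W1.Geo
import Vale.Agent.P004M.D.Iv

/-!
# P014Y, block W1: the rows INT, NZ, LIP, GEO
-/

set_option autoImplicit false
set_option linter.all false

open UpperHalfPlane CongruenceSubgroup

noncomputable section

namespace Vale.Agent.P014Y.W1

open Vale.Agent.P022.H218.L3 Vale.Agent.P022.H236.L3 Vale.Agent.P022D.Irr Vale.Agent.P004M.D

section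

variable {A : ValuationSubring ℂ} {M k : ℕ} {f : ℍ → ℂ} {c : ℕ → ℂ}

theorem Mx.gam (h : Mx M k f) : IsMF (Gamma M) k f :=
  h.mf.mono fun γ h => (Gamma1_mem M γ).2
    ⟨(Gamma_mem.1 h).1, (Gamma_mem.1 h).2.2.2, (Gamma_mem.1 h).2.2.1⟩

theorem Fmx.ex (h : Fmx A M k f c) : ExL 1 (HahnSeries.ofPowerSeries ℤ ℂ (PowerSeries.mk c)) f :=
  exL_of_hasSum (by simpa [P022K.UC.Sm, mul_comm] using h.sm)

theorem Fmx.im (h : Fmx A M k f c) : HahnSeries.ofPowerSeries ℤ ℂ (PowerSeries.mk c) ∈ Int A :=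
  ofPS_int.2 fun n => by simpa using h.int n

end

/-- **INT** -/
theorem intx : INTx := fun A h M k f c hM hf Λ t ω τ hs b =>
  haveI : NeZero M := ⟨hM.pos.ne'⟩
  Iv.int0 h.arch (Iv.inv_mem h hM) hf.mf.gam hf.ex hf.im hs ⟨b.ne, b.mem⟩

/-- **NZ** -/
theorem nzx : NZx := fun A h M k f c hM hf h1 Z => by
  have : NeZero M := ⟨hM.pos.ne'⟩
  obtain ⟨Λ, t, ω, τ, a, b, r⟩ := Iv.nz0 h.two h.arch (Iv.inv_mem h hM) hf.mf.gam hf.ex
    hf.im (n := (1 : ℕ)) (by rwa [LaurentSeries.coeff_coe_powerSeries, PowerSeries.coeff_mk]) Z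
  exact ⟨Λ, t, ω, τ, a, ⟨b.1, b.2⟩, r⟩

/-- **LIP** -/
theorem lipx' : LIPx := fun A h M hM h3 => by
  obtain ⟨Z, hZ⟩ := lipx h.two h.arch
  refine ⟨Z, fun m f c hf r hr j => ?_⟩
  obtain ⟨i, hi⟩ := hZ M hM (lt_of_lt_of_le (by norm_num) (Nat.le_of_dvd hM.pos h3)) m f
    (fun x => k3 x) hf.mf.mf hf.mf.chi
    (fun a b e => congrArg _ (k3_congr ((Int.natCast_dvd_natCast.2 h3).trans e)))
    (fun Λ t ω τ s b => intx A h M _ f c hM hf Λ t ω τ s ⟨b.1, b.2⟩) r hr j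
  exact ⟨i, fun Λ Λ' t t' ω ω' τ τ' s s' u b b' e _ =>
    hi Λ Λ' t t' ω ω' τ τ' s s' u ⟨b.ne, b.mem⟩ ⟨b'.ne, b'.mem⟩ e⟩

/-- **GEO** -/
theorem geox : GEOx := fun A hA => (geo' A hA).imp fun _ h Λ t s e => by
  obtain ⟨c, s', L, h1, h2⟩ := h Λ t s e
  exact ⟨c, s', L, fun g hg => ⟨(h1 g hg).toIso, (h1 g hg).rd⟩, h2⟩

end Vale.Agent.P014Y.W1
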