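import Vale.Agent.P004M.D.Rt0

/-!
# P014Y, block W1: the words of the rate step in odd weight
-/

set_option autoImplicit false
set_option linter.all false

noncomputable section

namespace Vale.Agent.P014Y.W1

open Vale.Agent.P004M.D Hu MvPolynomial

variable {ι O : Type} [CommRing O]

/-- a quadratic character modulo `M` -/
structure Qc (M : ℕ) (χ : ℤ → ℤ) : Prop where
  mul : ∀ a b, χ (a * b) = χ a * χ b
  per : ∀ a b, χ (a + M * b) = χ a
  sq : ∀ d, IsCoprime d (2 * M : ℤ) → χ d * χ d = 1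

/-- smooth eigenfunctions with central character `χ d / d` -/
structure Eiy (M : ℕ) (χ : ℤ → ℤ) (R : ι → Finset Hu) (a : ι → O) {V : Type} [AddCommGroup V]
    [Module O V] (ψ : Hu → V) : Prop where
  tor : ∃ i, ∀ x, 2 ^ i • ψ x = 0
  per : ∃ n, ∀ x y, Cp M x → ψ (x + (2 ^ n * M : ℕ) • y) = ψ x
  un : ∀ u x, nm u = 1 → Cp M x → ψ (u * x) = ψ x
  sc : ∀ (d : ℤ) x, IsCoprime d (2 * M) → Cp M x → d • ψ (d • x) = χ d • ψ x
  eg : ∀ l x, Cp M x → ∑ α ∈ R l, ψ (α * x) = a l • ψ x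

/-- smooth eigenfunctions of unbounded order -/
def EIGy (M : ℕ) (χ : ℤ → ℤ) (R : ι → Finset Hu) (a : ι → O) : Prop :=
  ∀ j : ℕ, ∃ (V : Type) (_ : AddCommGroup V) (_ : Module O V) (ψ : Hu → V),
    Eiy M χ R a ψ ∧ ∃ x, Cp M x ∧ 2 ^ j • ψ x ≠ 0

/-- on each class modulo `4 M`, a homogeneous polynomial of odd degree over a power of the norm -/
def Pqy (K : Type) [Field K] (M : ℕ) (χ : ℤ → ℤ) (m : ℕ) (Φ : Hu → K) : Prop :=
  ∃ P : Hu → MvPolynomial (Fin 4) K, (∀ x, (P x).IsHomogeneous (2 * m + 1)) ∧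
    (∀ x y, P (x + (4 * M : ℕ) • y) = P x) ∧
    (∀ (d : ℤ) x, IsCoprime d (2 * M) → P (d • x) = C (χ d : K) * P x) ∧
    ∀ x, Φ x = eval (fun i => (co x i : K)) (P x) / (nm x : K) ^ (m + 1)

/-- the word `P` kills the algebraic functions of degree `m` -/
def Kiy (K : Type) [Field K] (M : ℕ) (χ : ℤ → ℤ) (R : ι → Finset Hu) (m : ℕ)
    (P : FreeAlgebra ℤ ι) : Prop :=
  ∀ Φ, Pqy K M χ m Φ → ∀ x, Cp M x → wT K R P (TL K (On 1) Φ) x = 0

/-- an element which `2 ^ j` does not divide has a norm which `2 ^ (2 j)` does not divide -/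
def Nq (O : Type) [CommRing O] : Prop := ∀ (α : O) (j : ℕ), ¬ (2 : O) ^ j ∣ α →
  ∃ t n : ℤ, (t - α) * α = n ∧ ¬ (2 : ℤ) ^ (2 * j) ∣ n

/-- **the linear rate** -/
def RTY : Prop := ∀ (ι O : Type) [CommRing O] (M : ℕ) (χ : ℤ → ℤ) (R : ι → Finset Hu) (a : ι → O),
  Nq O → M ≠ 0 → Qc M χ → (∀ l, ∀ α ∈ R l, Cp M α) → EIGy M χ R a → ∃ C, ∀ (j : ℕ) P,
    Kiy ℚ_[2] M χ R (C * (j + 1)) P → (2 : O) ^ j ∣ FreeAlgebra.lift ℤ a P

theorem Kiy.of_hom {K L : Type} [Field K] [Field L] (σ : K →+* L) {M m : ℕ} {χ : ℤ → ℤ}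
    {R : ι → Finset Hu} (hR : ∀ l, ∀ α ∈ R l, Cp M α) {P : FreeAlgebra ℤ ι}
    (h : Kiy L M χ R m P) : Kiy K M χ R m P := by
  rintro Φ ⟨Q, h1, h2, h3, h4⟩ x hx
  refine σ.injective ((wT_map hR σ.toAddMonoidHom P _ (TL L (On 1) (σ ∘ Φ)) (fun x _ => by
    simp [TL_apply]) x hx).trans ((h _ ⟨fun x => map σ (Q x), fun x => (h1 x).map σ,
      fun x y => congrArg _ (h2 x y), fun d x k => by
        beta_reduce; rw [h3 d x k, map_mul, map_C, map_intCast σ], fun x => ?_⟩ x hx).trans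
        σ.map_zero.symm))
  rw [Function.comp, h4, map_div₀, map_pow, map_intCast, map_eval]
  simp [Function.comp_def]

theorem nq0 (j : ℕ) : ∀ α : ℤ√(-2), (2 : ℤ) ^ (2 * j) ∣ α.norm → 2 ^ j ∣ α := by
  induction j with
  | zero => simp
  | succ j ih =>
    intro α k
    rw [Zsqrtd.norm_def] at k
    have k4 : (4 : ℤ) ∣ α.re * α.re - -2 * α.im * α.im :=
      (Dvd.intro (2 ^ (2 * j)) (by ring)).trans k
    obtain ⟨x, hx⟩ : 2 ∣ α.re := (Int.prime_two.dvd_or_dvd (show (2 : ℤ) ∣ α.re * α.re by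
      rw [mul_assoc] at k4
      omega)).elim id id
    obtain ⟨y, hy⟩ : 2 ∣ α.im := (Int.prime_two.dvd_or_dvd (show (2 : ℤ) ∣ α.im * α.im by
      rw [hx, show 2 * x * (2 * x) = 4 * (x * x) by ring, mul_assoc] at k4
      omega)).elim id id
    have e : α = 2 * ⟨x, y⟩ := by ext <;> simp [hx, hy]
    rw [e, pow_succ']
    refine mul_dvd_mul_left _ (ih ⟨x, y⟩ ?_)
    rw [hx, hy, show 2 * x * (2 * x) - -2 * (2 * y) * (2 * y) = 4 * (x * x - -2 * y * y) by ring,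
      show (2 : ℤ) ^ (2 * (j + 1)) = 4 * 2 ^ (2 * j) by ring] at k
    exact (mul_dvd_mul_iff_left (by norm_num)).1 k

theorem nq : Nq (ℤ√(-2)) := fun α j h => ⟨2 * α.re, α.norm, by
  rw [Zsqrtd.norm_eq_mul_conj, mul_comm α]
  congr 1
  ext <;> simp
  ring, mt (nq0 j α) h⟩

end Vale.Agent.P014Y.W1
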