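import Vale.Agent.P014Y.W1.St
import Vale.Agent.P014Y.W1.Rt0
import Vale.Agent.P014Y.W1.A6

/-!
# P014Y, block W1: the rows Q6 and KIL, raising the level and twisting
-/

set_option autoImplicit false
set_option linter.all false

noncomputable section

namespace Vale.Agent.P014Y.W1

open Vale.Agent.P022 Vale.Agent.P022K.UC.Hm Vale.Agent.P004M.D Vale.Agent.P004M.D.Hu

/-- **KIL** -/
theorem kilx : KILx := by
  rintro M _ _ - m P hP Φ ⟨p, h1, h2, h3, h4⟩ x hx
  have := Th.kill3 (χ := k3) (R := Rp) (M := M) (e := m + 1) (P := P) (by exact ⟨1, by ring⟩)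
    (fun l Φ n => by simpa only [Int.natCast_dvd_natCast] using hecke l.2.1 (PA_two l) Φ n)
    (fun l α a => (cp_Rp l α a).odd) (by omega) (fun w i hi e => by
      obtain ⟨i, rfl⟩ : ∃ j, i = j + 1 := ⟨i - 1, by omega⟩
      obtain rfl : w = 2 * i + 1 := by omega
      exact hP (i + 1) hi) h1 h2
    (fun e he y => (h3 e y (he.of_isCoprime_of_dvd_right ⟨128 * M, by push_cast; ring⟩)).trans
      (by rw [zsmul_eq_mul, map_intCast])) hx.odd
  rw [show TL ℚ_[2] (On 1) Φ = _ from funext fun x => (TL_apply _ _ x).trans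
    (Finset.sum_congr rfl fun u _ => h4 _)]
  exact this

theorem chi_k3 {N : ℕ} (h : 3 ∣ N) : A6.Chi N k3 :=
  ⟨k3_mul, fun a b e => k3_congr ((Int.natCast_dvd_natCast.2 h).trans
    ((ZMod.intCast_eq_intCast_iff_dvd_sub b a N).1 e.symm)), k3_one, k3_neg_one⟩

theorem dvd_of_norm {E : Type} [NontriviallyNormedField E] [NormedAlgebra ℚ_[2] E] (ι : O →+* E)
    (j : ℕ) {z : O} (h : ‖ι z‖ ≤ 2⁻¹ ^ (2 * j)) : 2 ^ j ∣ z := by
  have : IsUltrametricDist E := IsUltrametricDist.of_normedAlgebra ℚ_[2]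
  have h1 : ‖ι Zsqrtd.sqrtd‖ ≤ 1 := by
    refine (pow_le_one_iff_of_nonneg (norm_nonneg _) two_ne_zero).1 ?_
    rw [← norm_pow, ← map_pow, sq, Zsqrtd.dmuld, map_intCast]
    exact IsUltrametricDist.norm_intCast_le_one E _
  have h2 : ‖ι (star z)‖ ≤ 1 := by
    rw [show star z = _ from Zsqrtd.decompose (x := (star z).re) (y := (star z).im), map_add, map_mul, map_intCast,
      map_intCast]
    exact add_mem (s := P004M.A6.Ub E) (intCast_mem _ _) (mul_mem h1 (intCast_mem _ _))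
  refine nq0 j z ((Padic.norm_int_le_pow_iff_dvd (p := 2) _ _).1 ?_)
  rw [← norm_algebraMap' E, map_intCast, ← map_intCast ι, Zsqrtd.norm_eq_mul_conj, map_mul,
    norm_mul]
  refine (mul_le_of_le_one_right (norm_nonneg _) h2).trans (h.trans_eq ?_)
  rw [zpow_neg, zpow_natCast, inv_pow, Nat.cast_two]

/-- **Q6** -/
theorem q6x : Q6x := fun E _ _ ι r h o a ho h3 ha => by
  obtain ⟨N, _, κ, n1, n2, n3, n4, n5⟩ := A6.tw_of_q1 h ho (chi_k3 h3) (a := fun l => ι (a l)) ha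
  refine ⟨N, inferInstance, κ, n1, n2, n3, n4, fun j => (n5 (2⁻¹ ^ (2 * j)) (by positivity)).imp
    fun B hB P hP => dvd_of_norm ι j ?_⟩
  rw [P004M.A6.map_lift]
  simpa using (hB P hP).le

end Vale.Agent.P014Y.W1
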