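import Vale.Agent.P004M.D.St
import Vale.Agent.P022.H933.St.Def
import Mathlib.NumberTheory.Zsqrtd.Basic
import Mathlib.NumberTheory.LegendreSymbol.Basic

/-!
# P014Y, block W1: words and rows of the form of weight one
-/

set_option autoImplicit false
set_option linter.all false

open UpperHalfPlane CongruenceSubgroup
open scoped MatrixGroups ModularForm Real Classical

noncomputable section

namespace Vale.Agent.P014Y.W1

open Vale.Agent.P022 Vale.Agent.P022.H218.L3 Vale.Agent.P022K.UC Vale.Agent.P022K.UC.Hm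
open Vale.Agent.P004M.D Vale.Agent.P004M.D.Hu

/-- the ring of the eigenvalues -/
abbrev O : Type := ℤ√(-2)

/-- its complex embedding -/
def J : O →+* ℂ := Zsqrtd.lift ⟨Complex.I * (√2 : ℝ), by
  rw [mul_mul_mul_comm, Complex.I_mul_I, ← Complex.ofReal_mul, Real.mul_self_sqrt zero_le_two]
  norm_num⟩

theorem J_apply (x : O) : J x = x.re + x.im * (Complex.I * (√2 : ℝ)) := rfl

theorem J_inj : Function.Injective J := Zsqrtd.lift_injective _ fun n e => by nlinarith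

theorem J_normSq (x : O) : ‖J x‖ ^ 2 = x.norm := by
  rw [← Complex.normSq_eq_norm_sq, J_apply, Complex.normSq_apply, Zsqrtd.norm_def]
  simp
  linear_combination (x.im : ℝ) * x.im * Real.mul_self_sqrt zero_le_two

/-- the character of conductor three -/
def k3 (x : ℤ) : ℤ := legendreSym 3 x

theorem k3_mul (x y : ℤ) : k3 (x * y) = k3 x * k3 y := legendreSym.mul 3 x y

@[simp] theorem k3_one : k3 1 = 1 := legendreSym.at_one 3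

@[simp] theorem k3_neg_one : k3 (-1) = -1 := by decide

theorem k3_congr {x y : ℤ} (h : (3 : ℤ) ∣ x - y) : k3 x = k3 y :=
  congrArg (quadraticChar (ZMod 3)) ((ZMod.intCast_eq_intCast_iff_dvd_sub x y 3).2
    (by simpa using h.neg_right))

theorem k3_sq {x : ℤ} (h : ¬ (3 : ℤ) ∣ x) : k3 x * k3 x = 1 :=
  (sq _).symm.trans (legendreSym.sq_one 3 (mt (ZMod.intCast_zmod_eq_zero_iff_dvd x 3).1 h))

theorem k3_zero {x : ℤ} (h : (3 : ℤ) ∣ x) : k3 x = 0 :=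
  (legendreSym.eq_zero_iff 3 x).2 ((ZMod.intCast_zmod_eq_zero_iff_dvd x 3).2 h)

theorem k3_abs (x : ℤ) : |k3 x| ≤ 1 := by
  by_cases h : (3 : ℤ) ∣ x
  · simp [k3_zero h]
  · exact (abs_le_one_iff_mul_self_le_one.2 (k3_sq h).le)

/-- the same, as a Dirichlet character -/
def χ3 : DirichletCharacter ℂ 3 := (quadraticChar (ZMod 3)).ringHomComp (Int.castRingHom ℂ)

theorem χ3_int (x : ℤ) : χ3 x = k3 x := rfl

theorem χ3_nat (x : ℕ) : χ3 x = k3 x := by rw [← χ3_int, Int.cast_natCast]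

/-! ### systems of eigenvalues -/

section

variable {N : ℕ} [NeZero N]

/-- forms with character `k3` -/
def Tx {k : ℕ} (f : MF N k) : Prop := ∀ l : PA N, H783.dia k l f = (k3 l.1 : ℂ) • f

/-- words in the normalised Hecke operators of odd weight -/
def wx (N m : ℕ) [NeZero N] : FreeAlgebra ℤ (PA N) →ₐ[ℤ] Module.End ℂ (MF N (2 * m + 1)) :=
  FreeAlgebra.lift ℤ fun l => ((l.1 : ℂ) ^ m)⁻¹ • H783.Tl (2 * m + 1) l

/-- a word which kills the forms of weight at most `2 B + 1` is zero modulo `2 ^ j` -/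
def UAx (N : ℕ) [NeZero N] {R : Type*} [CommRing R] (x : ℕ → R) (B j : ℕ) : Prop :=
  ∀ P : FreeAlgebra ℤ (PA N), (∀ m ≤ B, ∀ f, Tx f → wx N m P f = 0) →
    2 ^ j ∣ FreeAlgebra.lift ℤ (fun l : PA N => x l.1) P

/-- the system is a limit -/
def A6x (N : ℕ) [NeZero N] (a : ℕ → O) : Prop := ∀ j : ℕ, ∃ B, UAx N a B j

/-- the system is a limit with linear rate -/
def UCX (N : ℕ) [NeZero N] (a : ℕ → O) : Prop := ∃ C : ℕ, ∀ j : ℕ, UAx N a (C * (j + 1)) j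

end

/-- a normalised formal eigenform of weight one -/
structure Ewx (N : ℕ) {R : Type*} [CommRing R] (x : ℕ → R) : Prop where
  one : x 1 = 1
  dep : ∀ n, ¬ n.Coprime (2 * N) → x n = 0
  hecke : ∀ (l : PA N) (n : ℕ),
    x (l.1 * n) + (if l.1 ∣ n then (k3 l.1 : R) * x (n / l.1) else 0) = x l.1 * x n

/-- a form on `Γ₀(M)` with character `k3` -/
structure Mx (M k : ℕ) (f : ℍ → ℂ) : Prop where
  mf : IsMF (Gamma1 M) (k : ℤ) f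
  chi : ∀ γ ∈ Gamma0 M, f ∣[(k : ℤ)] γ = (k3 (γ 1 1) : ℂ) • f

/-- with expansion `c` in `A` -/
structure Fmx (A : ValuationSubring ℂ) (M k : ℕ) (f : ℍ → ℂ) (c : ℕ → ℂ) : Prop where
  mf : Mx M k f
  sm : Sm c f
  int : ∀ n, c n ∈ A

/-- **Q6** (18): from occurrence at odd level to a limit of forms with character `k3` -/
def Q6x : Prop := ∀ (E : Type) [NontriviallyNormedField E] [NormedAlgebra ℚ_[2] E] (ι : O →+* E)
  (r : (AlgebraicClosure ℚ ≃ₐ[ℚ] AlgebraicClosure ℚ) →* GL (Fin 2) E), St.Q1Concl r →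
  ∀ (o : ℕ) (a : ℕ → O), Odd o → 3 ∣ o →
    (∀ l : ℕ, l.Prime → ¬ l ∣ 2 * o → St.UnrAt r l ∧ ∃ g, St.IsFrob l g ∧
      (r g : Matrix (Fin 2) (Fin 2) E).trace = ι (a l) ∧
      (r g : Matrix (Fin 2) (Fin 2) E).det = (k3 l : E)) →
    ∃ (N : ℕ) (_ : NeZero N) (χ : ZMod 8 →* ℤ), Odd N ∧ o ∣ N ∧
      (∀ l : ℕ, l.Prime → l ∣ N → l ∣ o) ∧ (∀ x : ℤ, Odd x → χ x ^ 2 = 1) ∧
      A6x N fun l => (χ l : O) * a l

/-- **D0** (91): an eigenform modulo `2 ^ j` of odd level and of one weight -/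
def D0x : Prop := ∀ A, Ok A → ∀ (N : ℕ) [NeZero N] (a : ℕ → O), Odd N → 3 ∣ N → A6x N a → ∀ j : ℕ,
  ∃ (m : ℕ) (H : ℍ → ℂ) (c : ℕ → ℂ), Fmx A (N ^ 3) (2 * m + 1) H c ∧ A.valuation (c 1) = 1 ∧
    ∀ l : ℕ, l.Prime → ¬ l ∣ 2 * N → ∀ n : ℕ,
      A.valuation (c (l * n) + (if l ∣ n then k3 l * (l : ℂ) ^ (2 * m) * c (n / l) else 0) -
        (l : ℂ) ^ m * J (a l) * c n) ≤ A.valuation 2 ^ j

/-- **DU** (91): duality between words and expansions -/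
def DUx : Prop := ∀ A, Ok A → ∀ (N : ℕ) [NeZero N] (a : ℕ → O), Odd N → 3 ∣ N → A6x N a → ∀ j : ℕ,
  ∃ (x : ℕ → O) (B : ℕ) (f : ℕ → ℍ → ℂ) (c : ℕ → ℕ → ℂ), Ewx N x ∧ (∀ l : PA N, x l.1 = a l.1) ∧
    (∀ m, Mx (N ^ 3 * 2 ^ 5) (2 * m + 1) (f m) ∧ Sm (c m) (f m)) ∧
    ∀ n : ℕ, A.valuation ((n : ℂ) ^ B * J (x n) -
      ∑ m ∈ Finset.range (B + 1), (n : ℂ) ^ (B - m) * c m n) ≤ A.valuation 2 ^ j

/-- **SE** (91): derivatives of forms of level `M 2 ^ s` are limits of forms of level `M` -/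
def SEx : Prop := ∀ A, Ok A → ∀ (M s B : ℕ) (f : ℕ → ℍ → ℂ) (c : ℕ → ℕ → ℂ), Odd M → 3 ∣ M →
  (∀ m, Mx (M * 2 ^ s) (2 * m + 1) (f m) ∧ Sm (c m) (f m)) → ∀ j : ℕ,
  ∃ (w : ℕ) (H : ℍ → ℂ) (d : ℕ → ℂ), Mx M (2 * (B + 2 ^ j * w) + 1) H ∧ Sm d H ∧
    ∀ n : ℕ, A.valuation (d n - ∑ m ∈ Finset.range (B + 1), (n : ℂ) ^ (B - m) * c m n) ≤
      A.valuation 2 ^ j

/-- **INT**: integral forms have integral values -/
def INTx : Prop := ∀ A, Ok A → ∀ (M k : ℕ) (f : ℍ → ℂ) (c : ℕ → ℂ), Odd M → Fmx A M k f c →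
  ∀ (Λ : Submodule ℤ ℂ) (t ω : ℂ) (τ : ℍ), Ss A Λ t → Bs Λ ω τ → vl k f ω τ ∈ A

/-- **NZ**: a point near the boundary of the supersingular disc where the value is large -/
def NZx : Prop := ∀ A, Ok A → ∀ (M k : ℕ) (f : ℍ → ℂ) (c : ℕ → ℂ), Odd M → Fmx A M k f c →
  A.valuation (c 1) = 1 → ∀ Z : Finset A.ValueGroup,
  ∃ (Λ : Submodule ℤ ℂ) (t ω : ℂ) (τ : ℍ), Ss A Λ t ∧ Bs Λ ω τ ∧ A.valuation 2 < A.valuation t ∧
    A.valuation t ∉ Z ∧ A.valuation 2 < A.valuation (vl k f ω τ)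

/-- **LIP** (26): uniform continuity on the circles, with signs -/
def LIPx : Prop := ∀ A, Ok A → ∀ M : ℕ, Odd M → 3 ∣ M → ∃ Z : Finset A.ValueGroup,
  ∀ (m : ℕ) (f : ℍ → ℂ) (c : ℕ → ℂ), Fmx A M (2 * m + 1) f c → ∀ r ∉ Z, ∀ j : ℕ, ∃ i : ℕ,
    ∀ (Λ Λ' : Submodule ℤ ℂ) (t t' ω ω' : ℂ) (τ τ' : ℍ) (h : Ss A Λ t) (h' : Ss A Λ' t') (u : ℤ),
      Bs Λ ω τ → Bs Λ' ω' τ' → A.valuation t = r → A.valuation t' = r →
      A.valuation (t - t') ≤ A.valuation 2 ^ i → IsCoprime u (M : ℤ) →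
      h'.rd (ω' / M) = h.rd (u * (ω / M)) →
      A.valuation (k3 u * vl (2 * m + 1) f ω τ - vl (2 * m + 1) f ω' τ') ≤ A.valuation 2 ^ j

/-- the lift of the isogeny `g`, with its sign -/
structure Isx {A : ValuationSubring ℂ} {Λ : Submodule ℤ ℂ} {t : ℂ} (h : Ss A Λ t)
    (ρ : Hu →+* AddMonoid.End (Pt (0 : kk A))) (g : Hu) (c s : ℂ) (L : Submodule ℤ ℂ) : Prop
    extends Iso h ρ g c s L where
  rd : ∀ z, OT Λ z → ss.rd (c * z) = ρ g (h.rd z)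

/-- **GEO** (82): the lifts exist and depend continuously on `g` -/
def GEOx : Prop := ∀ A, Ok A → ∃ ρ : Hu →+* AddMonoid.End (Pt (0 : kk A)),
  ∀ (Λ : Submodule ℤ ℂ) (t : ℂ) (h : Ss A Λ t), A.valuation 2 < A.valuation t →
    ∃ (c s : Hu → ℂ) (L : Hu → Submodule ℤ ℂ),
      (∀ g, Odd (nm g) → Isx h ρ g (c g) (s g) (L g)) ∧
      ∀ i : ℕ, ∃ n : ℕ, ∀ g g' β : Hu, Odd (nm g) → Odd (nm g') → g - g' = 2 ^ n * β →
        A.valuation (s g - s g') ≤ A.valuation 2 ^ i ∧ A.valuation (c g - c g') ≤ A.valuation 2 ^ i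

section

variable {ι : Type}

/-- smooth eigenfunctions on which the scalars act by `k3 d / d` -/
structure Eigx (M : ℕ) (R : ι → Finset Hu) (a : ι → O) {V : Type} [AddCommGroup V] [Module O V]
    (ψ : Hu → V) : Prop where
  tor : ∃ i, ∀ x, 2 ^ i • ψ x = 0
  per : ∃ n, ∀ x y, Cp M x → ψ (x + (2 ^ n * M : ℕ) • y) = ψ x
  un : ∀ u x, nm u = 1 → Cp M x → ψ (u * x) = ψ x
  sc : ∀ (d : ℤ) x, IsCoprime d (2 * M) → Cp M x → d • ψ (d • x) = k3 d • ψ x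
  eg : ∀ l x, Cp M x → ∑ α ∈ R l, ψ (α * x) = a l • ψ x

/-- smooth eigenfunctions of unbounded order -/
def EIGx (M : ℕ) (R : ι → Finset Hu) (a : ι → O) : Prop :=
  ∀ j : ℕ, ∃ (V : Type) (_ : AddCommGroup V) (_ : Module O V) (ψ : Hu → V), Eigx M R a ψ ∧
    ∃ x, Cp M x ∧ 2 ^ j • ψ x ≠ 0

/-- on each class modulo `4 M`, a homogeneous polynomial of odd degree over a power of the norm -/
def Pqx (K : Type) [Field K] (M m : ℕ) (Φ : Hu → K) : Prop :=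
  ∃ P : Hu → MvPolynomial (Fin 4) K, (∀ x, (P x).IsHomogeneous (2 * m + 1)) ∧
    (∀ x y, P (x + (4 * M : ℕ) • y) = P x) ∧
    (∀ (d : ℤ) x, IsCoprime d (2 * M) → P (d • x) = MvPolynomial.C (k3 d : K) * P x) ∧
    ∀ x, Φ x = MvPolynomial.eval (fun i => (co x i : K)) (P x) / (nm x : K) ^ (m + 1)

/-- the word `P` kills the algebraic functions of degree `m` -/
def Kilx (K : Type) [Field K] (M : ℕ) (R : ι → Finset Hu) (m : ℕ) (P : FreeAlgebra ℤ ι) : Prop :=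
  ∀ Φ, Pqx K M m Φ → ∀ x, Cp M x → wT K R P (TL K (On 1) Φ) x = 0

end

/-- smooth eigenfunctions for any family of good primes -/
def EGx (M : ℕ) (a : ℕ → O) : Prop := ∀ (ι : Type) (p : ι → ℕ),
  (∀ i, (p i).Prime ∧ ¬ p i ∣ 2 * M) → EIGx M (fun i => Rp (p i)) fun i => a (p i)

/-- **HK** (52): the eigenfunctions -/
def HKx : Prop := ∀ (N : ℕ) [NeZero N] (a : ℕ → O), Odd N → 3 ∣ N → A6x N a → EGx (N ^ 3) a

/-- **RT** (3): the rate step -/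
def RTx : Prop := ∀ (ι : Type) (M : ℕ) (R : ι → Finset Hu) (a : ι → O), M ≠ 0 → 3 ∣ M →
  (∀ l, ∀ α ∈ R l, Cp M α) → EIGx M R a →
  ∃ C : ℕ, ∀ (j : ℕ) P, Kilx ℚ_[2] M R (C * (j + 1)) P → 2 ^ j ∣ FreeAlgebra.lift ℤ a P

/-- **KIL** (18): theta series -/
def KILx : Prop := ∀ (M : ℕ) [NeZero M] [NeZero (256 * M ^ 2)], 3 ∣ M →
  ∀ (m : ℕ) (P : FreeAlgebra ℤ (PA (256 * M ^ 2))),
    (∀ i ≤ m + 1, ∀ f, Tx f → wx (256 * M ^ 2) i P f = 0) →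
    Kilx ℚ_[2] M (fun l : PA (256 * M ^ 2) => Rp l.1) m P

/-- **UCB** (55): a limit with linear rate is classical -/
def UCBx : Prop := ∀ (N : ℕ) [NeZero N] (c : ℕ → O), 2 ∣ N → 3 ∣ N → Ewx N c →
  (∃ A : ℕ, ∀ n, ‖J (c n)‖ ≤ ((n : ℝ) + 2) ^ A) → UCX N c →
  ∃ (M : ℕ) (F : ℍ → ℂ), M ≠ 0 ∧ 3 ∣ M ∧ (∀ l : ℕ, l.Prime → l ∣ M → l ∣ N) ∧
    Sm (fun n => J (c n)) F ∧ Mx M 1 F

/-- **W0** (13, the assembly): the form of weight one -/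
def W0x : Prop := ∀ (E : Type) [NontriviallyNormedField E] [NormedAlgebra ℚ_[2] E] (ι : O →+* E)
  (r : (AlgebraicClosure ℚ ≃ₐ[ℚ] AlgebraicClosure ℚ) →* GL (Fin 2) E), St.Q1Concl r →
  ∀ (o : ℕ) (a : ℕ → O), Odd o → 3 ∣ o →
    (∀ l : ℕ, l.Prime → ¬ l ∣ 2 * o → St.UnrAt r l ∧ ‖J (a l)‖ ≤ 2 ∧ ∃ g, St.IsFrob l g ∧
      (r g : Matrix (Fin 2) (Fin 2) E).trace = ι (a l) ∧
      (r g : Matrix (Fin 2) (Fin 2) E).det = (k3 l : E)) →
    ∃ (c : ℕ → O) (M : ℕ) (F : ℍ → ℂ), Ewx o c ∧ (∀ l : PA o, c l.1 = a l.1) ∧ M ≠ 0 ∧ 3 ∣ M ∧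
      (∀ l : ℕ, l.Prime → l ∣ M → l ∣ 2 * o) ∧ Sm (fun n => J (c n)) F ∧ Mx M 1 F

end Vale.Agent.P014Y.W1
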