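import Vale.Agent.P014Y.W1.Rt0
import Vale.Agent.P014Y.W1.St
import Vale.Agent.P004M.D.Rt

/-!
# P014Y, block W1: the linear rate for eigenfunctions with an odd central character
-/

set_option autoImplicit false
set_option linter.all false

noncomputable section

open scoped Quaternion Classical

namespace Vale.Agent.P014Y.W1

open Vale.Agent.P004M Vale.Agent.P004M.D Hu MvPolynomial J0 Ar D.Rt

namespace Ry

variable {M : ℕ} {ι : Type} {χ : ℤ → ℤ}

variable (M χ) in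
/-- smooth functions on the elements of norm prime to `2 M` with a central character -/
def Mo : Submodule ℤ (Hu → QZ 2) := AddSubgroup.toIntSubmodule
  { carrier := {ψ | (∀ x, ¬ Cp M x → ψ x = 0) ∧
      (∀ (d : ℤ) x, IsCoprime d (2 * M) → (χ d * d) • ψ (d • x) = ψ x) ∧
      ∃ n, ∀ x, 2 ^ n • ψ x = 0 ∧ ∀ y, ψ (x + (4 * M * 2 ^ n) • y) = ψ x}
    zero_mem' := ⟨fun _ _ => rfl, fun _ _ _ => zsmul_zero _, 0, fun _ =>
      ⟨nsmul_zero _, fun _ => rfl⟩⟩
    add_mem' := fun ⟨h1, h2, n, h3⟩ ⟨k1, k2, m, k3⟩ => ⟨fun x h => by simp [h1 x h, k1 x h],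
      fun d x h => by rw [Pi.add_apply, zsmul_add, h2 d x h, k2 d x h]; rfl, n + m, fun x => by
        have h4 := per_mono m h3 x
        have k4 := per_mono n k3 x
        rw [add_comm m] at k4
        exact ⟨by rw [Pi.add_apply, nsmul_add, h4.1, k4.1, add_zero], fun y => by
          rw [Pi.add_apply, h4.2, k4.2]; rfl⟩⟩
    neg_mem' := fun ⟨h1, h2, n, h3⟩ => ⟨fun x h => by simp [h1 x h],
      fun d x h => (zsmul_neg _ _).trans (congrArg Neg.neg (h2 d x h)), n, fun x => ⟨by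
        rw [Pi.neg_apply, neg_nsmul, (h3 x).1, neg_zero], fun y => congrArg Neg.neg ((h3 x).2 y)⟩⟩ }

/-- a denominator -/
def de (γ : Cg (OL M) (4 * M)) : ℤ := γ.1.1.2.choose

theorem nd (γ : Cg (OL M) (4 * M)) : Nu M γ.1.1 (de γ) (nu γ) := γ.1.1.2.choose_spec.choose_spec

theorem act (ψ : Mo M χ) {z : ℍ[ℚ]} {d d' : ℤ} {x x' : Hu} (h : Nu M z d x) (h' : Nu M z d' x')
    (y : Hu) : (χ d * d) • ψ.1 (y * x) = (χ d' * d') • ψ.1 (y * x') := by
  rw [← ψ.2.2.1 d' (y * x) h'.1, ← ψ.2.2.1 d (y * x') h.1, ← mul_smul_comm, h.uniq h',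
    mul_smul_comm, smul_comm]

theorem one (q : Qc M χ) : χ 1 = 1 := by
  have := q.sq 1 isCoprime_one_left
  rwa [← q.mul, mul_one] at this

theorem mo_rt (c : ℤ) (z : Hu) {ψ : Hu → QZ 2} (h : ψ ∈ Mo M χ) :
    (fun y => c • ψ (y * z)) ∈ Mo M χ := by
  obtain ⟨h1, h2, n, h3⟩ := h
  refine ⟨fun x h => ?_, fun d x h => ?_, n, fun x => ⟨?_, fun y => ?_⟩⟩ <;> beta_reduce
  · rw [h1 _ fun k => h (cp_mul.1 k).1, zsmul_zero]
  · rw [smul_comm, smul_mul_assoc, h2 d _ h]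
  · rw [smul_comm, (h3 _).1, zsmul_zero]
  · rw [add_mul, smul_mul_assoc, (h3 _).2]

/-- right translations -/
def rho (q : Qc M χ) : Representation ℤ (Cg (OL M) (4 * M)) (Mo M χ) where
  toFun γ :=
    { toFun := fun ψ => ⟨_, mo_rt (χ (de γ) * de γ) (nu γ) ψ.2⟩
      map_add' := fun _ _ => Subtype.ext (_root_.funext fun _ => zsmul_add _ _ _)
      map_smul' := fun c _ => Subtype.ext (_root_.funext fun _ => smul_comm _ c _) }
  map_one' := LinearMap.ext fun ψ => Subtype.ext (_root_.funext fun y =>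
    (act ψ (nd 1) (d' := 1) (x' := 1) (by simpa using nu_q 1) y).trans (by
      rw [one q, mul_one, one_smul, mul_one]; rfl))
  map_mul' γ δ := LinearMap.ext fun ψ => Subtype.ext (_root_.funext fun y =>
    (act ψ (nd (γ * δ)) ((nd γ).mul (nd δ)) y).trans (by
      rw [q.mul, mul_mul_mul_comm, mul_smul, ← mul_assoc]; rfl))

variable (q : Qc M χ)

theorem rho_eq {γ : Cg (OL M) (4 * M)} {d : ℤ} {x : Hu} (h : Nu M γ.1.1 d x) (ψ : Mo M χ)
    (y : Hu) : (rho q γ ψ).1 y = (χ d * d) • ψ.1 (y * x) := act ψ (nd γ) h y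

theorem ad (hM : M ≠ 0) : Ad (rho q) 2 (NC (OL M) 2 (4 * M)) where
  sm ψ := by
    obtain ⟨n, h⟩ := ψ.2.2.2
    refine ⟨n, fun γ ⟨z, e⟩ => Subtype.ext (_root_.funext fun y => ?_)⟩
    obtain ⟨d, x, k⟩ := z.2
    have k1 := k.one_add (4 * M * 2 ^ n)
    rw [← show (γ.1.1 : ℍ[ℚ]) = 1 + (4 * M * 2 ^ n) • z.1 from congrArg Subtype.val e] at k1
    rw [rho_eq q k1, mul_add, mul_smul_comm, (h _).2,
      ← (Int.cast_commute d y).eq, ← zsmul_eq_mul, ψ.2.2.1 d y k.1]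
  tor ψ := ψ.2.2.2.imp fun n h => Subtype.ext (_root_.funext fun x => (h x).1)
  fin := by
    have k : ∀ ψ : Mo M χ, (∀ γ, rho q γ ψ = ψ) → ∀ x y, ψ.1 (x + (4 * M) • y) = ψ.1 x :=
      fun ψ h x y => by
        by_cases hx : Cp M x
        · have k := nu_fr hx (cj x * y)
          have k1 := rho_eq q (γ := gC un ⟨_, _, _, k⟩) (k.one_add _) ψ x
          rw [h, mul_add, mul_smul_comm, ← mul_assoc,
            mul_cj, ← (Int.cast_commute _ x).eq, ← mul_smul_comm, ← mul_add, ← zsmul_eq_mul,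
            ψ.2.2.1 _ _ hx] at k1
          exact k1.symm
        · rw [ψ.2.1 x hx, ψ.2.1 _ (mt (cp_per ⟨2, by ring⟩ y).1 hx)]
    refine Set.Finite.of_finite_image
      (f := fun (ψ : Mo M χ) (a : Fin 4 → Set.Ico (0 : ℤ) (4 * M : ℕ)) =>
      ψ.1 (∑ i, (a i).1 • eb i)) ((Set.Finite.pi' fun _ => tors_fin).subset ?_)
      fun ψ h ψ' h' e => Subtype.ext (_root_.funext fun x => ?_)
    · rintro _ ⟨ψ, h, rfl⟩ a
      exact congrFun (congrArg Subtype.val h.1) _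
    · have k0 : (0 : ℤ) < (4 * M : ℕ) := by omega
      have k1 := congrFun e fun i => ⟨_, Int.emod_nonneg (fc x i) k0.ne', Int.emod_lt_of_pos _ k0⟩
      rw [show x = ∑ i, (fc x i % (4 * M : ℕ)) • eb i + (4 * M) • ∑ i, (fc x i / (4 * M : ℕ)) • eb i by
        rw [Finset.smul_sum, ← Finset.sum_add_distrib]
        refine (fc_sum x).trans (Finset.sum_congr rfl fun i _ => ?_)
        rw [← natCast_zsmul, smul_smul, ← add_smul, Int.emod_add_mul_ediv], k _ h.2, k _ h'.2]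
      exact k1

theorem canc {d : ℤ} (h : ¬ 2 ∣ d) {a b : QZ 2} (e : d • a = d • b) : a = b := by
  rw [← sub_eq_zero, ← zsmul_sub] at e
  rw [← sub_eq_zero]
  obtain ⟨r, hr⟩ := QuotientAddGroup.mk_surjective (a - b)
  rw [← hr] at e ⊢
  have k : ‖d • r‖ ≤ 1 := (QuotientAddGroup.eq_zero_iff _).1 e
  rw [zsmul_eq_mul, norm_mul, (Padic.norm_int_le_one d).antisymm
    (not_lt.1 (mt Padic.norm_intCast_lt_one_iff.1 h)), one_mul] at k
  exact (QuotientAddGroup.eq_zero_iff _).2 k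

variable (χ) in
/-- the sign -/
def sg (x y : Hu) : ℤ := χ (fc (cj x * y) 0 * nm y)

theorem loc (hM : M ≠ 0) {d : ℕ} {v : Mo M χ} (hv : v ∈ Sd (rho q) 2 d) (x : Hu) :
    ∃ P : MvPolynomial (Fin 4) ℚ_[2], P.IsHomogeneous (2 * d + 1) ∧ ∀ y, Rl M x y → v.1 y =
      (sg χ x y * eval (fun i => (co y i : ℚ_[2])) P / (nm y : ℚ_[2]) ^ (d + 1) : ℚ_[2]) := by
  choose L h1 h2 using fun i => lin ℚ_[2]
    (((Pi.evalAddMonoidHom _ i).comp fc).comp (AddMonoidHom.mulLeft (cj x)))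
  let H := Hq (fun (y : {y // nm y ≠ 0}) i => (co y i : ℚ_[2])) (fun y => nm y) 1
  have k1 : 1 ∈ H := ⟨C (1 / 4) * ∑ i, X i ^ 2, (IsHomogeneous.sum _ _ _ fun i _ =>
    (isHomogeneous_X _ i).pow 2).C_mul _, fun y => by
      have := congrArg (Int.cast : ℤ → ℚ_[2]) (nm_co y)
      have k : (nm y.1 : ℚ_[2]) ≠ 0 := Int.cast_ne_zero.2 y.2
      simp at this
      simp [← this, k]⟩
  obtain ⟨s, h3, h4⟩ := poly (cv_C (uo hM) Nat.prime_two ⟨2 * M, by ring⟩ un (ad q hM).sm) (eO M)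
    (fun i => ((4 * M : ℕ) : ℚ_[2])⁻¹ • ((nm x : ℚ_[2])⁻¹ • (fun y : {y // nm y ≠ 0} =>
      (fc (cj x * y) 0 * fc (cj x * y) i / nm y.1 ^ 1 : ℚ_[2])) - (fc 1 i : ℚ_[2]) • 1)) H k1
    (fun i => H.smul_mem _ (sub_mem (H.smul_mem _ ⟨L 0 * L i, (h1 0).mul (h1 i), fun y => by
      rw [map_mul, ← h2, ← h2]; rfl⟩) (H.smul_mem _ k1))) hv
    ((Pi.evalAddMonoidHom _ x).comp (Mo M χ).subtype.toAddMonoidHom)
  obtain ⟨P, h5, h6⟩ := Hq_pow _ _ d h3
  refine ⟨P * L 0, h5.mul (h1 0), fun y ⟨hx, e, z, he, hz⟩ => ?_⟩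
  obtain ⟨t, ht⟩ := nm_add e z (4 * M)
  have k2 : Cp M (cj x * y) := hz ▸ cp_add ⟨2, by ring⟩ z (cp_int he)
  have k3 : fc (cj x * y) 0 = e + 2 * M * (2 * z.a) := by
    rw [hz, map_add, map_nsmul]; simp [fc]; ring
  have k4 : (nm (cj x * y) : Hu) + (4 * M) • (e • z + z.a • (cj x * y) - t) =
      fc (cj x * y) 0 • (cj x * y) := by
    rw [k3, hz, ht, nm_int, ← zsmul_one, ← zsmul_one e, ← zsmul_one t]
    module
  have k5 := nu_fr k2 (e • z + z.a • (cj x * y) - t)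
  have hy := (cp_mul.1 k2).2
  have k8 : (nm y : ℚ_[2]) ≠ 0 := Int.cast_ne_zero.2 (ne0 hy)
  have k6 := h4 ⟨y, ne0 hy⟩ (gC un ⟨_, _, _, k5⟩) _ rfl (by
    convert dig (z := ⟨_, _, _, k5⟩) k5 using 2 with i
    have k7 := congrArg fc k4
    have k9 : (nm x : ℚ_[2]) ≠ 0 := Int.cast_ne_zero.2 (ne0 hx)
    have k0 : (M : ℚ_[2]) ≠ 0 := Nat.cast_ne_zero.2 hM
    rw [← zsmul_one, map_add, map_zsmul, map_nsmul, map_zsmul] at k7
    replace k7 := congrArg (Int.cast : ℤ → ℚ_[2]) (congrFun k7 i)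
    generalize fc (e • z + z.a • (cj x * y) - t) = w at k7 ⊢
    simp [nm_cj] at k7 ⊢
    field_simp
    linear_combination -k7)
  have e1 : (rho q _ v).1 x = _ := k6
  rw [h6 ⟨y, ne0 hy⟩, rho_eq q (k5.one_add _), k4, mul_smul_comm, ← mul_assoc, mul_cj,
    ← zsmul_eq_mul, map_mul, nm_cj, q.mul, mul_mul_mul_comm] at e1
  have e2 := congrArg (((χ (fc (cj x * y) 0) * fc (cj x * y) 0)) • ·) e1
  simp only at e2
  rw [smul_comm, v.2.2.1 _ _ (k3 ▸ he.add_mul_left_left _), mul_comm, mul_smul,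
    v.2.2.1 _ _ hx] at e2
  have e3 := q.sq _ hy
  refine canc (d := χ (nm y) * nm y) (fun k => (Int.prime_two.dvd_or_dvd k).elim (fun k => by
    have := e3 ▸ k.mul_right (χ (nm y))
    omega) (odd_of hy)) (e2.trans ?_)
  rw [← QuotientAddGroup.mk_zsmul, ← QuotientAddGroup.mk_zsmul, map_mul (eval _), ← h2, sg, q.mul]
  congr 1
  replace e3 := congrArg (Int.cast : ℤ → ℚ_[2]) e3
  simp only [zsmul_eq_mul, AddMonoidHom.comp_apply, Pi.evalAddMonoidHom_apply,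
    AddMonoidHom.coe_mulLeft] at e3 ⊢
  push_cast at e3 ⊢
  field_simp
  linear_combination (-(χ (fc (cj x * y) 0) * fc (cj x * y) 0 *
    eval (fun i => (co y i : ℚ_[2])) P * (nm y * nm y ^ d))) * e3

theorem rl_per (y w : Hu) : (Rl M · (y + (4 * M) • w)) = (Rl M · y) :=
  _root_.funext fun x => propext (and_congr_right' ⟨fun ⟨e, z, he, k⟩ => ⟨e, z - cj x * w, he, by
    rw [smul_sub, ← add_sub_assoc, ← k, mul_add, mul_smul_comm, add_sub_cancel_right]⟩,
    fun ⟨e, z, he, k⟩ =>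
      ⟨e, z + cj x * w, he, by rw [smul_add, ← add_assoc, ← k, mul_add, mul_smul_comm]⟩⟩)

theorem rl_sc {n : ℤ} (h : IsCoprime n (2 * M)) (y : Hu) : (Rl M · (n • y)) = (Rl M · y) :=
  _root_.funext fun x => propext (and_congr_right' ⟨fun ⟨e, z, he, k⟩ => by
    obtain ⟨a, b, s⟩ := h.mul_right h.of_mul_right_left
    refine ⟨a * e, a • z + b • (cj x * y), IsCoprime.mul_left ⟨n, b * 2, by
      linear_combination s⟩ he, ?_⟩
    rw [mul_smul_comm, ← zsmul_one e] at k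
    rw [← zsmul_one]
    linear_combination (norm := module) a • k - s • (cj x * y), fun ⟨e, z, he, k⟩ =>
    ⟨n * e, n • z, h.mul_left he, by rw [mul_smul_comm, k, ← zsmul_one, ← zsmul_one]; module⟩⟩)

theorem pq (hM : M ≠ 0) {d : ℕ} {v : Mo M χ} (hv : v ∈ Sd (rho q) 2 d) :
    ∃ Φ, Pqy ℚ_[2] M χ d Φ ∧ ∀ x, Cp M x → QuotientAddGroup.mk' _ (Φ x) = v.1 x := by
  choose P h1 h2 using loc q hM hv
  refine ⟨_, ⟨fun y => C (sg χ (Classical.epsilon (Rl M · y)) y : ℚ_[2]) *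
    P (Classical.epsilon (Rl M · y)), fun _ => (h1 _).C_mul _, fun y w => ?_,
    fun n y h => ?_, fun _ => rfl⟩, fun y hy => ?_⟩
  · obtain ⟨t, ht⟩ := nm_add y w (4 * M)
    beta_reduce
    rw [rl_per]
    generalize Classical.epsilon (Rl M · y) = x
    rw [sg, sg, ← q.per (fc (cj x * y) 0 * nm y)
      (4 * (fc (cj x * y) 0 * t + fc (cj x * w) 0 * (nm y + 4 * M * t))), ht, mul_add (cj x),
      mul_smul_comm, map_add fc, map_nsmul]
    congr 4
    simp
    ring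
  · beta_reduce
    rw [rl_sc h, ← mul_assoc, ← map_mul, ← Int.cast_mul]
    generalize Classical.epsilon (Rl M · y) = x
    rw [sg, sg, mul_smul_comm, map_zsmul, zsmul_eq_mul y n, map_mul nm, nm_int, ← one_mul (χ n),
      ← q.sq n h, ← q.mul, ← q.mul, ← q.mul]
    congr 4
    simp
    ring
  · rw [map_mul, eval_C]
    exact (h2 _ y (Classical.epsilon_spec (p := (Rl M · y))
      ⟨y, hy, _, 0, hy, by simp [cj_mul]⟩)).symm

theorem wT_rt {V : Type} [AddCommGroup V] (R : ι → Finset Hu) (z : Hu) (P : FreeAlgebra ℤ ι) :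
    ∀ (Φ : Hu → V) x, wT V R P (fun y => Φ (y * z)) x = wT V R P Φ (x * z) := by
  induction P using FreeAlgebra.induction with
  | grade0 r => intro Φ x; simp [Module.algebraMap_end_apply, -zsmul_eq_mul]
  | grade1 l => intro Φ x; simp only [wT, FreeAlgebra.lift_ι_apply, TL_apply, mul_assoc]
  | mul a b ha hb =>
    intro Φ x
    rw [map_mul, Module.End.mul_apply, Module.End.mul_apply, funext (hb Φ), ha]
  | add a b ha hb => intro Φ x; simp [ha, hb]

variable {O : Type} [CommRing O] {R : ι → Finset Hu} {a : ι → O}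

theorem wT_eg {V : Type} [AddCommGroup V] [Module O V] {ψ : Hu → V} (hR : ∀ l, ∀ α ∈ R l, Cp M α)
    (h : ∀ l x, Cp M x → ∑ α ∈ R l, ψ (α * x) = a l • ψ x) (P : FreeAlgebra ℤ ι) :
    ∀ x, Cp M x → wT V R P ψ x = FreeAlgebra.lift ℤ a P • ψ x := by
  induction P using FreeAlgebra.induction with
  | grade0 r => intro x _; simp [Module.algebraMap_end_apply, -zsmul_eq_mul, Int.cast_smul_eq_zsmul]
  | grade1 l => intro x k; simp only [wT, FreeAlgebra.lift_ι_apply, TL_apply, h l x k]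
  | mul b c hb hc =>
    intro x k
    rw [map_mul, map_mul, Module.End.mul_apply, mul_comm, mul_smul, ← hb x k]
    exact (wT_map hR (DistribSMul.toAddMonoidHom V (FreeAlgebra.lift ℤ a c)) b ψ _
      (fun x k => (hc x k).symm) x k).symm
  | add b c hb hc => intro x k; simp [hb x k, hc x k, add_smul]

variable (M χ R a) in
/-- the functions which all relations kill -/
def Ei : Submodule ℤ (Mo M χ) where
  carrier := {ψ | (∀ u x, nm u = 1 → ψ.1 (u * x) = ψ.1 x) ∧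
    ∀ P, FreeAlgebra.lift ℤ a P = 0 → ∀ x, Cp M x → wT (QZ 2) R P ψ.1 x = 0}
  zero_mem' := ⟨fun _ _ _ => rfl, by simp⟩
  add_mem' h k := ⟨fun u x e => congrArg₂ (· + ·) (h.1 u x e) (k.1 u x e), fun P e x c => by
    rw [Submodule.coe_add, map_add, Pi.add_apply, h.2 P e x c, k.2 P e x c, add_zero]⟩
  smul_mem' c _ h := ⟨fun u x e => congrArg (c • ·) (h.1 u x e), fun P e x k => by
    rw [Submodule.coe_smul, map_smul, Pi.smul_apply, h.2 P e x k, smul_zero]⟩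

end Ry

open Ry

/-- **the linear rate** -/
theorem rty : RTY := by
  intro ι O _ M χ R a hO hM q hR h
  obtain ⟨c, hc⟩ := rate (uo hM) Nat.prime_two (Ry.ad q hM) (Z := ⊥) (A := Ry.Ei M χ R a)
    (Sd_gs (p := 2) 0) (fun γ v hv =>
      ⟨fun u x e => congrArg ((χ (de γ) * de γ) • ·)
        ((congrArg v.1 (mul_assoc _ _ _)).trans (hv.1 u _ e)),
        fun P e x k => by
          refine (congrFun (map_smul (wT (QZ 2) R P) (χ (de γ) * de γ)
            fun y => v.1 (y * nu γ)) x).trans ?_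
          rw [Pi.smul_apply, wT_rt, hv.2 P e _ (k.mul (cp_of (nd γ))), smul_zero]⟩) bot_le
    fun j => by
    obtain ⟨V, _, _, ψ, ⟨⟨i, h1⟩, ⟨n, h2⟩, h3, h4, h5⟩, x, hx, h6⟩ := h j
    obtain ⟨φ, h7⟩ := chr (i := i) (by rw [smul_comm, h1, nsmul_zero]) h6
    refine ⟨⟨fun x => if Cp M x then φ (ψ x) else 0, fun x k => if_neg k, fun d x k => ?_, n + i,
      fun x => ⟨?_, fun y => ?_⟩⟩, ⟨fun u x k => ?_, fun P e x k => ?_⟩, fun k => h7 ?_⟩
    · have e : Cp M (d • x) ↔ Cp M x := by rw [zsmul_eq_mul, cp_mul, and_iff_right (cp_int k)]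
      beta_reduce
      by_cases c : Cp M x
      · rw [if_pos c, if_pos (e.2 c), ← map_zsmul, mul_smul, h4 d x k c, smul_smul, q.sq d k,
          one_smul]
      · rw [if_neg c, if_neg (mt e.1 c), smul_zero]
    · beta_reduce
      split_ifs
      · rw [← map_nsmul, pow_add, mul_nsmul', h1, nsmul_zero, map_zero]
      · exact nsmul_zero _
    · refine if_ctx_congr (cp_per ⟨2 * 2 ^ (n + i), by ring⟩ y) (fun e => ?_) fun _ => rfl
      rw [show 4 * M * 2 ^ (n + i) = 2 ^ n * M * (4 * 2 ^ i) by ring, mul_nsmul', h2 x _ e]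
    · exact if_ctx_congr (by rw [cp_mul, and_iff_right (cp_un k)])
        (fun e => by rw [h3 u x k e]) fun _ => rfl
    · rw [← wT_map hR φ P ψ _ (fun x k => (if_pos k).symm) x k, wT_eg hR h5 P x k, e, zero_smul,
        map_zero]
    · simpa [hx] using congrFun (congrArg Subtype.val k) x
  obtain ⟨s, o, ho, hs⟩ := Nat.exists_eq_pow_mul_and_not_dvd
    (Finset.card_ne_zero.2 ⟨1, mem_On.2 (map_one nm)⟩) 2 (by decide)
  refine ⟨c * (s + 2) + 1, fun j P hP => by_contra fun k => ?_⟩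
  obtain ⟨t, m, e, k⟩ := hO _ j k
  refine absurd (hc (2 * j + s) ((c * (s + 2) + 1) * (j + 1)) fun v hv hd => ?_)
    (by nlinarith [Nat.zero_le (c * s * j)])
  obtain ⟨Φ, h1, h2⟩ := Ry.pq q hM hd
  refine Subtype.ext (funext fun x => ?_)
  by_cases hx : Cp M x
  swap
  · simp [v.2.1 x hx]
  have k2 := fun x hx => ((wT_map hR (QuotientAddGroup.mk' _) P (TL ℚ_[2] (On 1) Φ)
    ((On 1).card • v.1) (fun x hx => by
      rw [TL_apply, map_sum, Pi.smul_apply, ← Finset.sum_const]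
      refine Finset.sum_congr rfl fun u hu => ?_
      rw [h2 _ ((cp_un (mem_On.1 hu)).mul hx),
        hv.1 u x (mem_On.1 hu)]) x hx).symm.trans (by rw [hP Φ h1 x hx, map_zero])).symm
  have k3 := wT_map hR (AddMonoidHom.id _) (t - P) 0 _ k2 x hx
  have k4 := hv.2 ((t - P) * P - m) (by
    rw [map_sub, map_mul, map_sub, map_intCast, map_intCast, e, sub_self]) x hx
  rw [map_sub, map_intCast, LinearMap.sub_apply, Pi.sub_apply, sub_eq_zero,
    Module.End.intCast_apply, Pi.smul_apply] at k4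
  rw [map_zero, Pi.zero_apply, map_zero, ← Module.End.mul_apply, ← map_mul, map_nsmul,
    Pi.smul_apply, k4, ← natCast_zsmul, smul_smul, eq_comm, ← addOrderOf_dvd_iff_zsmul_eq_zero,
    hs] at k3
  obtain ⟨n, hn⟩ := v.2.2.2
  obtain ⟨r, -, hr⟩ := (Nat.dvd_prime_pow Nat.prime_two).1
    (addOrderOf_dvd_of_nsmul_eq_zero (hn x).1)
  refine addOrderOf_dvd_iff_nsmul_eq_zero.1 (hr ▸ pow_dvd_pow 2 (not_lt.1 fun e => k ?_))
  have k5 := (pow_dvd_pow (2 : ℤ) (show s + 2 * j ≤ r by omega)).trans (by simpa [hr] using k3)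
  rw [pow_add, mul_assoc, mul_dvd_mul_iff_left (by positivity)] at k5
  exact Int.prime_two.pow_dvd_of_dvd_mul_left _ (mt Int.natCast_dvd_natCast.1 ho) k5

theorem qc {M : ℕ} (h : 3 ∣ M) : Qc M k3 :=
  have h' : (3 : ℤ) ∣ M := Int.natCast_dvd_natCast.2 h
  ⟨k3_mul, fun a b => k3_congr (by simpa using h'.mul_right b), fun d c => k3_sq fun k => by
    simpa [Int.isUnit_iff] using c.isUnit_of_dvd' k (h'.mul_left 2)⟩

/-- **the rate step** -/
theorem rtx : RTx := fun ι M R a hM h3 hR h => rty ι O M k3 R a nq hM (qc h3) hR fun j =>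
  let ⟨V, i, i', ψ, e, k⟩ := h j
  ⟨V, i, i', ψ, ⟨e.tor, e.per, e.un, e.sc, e.eg⟩, k⟩

end Vale.Agent.P014Y.W1
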