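import Vale.Agent.P014Y.W1.W0
import Vale.Agent.P014Y.W1.Q6
import Vale.Agent.P014Y.W1.Iv
import Vale.Agent.P014Y.W1.Dz
import Vale.Agent.P014Y.W1.Du
import Vale.Agent.P014Y.W1.Fun
import Vale.Agent.P014Y.W1.Rt
import Vale.Agent.P014Y.W1.Exp

/-!
# P014Y, block W1: the assembly
-/

namespace Vale.Agent.P014Y.W1

theorem w0 : W0x := w0_of q6x (hkx (d0_of dux sex) intx nzx lipx' geox) rtx kilx ucbx

theorem w1q (q : Q1E) : W1X := w1_of q w0

end Vale.Agent.P014Y.W1
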