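import Vale.Agent.P022K.UC.Am7

/-!
# P014Y, block W1: a form of weight one in the field of convergent Laurent series
-/

set_option autoImplicit false

open UpperHalfPlane ModularForm HahnSeries
open scoped MatrixGroups ModularForm Real LaurentSeries PowerSeries

noncomputable section

namespace Vale.Agent.P014Y.W1

open Vale.Agent.P022.H218.L3 Vale.Agent.P022K.UC Vale.Agent.P022K.UC.Am

theorem slash_pow (k : ℤ) (F : ℍ → ℂ) (γ : SL(2, ℤ)) (n : ℕ) :
    (F ^ n) ∣[(n : ℤ) * k] γ = (F ∣[k] γ) ^ n := by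
  induction n with
  | zero => simp [is_invariant_one]
  | succ n ih =>
    rw [pow_succ, pow_succ, ← ih, ← mul_slash_SL2]
    congr 1
    push_cast
    ring

/-- a holomorphic root of a function with a finite orbit has a finite orbit -/
theorem wt_root {k : ℤ} {F : ℍ → ℂ} {n : ℕ} (hn : n ≠ 0) (hF : F ∈ Hol)
    (h : Wt (n * k) (F ^ n)) : Wt k F := by
  classical
  obtain ⟨Γ, _, h⟩ := h
  let : MulAction SL(2, ℤ) (ℍ → ℂ) :=
    { smul := fun γ G => G ∣[k] γ⁻¹
      one_smul := fun G => by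
        change G ∣[k] (1 : SL(2, ℤ))⁻¹ = G
        rw [inv_one, SlashAction.slash_one]
      mul_smul := fun a b G => by
        change G ∣[k] (a * b)⁻¹ = (G ∣[k] b⁻¹) ∣[k] a⁻¹
        rw [mul_inv_rev, SlashAction.slash_mul] }
  have h1 : (MulAction.orbit Γ F).Finite := by
    refine (((Polynomial.nthRoots n ((⟨F, hF⟩ : Hol) ^ n)).toFinset.finite_toSet).image
      Subtype.val).subset ?_
    rintro _ ⟨γ, rfl⟩
    refine ⟨⟨F ∣[k] γ.1⁻¹, slash_mem hF k _⟩, Finset.mem_coe.2 (Multiset.mem_toFinset.2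
      ((Polynomial.mem_nthRoots (Nat.pos_of_ne_zero hn)).2 (Subtype.ext ?_))), rfl⟩
    change (F ∣[k] γ.1⁻¹) ^ n = F ^ n
    rw [← slash_pow, h _ (Γ.inv_mem γ.2)]
  have h2 : (MulAction.stabilizer Γ F).index ≠ 0 := by
    rw [MulAction.index_stabilizer]
    exact Set.ncard_ne_zero_of_mem (MulAction.mem_orbit_self F) h1
  refine ⟨(MulAction.stabilizer Γ F).map Γ.subtype, ⟨?_⟩, ?_⟩
  · rw [Subgroup.index_map_subtype]
    exact mul_ne_zero h2 Subgroup.FiniteIndex.index_ne_zero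
  · rintro _ ⟨γ, hγ, rfl⟩
    have h3 : F ∣[k] (γ⁻¹).1⁻¹ = F := (MulAction.stabilizer Γ F).inv_mem hγ
    simpa using h3

/-- `η (12 τ) ^ 2` as a function of `q` -/
def et (q : ℂ) : ℂ := q * (∏' n, (1 - (q ^ 12) ^ (n + 1))) ^ 2

theorem et_diff : DifferentiableOn ℂ et (Metric.ball 0 1) := by
  refine differentiableOn_id.mul (DifferentiableOn.pow ?_ 2)
  refine differentiableOn_tprod_one_sub_pow.comp (f := fun q : ℂ => q ^ 12) (by fun_prop)
    fun q hq => ?_
  rw [mem_ball_zero_iff] at hq ⊢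
  rw [norm_pow]
  exact pow_lt_one₀ (norm_nonneg _) hq (by norm_num)

theorem et_sp : Sp (PowerSeries.mk fun n => ((n.factorial : ℂ))⁻¹ * iteratedDeriv n et 0)
    fun τ => et (Rm.qq τ) := sp_mk.2 fun τ => by
  refine Rm.hs_congr (Complex.hasSum_taylorSeries_on_ball et_diff
    (mem_ball_zero_iff.2 (Rm.norm_qq τ))) fun n => ?_
  change _ • Rm.qq τ ^ n = _
  simp only [smul_eq_mul, sub_zero]
  ring

theorem et_pow (τ : ℍ) : et (Rm.qq τ) ^ 12 = discriminant (gr (0, 12) • τ) := by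
  have e : Function.Periodic.qParam 1 ((gr (0, 12) • τ : ℍ) : ℂ) = Rm.qq τ ^ 12 := by
    rw [Rm.qq, Function.Periodic.qParam, Function.Periodic.qParam, coe_gr, ← Complex.exp_nat_mul]
    congr 1
    simp
    ring
  have h1 : ‖Rm.qq τ ^ 12‖ < 1 := by
    rw [norm_pow]
    exact pow_lt_one₀ (norm_nonneg _) (Rm.norm_qq τ) (by norm_num)
  rw [discriminant_eq_q_prod, et, mul_pow, ← pow_mul]
  simp only [eta_q, e]
  rw [(multipliable_one_sub_pow h1).tprod_pow]

/-- a form of weight one -/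
def c1 : Cv := ⟨_, _, et_sp⟩

theorem fn_c1 : fn c1 ^ 12 = fun τ => discriminant (gr (0, 12) • τ) := by
  rw [fn_eq (g := c1) et_sp]
  exact funext et_pow

theorem c1_ne : c1 ≠ 0 := fun e => by
  have h := congrFun fn_c1 UpperHalfPlane.I
  rw [e, fn_eq (g := 0) Sp.zero] at h
  exact discriminant_ne_zero _ (by simpa using h.symm)

theorem wt1 : Wt 1 (fn c1) := by
  refine wt_root (n := 12) (by norm_num) (fn_hol _) ?_
  rw [fn_c1]
  refine Wt.comp ⟨⊤, inferInstance, fun γ _ => ?_⟩ (0, 12)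
  exact CuspForm.discriminant.slash_action_eq' _ ⟨γ, rfl⟩

/-- a meromorphic form of weight one -/
def o1 : LL := al c1

theorem o1_ne : o1 ≠ 0 := al_ne c1_ne

theorem o1_mem (i : ℚ × ℕ+) : sL i o1 / o1 ∈ KK := by
  rw [o1, sL_al, kk_iff c1_ne wt1]
  exact wt_sC i wt1

theorem o1_sq : o1 ^ 2 / om ∈ KK := by
  have e : o1 ^ 2 / om = al (c1 ^ 2 * c4) / al c6 := by
    rw [o1, om, map_mul, map_pow, div_div_eq_mul_div]
  rw [e, kk_iff c6_ne wt6, fn_mul, fn_pow]
  exact (wt1.pow 2).mul wt4 rfl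

end Vale.Agent.P014Y.W1
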