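import Vale.Agent.P022K.UC.Alg3

/-!
# P014Y, block W1: an eigenform with character for a subgroup of finite index has a level in `S`
-/

set_option autoImplicit false
set_option linter.all false

open UpperHalfPlane ModularForm ModularGroup CongruenceSubgroup
open Function.Periodic (qParam)
open scoped MatrixGroups ModularForm Real Topology Manifold

noncomputable section

namespace Vale.Agent.P014Y.W1

open Vale.Agent.P022.H218.L3 Vale.Agent.P022K.UC Vale.Agent.P022K.UC.Ab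

/-- a normalised formal eigenform of weight `k` and character `χ` for all primes outside `S`,
depleted at the primes in `S`, of polynomial growth -/
structure Eix (S : Finset ℕ) (k : ℤ) {q : ℕ} (χ : DirichletCharacter ℂ q) (c : ℕ → ℂ) : Prop where
  two : 2 ∈ S
  ne : q ≠ 0
  md : ∀ l : ℕ, l.Prime → l ∣ q → l ∈ S
  one : c 1 = 1
  dep : ∀ p ∈ S, p.Prime → ∀ n, p ∣ n → c n = 0
  hecke : ∀ l n : ℕ, l.Prime → l ∉ S →
    c (l * n) + χ l * (l : ℂ) ^ (k - 1) * (if l ∣ n then c (n / l) else 0) = c l * c n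
  growth : ∃ A : ℕ, ∀ n, ‖c n‖ ≤ ((n : ℝ) + 2) ^ A

variable {S₀ : Finset ℕ} {k : ℤ} {q : ℕ} {χ : DirichletCharacter ℂ q} {c : ℕ → ℂ} {F : ℍ → ℂ}

theorem Eix.zero (h : Eix S₀ k χ c) : c 0 = 0 := h.dep 2 h.two Nat.prime_two 0 (dvd_zero 2)

theorem Eix.chi_ne (h : Eix S₀ k χ c) {l : ℕ} (hl : l.Prime) (h2 : l ∉ S₀) : χ l ≠ 0 :=
  (((ZMod.isUnit_iff_coprime l q).2 (hl.coprime_iff_not_dvd.2 fun e => h2 (h.md l hl e))).map
    χ).ne_zero

/-- twisting by a power of `θ⁻¹` -/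
theorem Eix.twist (h : Eix S₀ k χ c) (s : ℕ) :
    Eix S₀ (k - 2 * s) χ fun n => c n / (n : ℂ) ^ s where
  two := h.two
  ne := h.ne
  md := h.md
  one := by simp [h.one]
  dep p hp hp' n hn := by simp [h.dep p hp hp' n hn]
  hecke l n hl h2 := by
    have hl0 : (l : ℂ) ≠ 0 := by exact_mod_cast hl.ne_zero
    rcases Nat.eq_zero_or_pos n with rfl | hn
    · simp [h.zero]
    have hn0 : (n : ℂ) ≠ 0 := by exact_mod_cast hn.ne'
    have e : (l : ℂ) ^ (k - 2 * s - 1) = (l : ℂ) ^ (k - 1) / (l : ℂ) ^ (2 * s) := by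
      rw [← zpow_natCast, ← zpow_sub₀ hl0]
      congr 1
      push_cast
      ring
    have h1 := h.hecke l n hl h2
    rw [e, div_mul_div_comm, ← h1]
    split_ifs with hd
    · obtain ⟨m, rfl⟩ := hd
      have hm0 : (m : ℂ) ≠ 0 := by
        rintro hm
        apply hn0
        push_cast
        rw [hm, mul_zero]
      rw [Nat.mul_div_cancel_left m hl.pos]
      push_cast
      field_simp
      ring
    · push_cast
      rw [mul_pow]
      ring
  growth := by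
    obtain ⟨A, hA⟩ := h.growth
    refine ⟨A, fun n => le_trans ?_ (hA n)⟩
    rcases Nat.eq_zero_or_pos n with rfl | hn
    · simp [h.zero]
    rw [norm_div, norm_pow, Complex.norm_natCast]
    exact div_le_self (norm_nonneg _) (one_le_pow₀ (by exact_mod_cast hn))

namespace Amb

/-- the stabiliser with character -/
def stx (k : ℤ) (χ : DirichletCharacter ℂ q) (F : ℍ → ℂ) : Subgroup SL(2, ℤ) where
  carrier := {γ | (γ 1 0 : ZMod q) = 0 ∧ F ∣[k] γ = χ (γ 1 1) • F}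
  mul_mem' {a b} ha hb := by
    have h1 : (a * b) 1 0 = a 1 0 * b 0 0 + a 1 1 * b 1 0 := by
      simp [Matrix.mul_apply, Fin.sum_univ_two]
    have h2 : (a * b) 1 1 = a 1 0 * b 0 1 + a 1 1 * b 1 1 := by
      simp [Matrix.mul_apply, Fin.sum_univ_two]
    refine ⟨by rw [h1]; push_cast; rw [ha.1, hb.1]; ring, ?_⟩
    rw [SlashAction.slash_mul, ha.2, SL_smul_slash, hb.2, smul_smul, ← map_mul, h2]
    push_cast
    rw [ha.1, zero_mul, zero_add]
  one_mem' := ⟨by simp, by simp⟩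
  inv_mem' {a} ha := by
    have h1 : a⁻¹ 1 0 = -a 1 0 ∧ a⁻¹ 1 1 = a 0 0 := by
      rw [Matrix.SpecialLinearGroup.coe_inv]
      simp [Matrix.adjugate_fin_two]
    have h2 := congrArg (Int.cast : ℤ → ZMod q) (det_eq a)
    push_cast at h2
    rw [ha.1, mul_zero, sub_zero] at h2
    refine ⟨by rw [h1.1, Int.cast_neg, ha.1, neg_zero], ?_⟩
    have h3 : F = χ (a 1 1) • F ∣[k] a⁻¹ := by
      rw [← SL_smul_slash, ← ha.2, ← SlashAction.slash_mul, mul_inv_cancel, SlashAction.slash_one]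
    rw [h1.2]
    conv_rhs => rw [h3, smul_smul, ← map_mul, h2, map_one, one_smul]

theorem mem_stx {γ : SL(2, ℤ)} : γ ∈ stx k χ F ↔ (γ 1 0 : ZMod q) = 0 ∧
    ∀ τ : ℍ, F (γ • τ) = ((γ 1 0 : ℂ) * τ + γ 1 1) ^ k * (χ (γ 1 1) * F τ) := by
  refine and_congr_right fun _ => ⟨fun h τ => ?_, fun h => funext fun τ => ?_⟩
  · rw [slash_at F k, h]; rfl
  · have h1 := (slash_at F k γ τ).symm.trans (h τ)
    refine mul_left_cancel₀ (zpow_ne_zero k ?_) h1
    simpa only [ModularGroup.denom_apply] using denom_ne_zero γ τ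

theorem T_mem' (hF : Sm c F) : T ∈ stx k χ F :=
  ⟨by simp [T], by rw [show F ∣[k] T = F from T_mem hF]; simp [T]⟩

/-- **the Hecke relation** -/
theorem hecke_fun (hc : Eix S₀ k χ c)
    (hF : Sm c F) {l : ℕ} [hl : Fact l.Prime] (h2 : l ∉ S₀) (β : ZMod l → ℤ) (e : ZMod l ≃ ZMod l)
    (hβ : ∀ r, (β r : ZMod l) = e r) (τ : ℍ) :
    ∑ r, F (ofComplex ((τ + β r) / l)) =
      l * (c l * F τ - (χ l * (l : ℂ) ^ (k - 1)) * F (ofComplex (l * τ))) := by
  have h0 := hl.out.ne_zero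
  have hF' : Ex 1 c F := hF
  have h1 := Ex.sum fun r => hF'.sb one_ne_zero l (β r)
  have h3 := (((hF'.smul (c l)).sub ((hF'.up h0).smul ((χ l * (l : ℂ) ^ (k - 1))))).smul l).spread h0
  have h4 : (∑ r, fun n : ℕ => c n * ZMod.stdAddChar ((β r : ZMod l) * (n : ZMod l))) =
      spr l ((l : ℂ) • (c l • c - (χ l * (l : ℂ) ^ (k - 1)) • spr l c)) := by
    funext n
    simp only [Finset.sum_apply, hβ, ← Finset.mul_sum]
    rw [Equiv.sum_comp e fun r => ZMod.stdAddChar (r * (n : ZMod l)),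
      AddChar.sum_mulShift _ (ZMod.isPrimitive_stdAddChar l), ZMod.card, spr]
    simp only [ZMod.natCast_eq_zero_iff]
    split_ifs with h
    · obtain ⟨m, rfl⟩ := h
      have h5 := hc.hecke l m hl.out h2
      simp only [Nat.mul_div_cancel_left _ hl.out.pos, Pi.smul_apply, Pi.sub_apply, smul_eq_mul, spr]
      rw [← h5]
      ring
    · simp
  rw [h4] at h1
  simpa using congrFun (h1.eq h3) τ

/-- the Hecke relation at the cusp `0` -/
theorem rel_S (hc : Eix S₀ k χ c) (hF : Sm c F) {l : ℕ} [hl : Fact l.Prime] (h2 : l ∉ S₀) {M : ℕ}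
    (hM : (M : ZMod l) ≠ 0) (σ : ZMod l → SL(2, ℤ)) (ρ : ZMod l → ℤ)
    (hρ : ∀ r, (ρ r : ZMod l) = r) (h0 : ρ 0 = 0 ∧ σ 0 = S)
    (hσ : ∀ r ≠ 0, σ r 1 0 = l ∧ σ r 1 1 = -(M * ρ r)) :
    ∑ r, (fun τ : ℍ => ((if r = 0 then χ l else 1) • F ∣[k] σ r) (ofComplex ((τ + ((M : ℝ) * ρ r : ℝ)) / l))) =
      (l : ℂ) • (c l • F ∣[k] S -
        (l : ℂ) ^ (k - 1) • fun τ : ℍ => (F ∣[k] S) (ofComplex (l * τ))) := by
  funext τ
  have hl0 := hl.out.ne_zero
  have hl1 : (l : ℂ) ≠ 0 := Nat.cast_ne_zero.2 hl0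
  have hτ := τ.ne_zero
  have h3 := hecke_fun hc hF h2 (fun r => σ r 0 0)
    ((Equiv.mulLeft₀ (-(M : ZMod l)) (neg_ne_zero.2 hM)).trans (Equiv.inv _)) (fun r => by
      by_cases h : r = 0
      · simp [h, h0.2, S]
      · have h4 := congrArg (Int.cast : ℤ → ZMod l) (det_eq (σ r))
        rw [(hσ r h).1, (hσ r h).2] at h4
        simp only [Equiv.trans_apply, Equiv.mulLeft₀_apply, Equiv.inv_apply]
        refine eq_inv_of_mul_eq_one_left ?_
        simpa [hρ] using h4) (S • τ)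
  have h4 : ((S • τ : ℍ) : ℂ) = -1 / τ := by
    rw [eq_div_iff hτ]
    simpa [S] using coe_smul_mul S τ
  have h5 : ∀ r ≠ 0, F (ofComplex ((((S • τ : ℍ) : ℂ) + σ r 0 0) / l)) =
      τ ^ k * (F ∣[k] σ r) (ofComplex ((τ + ((M : ℝ) * ρ r : ℝ)) / l)) := fun r h => by
    have h6 := congrArg (Int.cast : ℤ → ℂ) (det_eq (σ r))
    have h7 : (σ r 1 0 : ℂ) * ((τ + ((M : ℝ) * ρ r : ℝ)) / l) + σ r 1 1 = τ := by
      rw [(hσ r h).1, (hσ r h).2]
      push_cast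
      field_simp
      ring
    rw [← smul_eq (σ r) (ofComplex ((τ + ((M : ℝ) * ρ r : ℝ)) / l))
      (by simpa using im_sb (S • τ) (σ r 0 0) hl0), slash_at F k, coe_of (im_sb τ _ hl0), h7]
    rw [coe_of (im_sb τ _ hl0), h7, h4]
    rw [(hσ r h).1, (hσ r h).2] at h6
    push_cast at h6 ⊢
    field_simp
    linear_combination h6
  have h6 : F (ofComplex ((((S • τ : ℍ) : ℂ) + σ 0 0 0) / l)) =
      (l * τ) ^ k * (F ∣[k] S) (ofComplex (l * τ)) := by
    rw [← smul_eq S (ofComplex (l * τ)) (by simpa using im_sb (S • τ) (σ 0 0 0) hl0), slash_at F k,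
      coe_of (im_up τ hl0)]
    · simp [S]
    · rw [coe_of (im_up τ hl0), h4, h0.2]
      simp [S]
      field_simp
  have h7 : F (ofComplex (l * ((S • τ : ℍ) : ℂ))) =
      (τ / l) ^ k * (F ∣[k] σ 0) (ofComplex ((τ + ((M : ℝ) * ρ 0 : ℝ)) / l)) := by
    rw [← smul_eq S (ofComplex ((τ + ((M : ℝ) * ρ 0 : ℝ)) / l)) (im_up _ hl0), slash_at F k,
      coe_of (im_sb τ _ hl0), h0.2, h0.1]
    · simp [S]
    · rw [coe_of (im_sb τ _ hl0), h4, h0.1]
      simp [S]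
      field_simp
  rw [← Finset.add_sum_erase _ _ (Finset.mem_univ 0), h6, h7, slash_at F k S τ,
    Finset.sum_congr rfl fun r hr => h5 r (Finset.ne_of_mem_erase hr), ← Finset.mul_sum] at h3
  rw [Finset.sum_apply, ← Finset.add_sum_erase _ _ (Finset.mem_univ 0),
    Finset.sum_congr rfl fun r hr => by rw [if_neg (Finset.ne_of_mem_erase hr), one_smul], if_pos rfl]
  have h8 : (S 1 0 : ℂ) * τ + S 1 1 = τ := by simp [S]
  rw [h8, mul_zpow, div_zpow, zpow_sub_one₀ hl1] at h3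
  simp only [Pi.smul_apply, Pi.sub_apply, smul_eq_mul, zpow_sub_one₀ hl1]
  have h9 := zpow_ne_zero k hl1
  refine mul_left_cancel₀ (zpow_ne_zero k hτ) ?_
  field_simp at h3 ⊢
  linear_combination h3

theorem rm_prime (hc : Eix S₀ k χ c) (hF : Sm c F) {l : ℕ} [hl : Fact l.Prime] (h2 : l ∉ S₀)
    {N : ℕ} (hq : q ∣ N) (h : Gamma0 (l * N) ≤ stx k χ F) : Gamma0 N ≤ stx k χ F := by
  have q0 : (N : ZMod q) = 0 := (ZMod.natCast_eq_zero_iff _ _).2 hq
  have hl0 := hl.out.ne_zero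
  have hl1 : (l : ℂ) ≠ 0 := Nat.cast_ne_zero.2 hl0
  have key : ∀ (a b c' d : ℤ) (h1 : a * d - l * b * (N * c') = 1),
      sl a (l * b) (N * c') d h1 ∈ stx k χ F := fun a b c' d h1 => mem_stx.2 ⟨by
      simp [sl_apply, q0], fun z => by
    obtain ⟨τ, rfl⟩ : ∃ τ : ℍ, z = ofComplex (l * τ) := ⟨ofComplex ((z + (0 : ℝ)) / l),
      UpperHalfPlane.ext (by rw [coe_of (im_up _ hl0), coe_of (im_sb _ _ hl0)]; field_simp; simp)⟩
    let γ := sl a b (l * N * c') d (by linear_combination h1)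
    have h3 := (mem_stx.1 (h (show γ ∈ Gamma0 (l * N) from Gamma0_mem.2 (by
      rw [(sl_apply ..).2.2.1, ← Nat.cast_mul, Int.cast_mul, Int.cast_natCast, ZMod.natCast_self,
        zero_mul])))).2 τ
    have h4 := coe_smul_mul γ τ
    have h5 : (d : ZMod l) ≠ 0 := fun h => by
      have := congrArg (Int.cast : ℤ → ZMod l) h1
      simp [h] at this
    have h6 := hecke_fun hc hF h2 (fun r => r.val) (Equiv.refl _) (by simp) (γ • τ)
    have h7 := hecke_fun hc hF h2 (fun r => (b + r.val * d) * d)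
      (((Equiv.mulRight₀ _ h5).trans (Equiv.addLeft (b : ZMod l))).trans (Equiv.mulRight₀ _ h5))
      (by simp) τ
    have h1' := congrArg (Int.cast : ℤ → ℂ) h1
    rw [(sl_apply ..).2.2.1, (sl_apply ..).2.2.2] at h3 h4
    rw [(sl_apply ..).1, (sl_apply ..).2.1] at h4
    have h8 : ∀ r : ZMod l, F (ofComplex ((((γ • τ : ℍ) : ℂ) + (r.val : ℤ)) / l)) =
        (((l * N * c' : ℤ) : ℂ) * τ + d) ^ k * χ d *
          F (ofComplex ((τ + ((b + r.val * d) * d : ℤ)) / l)) := fun r => by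
      let δ := sl (a + r.val * (l * N * c')) (-((b + r.val * d) * (N * c') * (b + r.val * d)))
        (l * (l * N * c')) (d - l * N * c' * ((b + r.val * d) * d)) (by
          linear_combination (1 - l * N * c' * (b + r.val * d)) * h1)
      have h9 := (mem_stx.1 (h (show δ ∈ Gamma0 (l * N) from Gamma0_mem.2 (by
        rw [(sl_apply ..).2.2.1, ← Nat.cast_mul, Int.cast_mul, Int.cast_mul, Int.cast_natCast,
          Int.cast_natCast, ZMod.natCast_self, zero_mul, mul_zero])))).2 (ofComplex ((τ + ((b + r.val * d) * d : ℤ)) / l))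
      have h10 := im_sb τ ((b + r.val * d) * d : ℤ) hl0
      rw [Complex.ofReal_intCast] at h10
      rw [smul_eq δ _ (z := (((γ • τ : ℍ) : ℂ) + (r.val : ℤ)) / l)
        (by simpa only [Complex.ofReal_intCast] using im_sb (γ • τ) (r.val : ℤ) hl0),
        coe_of h10] at h9
      · rw [h9, ← mul_assoc]
        congr 3
        · simp only [δ, sl_apply]
          push_cast
          field_simp
          ring
        · simp [δ, sl_apply, q0]
      · rw [coe_of h10]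
        simp only [δ, sl_apply]
        push_cast at h4 h1' ⊢
        field_simp
        linear_combination h4 - (b + r.val * d) * h1'
    rw [Finset.sum_congr rfl fun r _ => h8 r, ← Finset.mul_sum, h7, h3] at h6
    rw [smul_eq _ _ (im_up (γ • τ) hl0), coe_of (im_up _ hl0)]
    · have h9 := zpow_ne_zero (k - 1) hl1
      have h10 : ((N * c' : ℤ) : ℂ) * (l * τ) + d = ((l * N * c' : ℤ) : ℂ) * τ + d := by
        push_cast; ring
      refine mul_left_cancel₀ (mul_ne_zero hl1 (mul_ne_zero (hc.chi_ne hl.out h2) h9)) ?_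
      simp only [sl_apply, h10]
      linear_combination h6
    · rw [coe_of (im_up _ hl0)]
      simp only [sl_apply]
      push_cast at h4 ⊢
      linear_combination l * h4⟩
  have key2 : ∀ γ ∈ Gamma0 N, (γ 0 0 : ZMod l) ≠ 0 → γ ∈ stx k χ F := fun γ h1 h3 => by
    obtain ⟨c', hc'⟩ := (ZMod.intCast_zmod_eq_zero_iff_dvd _ _).1 (Gamma0_mem.1 h1)
    obtain ⟨j, hj⟩ := ZMod.intCast_surjective (-(γ 0 1 : ZMod l) / (γ 0 0 : ZMod l))
    obtain ⟨b, hb⟩ := (ZMod.intCast_zmod_eq_zero_iff_dvd (γ 0 0 * j + γ 0 1) l).1 (by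
      push_cast
      rw [hj]
      field_simp
      ring)
    have h4 := key (γ 0 0) b c' (γ 1 0 * j + γ 1 1) (by
      rw [← hb, ← hc']; linear_combination det_eq γ)
    refine ((stx k χ F).mul_mem_cancel_right ((stx k χ F).zpow_mem (T_mem' hF) j)).1 ?_
    convert h4 using 1
    ext a b
    rw [Matrix.SpecialLinearGroup.coe_mul, coe_T_zpow]
    fin_cases a <;> fin_cases b <;> simp [sl, Matrix.mul_apply, Fin.sum_univ_two, ← hb, ← hc']
  intro γ hγ
  by_cases h1 : (γ 0 0 : ZMod l) = 0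
  · refine ((stx k χ F).mul_mem_cancel_left (T_mem' hF)).1 (key2 _ ((Gamma0 N).mul_mem
      (Gamma0_mem.2 (by simp [T])) hγ) fun h3 => ?_)
    have h4 := congrArg (Int.cast : ℤ → ZMod l) (det_eq γ)
    rw [Matrix.SpecialLinearGroup.coe_mul, coe_T] at h3
    simp [Matrix.mul_apply, Fin.sum_univ_two, h1] at h3
    simp [h1, h3] at h4
  · exact key2 γ hγ h1

theorem rm_all (hc : Eix S₀ k χ c) (hF : Sm c F) (M : ℕ) (hM : M ≠ 0) (hq : q ∣ M)
    (h : Gamma0 M ≤ stx k χ F) :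
    ∃ N, N ≠ 0 ∧ q ∣ N ∧ (∀ l : ℕ, l.Prime → l ∣ N → l ∈ S₀) ∧ Gamma0 N ≤ stx k χ F := by
  induction M using Nat.strong_induction_on with
  | _ M ih =>
    by_cases h1 : ∃ l, l.Prime ∧ l ∣ M ∧ l ∉ S₀
    · obtain ⟨l, hl, ⟨N, rfl⟩, h2⟩ := h1
      have : Fact l.Prime := ⟨hl⟩
      have h3 := Nat.pos_of_ne_zero (right_ne_zero_of_mul hM)
      have h4 : q ∣ N := (hl.coprime_iff_not_dvd.2 fun e => h2 (hc.md l hl e)).symm.dvd_of_dvd_mul_left hq
      exact ih N (by nlinarith [hl.two_le]) h3.ne' h4 (rm_prime hc hF h2 h4 h)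
    · push Not at h1
      exact ⟨M, hM, hq, h1, h⟩

theorem eq_S (hc : Eix S₀ k χ c) (hF : Sm c F) {Γ : Subgroup SL(2, ℤ)} [Γ.FiniteIndex] [hΓ : Γ.Normal]
    (h : IsMF Γ k F) {M : ℕ} (hM : M ≠ 0) (hT : T ^ (M : ℤ) ∈ Γ) :
    ∃ l₀ : ℕ, ∀ l : ℕ, l.Prime → l₀ < l → ∀ (σ : SL(2, ℤ)) (ρ : ℤ), σ 1 0 = l →
      σ 1 1 = -(M * ρ) → F ∣[k] σ = χ l • F ∣[k] S := by
  classical
  have hk := pos_of h hF hc.one
  have hM' : (0 : ℝ) < M := by positivity
  have h1 : ∀ σ : SL(2, ℤ), IsMF Γ k (F ∣[k] σ) := fun σ =>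
    h.conj σ fun γ hγ => hΓ.conj_mem γ hγ σ
  let a : (ℍ → ℂ) → ℕ → ℂ := fun G n => (qExpansion M G).coeff n
  have hE : ∀ {G}, IsMF Γ k G → Ex M (a G) G := fun hG =>
    hasSum_qExpansion hM' (per_of_T (hG.slash _ hT)) hG.hol (by simpa using hG.bdd 1)
  have : NeZero q := ⟨hc.ne⟩
  let Φ := Set.range fun p : ZMod q × SL(2, ℤ) => χ p.1 • F ∣[k] p.2
  have : Finite Φ := (Set.finite_range
      fun p : ZMod q × (SL(2, ℤ) ⧸ Γ) => χ p.1 • tr h p.2).subset (by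
    rintro _ ⟨⟨u, σ⟩, rfl⟩
    exact ⟨(u, ((σ⁻¹ : SL(2, ℤ)) : SL(2, ℤ) ⧸ Γ)), by simp only [tr_mk, inv_inv]⟩)
  have hΦ : ∀ G : Φ, IsMF Γ k G := by
    rintro ⟨_, p, rfl⟩
    exact (h1 _).smul _
  have h2 : ∀ G G' : Φ, ∃ n ≠ 0, a G n = a G' n → G = G' := by
    intro G G'
    by_contra h3
    push Not at h3
    refine (h3 1 one_ne_zero).2 (Subtype.ext (sub_eq_zero.1 ?_))
    have h4 := (hE (hΦ G)).sub (hE (hΦ G'))
    rw [show a G - a G' = Pi.single 0 ((a G - a G') 0) from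
      funext fun n => by
        by_cases h5 : n = 0
        · simp [h5]
        · simp [h5, (h3 n h5).1]] at h4
    have h5 := h4.eq (ex_const _ _)
    have h6 := mem_stab.1 (((hΦ G).sub (hΦ G')).slash _ (hΓ.conj_mem _ hT S)) I
    have h7 : (S * T ^ (M : ℤ) * S⁻¹) 1 0 = -M ∧ (S * T ^ (M : ℤ) * S⁻¹) 1 1 = 1 := by
      rw [Matrix.SpecialLinearGroup.coe_mul, Matrix.SpecialLinearGroup.coe_mul, coe_T_zpow,
        Matrix.SpecialLinearGroup.coe_inv, coe_S]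
      simp [Matrix.mul_apply, Fin.sum_univ_two, Matrix.adjugate_fin_two]
    rw [h5, h7.1, h7.2] at h6
    rw [h5]
    funext τ
    by_contra h8
    have h9 := congrArg Complex.normSq ((mul_eq_right₀ h8).1 h6.symm)
    rw [map_zpow₀, map_one, zpow_eq_one_iff_right₀ (Complex.normSq_nonneg _) ?_] at h9
    · exact hk.ne' h9
    · simp [Complex.normSq_apply, hM]
  choose ν hν hν' using h2
  obtain ⟨l₀, H⟩ := cyc (Set.finite_range fun p : Φ × Φ × Φ => a p.1 (ν p.2.1 p.2.2))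
  obtain ⟨l₁, H₁⟩ := (Set.finite_range fun p : Φ × Φ => ν p.1 p.2).bddAbove
  refine ⟨l₀ + l₁ + M + S₀.sup id, fun l hl hl' σ₀ ρ₀ e1 e2 => ?_⟩
  have : Fact l.Prime := ⟨hl⟩
  have h3 : ∀ n : ℕ, n ≠ 0 → n < l → (n : ZMod l) ≠ 0 := fun n k1 k2 k3 =>
    k1 (Nat.eq_zero_of_dvd_of_lt ((ZMod.natCast_eq_zero_iff _ _).1 k3) k2)
  have h4 : (ρ₀ : ZMod l) ≠ 0 := fun k1 => by
    have k2 := congrArg (Int.cast : ℤ → ZMod l) (det_eq σ₀)
    simp [e1, e2, k1] at k2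
  have h5 : ∀ r : ZMod l, ∃ (ρ : ℤ) (σ : SL(2, ℤ)), (ρ : ZMod l) = r ∧ (r = 0 → ρ = 0 ∧ σ = S) ∧
      (r ≠ 0 → σ 1 0 = l ∧ σ 1 1 = -(M * ρ)) ∧ (r = ρ₀ → σ = σ₀) := fun r => by
    by_cases k1 : r = ρ₀
    · exact ⟨ρ₀, σ₀, k1.symm, fun k2 => absurd (k1.symm.trans k2) h4, fun _ => ⟨e1, e2⟩,
        fun _ => rfl⟩
    by_cases k2 : r = 0
    · exact ⟨0, S, by simp [k2], fun _ => ⟨rfl, rfl⟩, fun k3 => absurd k2 k3, fun k3 => absurd k3 k1⟩
    obtain ⟨x, y, k3⟩ := (Nat.prime_iff_prime_int.1 hl).irreducible.coprime_iff_not_dvd.2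
      (show ¬ (l : ℤ) ∣ M * r.val from fun k3 => by
        have k4 := (ZMod.intCast_zmod_eq_zero_iff_dvd _ _).2 k3
        simp [h3 M hM (by omega), k2] at k4)
    exact ⟨r.val, sl (-y) (-x) l (-(M * r.val)) (by linear_combination k3), by simp,
      fun k4 => absurd k4 k2, fun _ => ⟨rfl, rfl⟩, fun k4 => absurd k4 k1⟩
  choose ρ σ k1 k2 k3 k4 using h5
  have h6 := Ex.sum fun r =>
    (hE ((h1 (σ r)).smul (if r = 0 then χ l else 1))).sb hM'.ne' l (ρ r)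
  rw [rel_S hc hF
    (fun k5 => absurd (show l ≤ S₀.sup id from Finset.le_sup (f := id) k5) (by omega))
    (h3 M hM (by omega)) σ ρ k1 (k2 0 rfl) k3] at h6
  have h7 := h6.unique (mul_pos hM' (Nat.cast_pos.2 hl.pos)) (((((hE (h1 S)).smul (c l)).sub
    (((hE (h1 S)).up hl.ne_zero).smul ((l : ℂ) ^ (k - 1)))).smul l).spread hl.ne_zero)
  let G : ZMod l → Φ := fun r => ⟨(if r = 0 then χ l else 1) • F ∣[k] σ r,
    (if r = 0 then l else 1, σ r), by split_ifs <;> simp⟩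
  have h8 : ν (G ρ₀) (G 0) < l := lt_of_le_of_lt (H₁ ⟨(_, _), rfl⟩) (by omega)
  have h9 := congrFun h7 (ν (G ρ₀) (G 0))
  rw [spr, if_neg fun k5 => hν _ _ (Nat.eq_zero_of_dvd_of_lt k5 h8), Finset.sum_apply] at h9
  simp only [k1] at h9
  have h10 := congrArg Subtype.val (hν' _ _ (H l (by omega) (fun r => a (G r) (ν (G ρ₀) (G 0)))
    (fun r => ⟨(G r, _, _), rfl⟩) _ (h3 _ (hν _ _) h8) h9 ρ₀))
  simpa only [G, k4 _ rfl, (k2 0 rfl).2, if_neg h4, if_true, one_smul] using h10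

end Amb

open Amb in
/-- **AMB with character** -/
theorem amb (hc : Eix S₀ k χ c) {Γ : Subgroup SL(2, ℤ)} (hΓ : Γ.FiniteIndex) (hF : Sm c F)
    (hfix : ∀ γ ∈ Γ, F ∣[k] γ = F) : 0 < k ∧ ∃ M : ℕ, M ≠ 0 ∧ q ∣ M ∧
      (∀ l : ℕ, l.Prime → l ∣ M → l ∈ S₀) ∧ IsMF (Gamma1 M) k F ∧
      ∀ γ ∈ Gamma0 M, F ∣[k] γ = χ (γ 1 1) • F := by
  obtain ⟨A, hA⟩ := hc.growth
  obtain ⟨M, hM, -, hT⟩ := Subgroup.exists_pow_mem_of_index_ne_zero
    (Subgroup.FiniteIndex.index_ne_zero (H := Γ.normalCore)) T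
  rw [← zpow_natCast] at hT
  have h1 : IsMF Γ.normalCore k F := ⟨hol_of hF hA, fun γ hγ => hfix γ (Γ.normalCore_le hγ),
    fun σ => bdd_of hF hA σ hM.ne' (by
      rw [← SlashAction.slash_mul, show σ * T ^ (M : ℤ) = σ * T ^ (M : ℤ) * σ⁻¹ * σ by group,
        SlashAction.slash_mul,
        hfix _ (Γ.normalCore_le (Γ.normalCore_normal.conj_mem _ hT σ))])⟩
  obtain ⟨l₀, H⟩ := eq_S hc hF h1 hM.ne' hT
  have M0 : M * q ≠ 0 := mul_ne_zero hM.ne' hc.ne
  have key : ∀ γ ∈ Gamma0 (M * q), γ 1 0 ≠ 0 → γ ∈ stx k χ F := fun γ hγ h2 => by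
    obtain ⟨c', hc'⟩ := (ZMod.intCast_zmod_eq_zero_iff_dvd _ _).1 (Gamma0_mem.1 hγ)
    obtain ⟨l, h3, h4, h5⟩ := Nat.forall_exists_prime_gt_and_zmodEq l₀
      (Int.natAbs_ne_zero.2 h2) (a := γ 1 1) (by
        rw [Int.natCast_natAbs, IsCoprime.abs_right_iff]
        exact ⟨γ 0 0, -γ 0 1, by linear_combination det_eq γ⟩)
    obtain ⟨i, hi⟩ := (Int.dvd_natAbs.2 dvd_rfl).trans h5.symm.dvd
    refine ((stx k χ F).mul_mem_cancel_right ((stx k χ F).zpow_mem (T_mem' hF) i)).1 ?_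
    have e1 : (γ * T ^ i) 1 0 = γ 1 0 ∧ (γ * T ^ i) 1 1 = l := by
      rw [Matrix.SpecialLinearGroup.coe_mul, coe_T_zpow]
      simp [Matrix.mul_apply, Fin.sum_univ_two]
      linear_combination -hi
    have h6 := H l h4 h3 (γ * T ^ i * S) (q * c') (by
      rw [Matrix.SpecialLinearGroup.coe_mul, Matrix.SpecialLinearGroup.coe_mul, coe_T_zpow, coe_S]
      simp [Matrix.mul_apply, Fin.sum_univ_two]
      linear_combination -hi) (by
      rw [Matrix.SpecialLinearGroup.coe_mul, Matrix.SpecialLinearGroup.coe_mul, coe_T_zpow, coe_S]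
      simp [Matrix.mul_apply, Fin.sum_univ_two, hc', mul_assoc])
    have h7 := congrArg (fun G => G ∣[k] S⁻¹) h6
    simp only [SL_smul_slash, ← SlashAction.slash_mul, mul_inv_cancel_right, mul_inv_cancel,
      SlashAction.slash_one] at h7
    exact ⟨by rw [e1.1, hc']; simp, by rw [h7, e1.2, Int.cast_natCast]⟩
  obtain ⟨N, hN, hq, hN', hj⟩ := rm_all hc hF (M * q) M0 (dvd_mul_left _ _) fun γ hγ => by
    by_cases h2 : γ 1 0 = 0
    · let δ := sl 1 0 (M * q : ℕ) 1 (by ring)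
      have h3 : δ ∈ Gamma0 (M * q) := Gamma0_mem.2 (by
        rw [(sl_apply ..).2.2.1, Int.cast_natCast, ZMod.natCast_self])
      refine ((stx k χ F).mul_mem_cancel_right (key δ h3 ?_)).1 (key _ (mul_mem hγ h3) fun h4 => ?_)
      · rw [(sl_apply ..).2.2.1]; exact_mod_cast M0
      · have h5 := det_eq γ
        rw [Matrix.SpecialLinearGroup.coe_mul] at h4
        simp [Matrix.mul_apply, Fin.sum_univ_two, h2, δ, sl_apply, hM.ne', hc.ne] at h4
        simp [h2, h4] at h5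
    · exact key γ hγ h2
  refine ⟨pos_of h1 hF hc.one, N, hN, hq, hN', ⟨h1.hol, fun γ hγ => ?_, h1.bdd⟩,
    fun γ hγ => (hj hγ).2⟩
  have h2 := congrArg (ZMod.castHom hq (ZMod q)) ((Gamma1_mem N γ).1 hγ).2.1
  rw [map_intCast, map_one] at h2
  rw [(hj (Gamma1_in_Gamma0 N hγ)).2, h2, map_one, one_smul]

end Vale.Agent.P014Y.W1
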