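import Vale.Agent.P022K.UC.Am8
import Vale.Agent.P014Y.W1.Ama1
import Vale.Agent.P014Y.W1.Amb

/-!
# P014Y, block W1: an eigenform of any weight which is algebraic over the quasi-modular forms has a
modular twist
-/

set_option autoImplicit false

open UpperHalfPlane ModularForm HahnSeries CongruenceSubgroup
open scoped MatrixGroups ModularForm Real LaurentSeries PowerSeries

noncomputable section

namespace Vale.Agent.P014Y.W1

open Vale.Agent.P022.H218.L3 Vale.Agent.P022K.UC Vale.Agent.P022K.UC.Am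

section

variable {S : Finset ℕ} {k : ℤ} {q : ℕ} {χ : DirichletCharacter ℂ q} {c : ℕ → ℂ}

theorem Eix.sm (h : Eix S k χ c) : ∃ F, Sm c F := by
  obtain ⟨A, hA⟩ := h.growth
  refine ⟨fun τ => ∑' n, c n • Rm.qq τ ^ n, fun τ => Summable.hasSum ?_⟩
  have h0 : ‖Rm.qq τ‖ ≠ 0 := norm_ne_zero_iff.2 (Function.Periodic.qParam_ne_zero _)
  have h1 := (summable_nat_add_iff 2).2 (summable_pow_mul_geometric_of_norm_lt_one (R := ℝ) A
    (r := ‖Rm.qq τ‖) (by simpa using Rm.norm_qq τ))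
  refine Summable.of_norm_bounded (h1.mul_right (‖Rm.qq τ‖ ^ 2)⁻¹) fun n => ?_
  rw [norm_smul, norm_pow, _root_.pow_add, mul_assoc, mul_inv_cancel_right₀ (pow_ne_zero _ h0)]
  push_cast
  exact mul_le_mul_of_nonneg_right (hA n) (by positivity)

theorem eix_dp (h : Eix S k χ c) {p : ℕ} (hp : p ∈ S) (hp' : p.Prime) :
    Dp p (ofPowerSeries ℤ ℂ (PowerSeries.mk c)) := fun n hn => by
  rcases lt_or_ge n 0 with h1 | h1
  · exact coe_neg c h1
  · obtain ⟨m, rfl⟩ := Int.eq_ofNat_of_zero_le h1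
    rw [coe_nat, h.dep p hp hp' m (by exact_mod_cast hn)]

theorem eix_hk (h : Eix S k χ c) {l : ℕ} (hl : l.Prime) (hl' : l ∉ S) :
    Hk l (c l) (χ l * (l : ℂ) ^ (k - 1)) (ofPowerSeries ℤ ℂ (PowerSeries.mk c)) := fun n => by
  have l0 : (0 : ℤ) < l := by exact_mod_cast hl.pos
  rcases lt_or_ge n 0 with h1 | h1
  · rw [coe_neg c h1, coe_neg c (mul_neg_of_pos_of_neg l0 h1),
      coe_neg c (Int.ediv_neg_of_neg_of_pos h1 l0)]
    simp
  · obtain ⟨m, rfl⟩ := Int.eq_ofNat_of_zero_le h1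
    rw [← Nat.cast_mul, ← Int.natCast_div, coe_nat, coe_nat, coe_nat, ← h.hecke l m hl hl']
    simp only [Int.natCast_dvd_natCast]

/-- multiplicity one -/
theorem unix (h : Eix S k χ c) {z : ℂ⸨X⸩} (hd : ∀ p ∈ S, p.Prime → Dp p z)
    (hk : ∀ l : ℕ, l.Prime → l ∉ S → Hk l (c l) (χ l * (l : ℂ) ^ (k - 1)) z) :
    z = C (z.coeff 1) * ofPowerSeries ℤ ℂ (PowerSeries.mk c) := by
  have neg : ∀ n < 0, z.coeff n = 0 := by
    by_contra hc
    push Not at hc
    obtain ⟨n, h1, h2⟩ := hc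
    have z0 : z ≠ 0 := fun e => h2 (by simp [e])
    have h3 : z.order < 0 := (order_le_of_coeff_ne_zero h2).trans_lt h1
    obtain ⟨l, h4, hl⟩ := Nat.exists_infinite_primes (S.sup id + 1)
    have h5 : l ∉ S := fun h => by
      have := Finset.le_sup (f := id) h
      simp only [id] at this
      omega
    have l1 : (1 : ℤ) < l := by exact_mod_cast hl.one_lt
    have h6 := hk l hl h5 (l * z.order)
    have h7 : l * z.order < z.order := by nlinarith
    have h8 : l * (l * z.order) < z.order := by nlinarith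
    rw [if_pos (dvd_mul_right _ _), Int.mul_ediv_cancel_left _ (by omega),
      coeff_eq_zero_of_lt_order h7, coeff_eq_zero_of_lt_order h8, zero_add, mul_zero, mul_eq_zero,
      coeff_order_eq_zero] at h6
    exact h6.elim (mul_ne_zero (h.chi_ne hl h5)
      (zpow_ne_zero _ (by exact_mod_cast hl.ne_zero))) z0
  have pos : ∀ n : ℕ, z.coeff n = z.coeff 1 * c n := fun n => by
    induction n using Nat.strong_induction_on with
    | _ n ih =>
    by_cases h1 : n = 1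
    · simp [h1, h.one]
    obtain ⟨l, hl, m, rfl⟩ := Nat.exists_prime_and_dvd h1
    by_cases h2 : l ∈ S
    · rw [hd l h2 hl _ (by exact_mod_cast dvd_mul_right _ _), h.dep l h2 hl _ (dvd_mul_right _ _),
        mul_zero]
    rcases Nat.eq_zero_or_pos m with rfl | hm
    · rw [mul_zero, h.zero, mul_zero, hd 2 h.two Nat.prime_two _ (by simp)]
    have h3 : m < l * m := by nlinarith [hl.one_lt]
    have h4 := hk l hl h2 m
    have h5 := h.hecke l m hl h2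
    rw [← Int.natCast_div, ih m h3, ih _ ((Nat.div_le_self _ _).trans_lt h3), ← Nat.cast_mul] at h4
    simp only [Int.natCast_dvd_natCast] at h4
    split_ifs at h4 h5 <;> linear_combination h4 - z.coeff 1 * h5
  ext n
  rw [coeff_C_mul]
  rcases lt_or_ge n 0 with h1 | h1
  · rw [neg n h1, coe_neg c h1, mul_zero]
  · obtain ⟨m, rfl⟩ := Int.eq_ofNat_of_zero_le h1
    rw [coe_nat, pos]

end

theorem tr3 {ι : Type} (s : Finset ι) (e : ι → ℚ × ℕ+) (a : ι → ℂ) (x : LL) {w : LL} (w0 : w ≠ 0) :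
    ∑ i ∈ s, algebraMap ℂ LL (a i) * sL (e i) (x * w) = 0 ↔
      ∑ i ∈ s, algebraMap ℂ LL (a i) * (sL (e i) w / w) * sL (e i) x = 0 := by
  rw [← mul_eq_zero_iff_right w0 (a := ∑ i ∈ s, _ * _ * _), Finset.sum_mul]
  refine Eq.congr_left (Finset.sum_congr rfl fun i _ => ?_)
  rw [map_mul]
  field_simp

variable {S : Finset ℕ} {k : ℕ} {q : ℕ} {χ : DirichletCharacter ℂ q} {c : ℕ → ℂ}

/-- algebraic over the quasi-modular forms, in weight zero -/
def Alx (k : ℕ) (g : Cv) : Prop := ∃ R : Polynomial (Polynomial KK), R ≠ 0 ∧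
  Polynomial.eval₂ (Polynomial.aeval tt : Polynomial KK →ₐ[KK] LL).toRingHom (al g / o1 ^ k) R = 0

theorem alx_sq {g : Cv} {D : ℕ} {P : MvPolynomial (Fin 4) ℂ} (P0 : P ≠ 0)
    (hP : P.IsWeightedHomogeneous ![2, 4, 6, 2 * k] D)
    (h0 : MvPolynomial.aeval ![e2, e4, e6, g.1 ^ 2] P = 0) : Alx k g := by
  have o0 := om_ne
  obtain ⟨R, R0, hR⟩ := rel (K := KK) (t := tt) (f := al (g ^ 2) / om ^ k) jj_tr o0 P0 hP (by
    have h1 : MvPolynomial.aeval ![c2, c4, c6, g ^ 2] P = 0 := Subtype.ext (by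
      refine (MvPolynomial.comp_aeval_apply _ Cv.val P).trans (Eq.trans ?_ h0)
      congr 2
      funext i
      fin_cases i <;> simp [c2, c4, c6])
    have h2 := MvPolynomial.comp_aeval_apply ![c2, c4, c6, g ^ 2]
      (IsScalarTower.toAlgHom ℂ Cv LL) P
    rw [h1, map_zero] at h2
    rw [h2]
    congr 2
    have := al_ne c4_ne
    have := al_ne c6_ne
    funext i
    fin_cases i
    · exact mul_div_cancel₀ _ o0
    · change om ^ 2 * (al (c4 ^ 3) / al (c6 ^ 2)) = al c4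
      rw [om, map_pow, map_pow]
      field_simp
    · change om ^ 3 * (al (c4 ^ 3) / al (c6 ^ 2)) = al c6
      rw [om, map_pow, map_pow]
      field_simp
    · exact mul_div_cancel₀ _ (pow_ne_zero _ o0))
  let v : KK := ⟨_, o1_sq⟩
  have v0 : v ≠ 0 := fun e => div_ne_zero (pow_ne_zero 2 o1_ne) o0 (congrArg Subtype.val e)
  refine ⟨R.comp (Polynomial.C (Polynomial.C (v ^ k)) * Polynomial.X ^ 2), fun e => ?_, ?_⟩
  · rcases Polynomial.comp_eq_zero_iff.1 e with e | ⟨-, e⟩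
    · exact R0 e
    · have := congrArg (Polynomial.coeff · 2) e
      simp only [Polynomial.coeff_C_mul_X_pow, if_true, Polynomial.coeff_C_ne_zero two_ne_zero,
        Polynomial.C_eq_zero] at this
      exact pow_ne_zero _ v0 this
  · rw [Polynomial.eval₂_comp, ← hR]
    congr 1
    have := o1_ne
    rw [Polynomial.eval₂_mul, Polynomial.eval₂_C, Polynomial.eval₂_X_pow]
    change Polynomial.aeval tt (Polynomial.C (v ^ k)) * _ = _
    rw [Polynomial.aeval_C, map_pow, map_pow]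
    change (o1 ^ 2 / om) ^ k * _ = _
    rw [div_pow, div_pow, ← pow_mul, ← pow_mul, mul_comm 2 k]
    field_simp

theorem exists_topx (h : Eix S k χ c) {g : Cv} (hg : g.1 = PowerSeries.mk c) (hR : Alx k g) :
    ∃ (n : ℕ) (y : LL), y ∈ KK ∧ y ≠ 0 ∧ ∀ (ι : Type) (s : Finset ι) (e : ι → ℚ × ℕ+) (a : ι → ℂ),
      ∑ i ∈ s, C (a i) * sq (e i) (ofPowerSeries ℤ ℂ (PowerSeries.mk c)) = 0 →
      ∑ i ∈ s, C (a i / ((e i).2 : ℕ) ^ n) * sq (e i) (Ex (y * (o1 ^ k / om ^ n))) = 0 := by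
  have g0 : g ≠ 0 := fun e => by
    simpa [hg, h.one] using congrArg (fun g : Cv => PowerSeries.coeff 1 g.1) e
  have o0 := om_ne
  have p0 : o1 ^ k ≠ 0 := pow_ne_zero _ o1_ne
  have e0 : al g / o1 ^ k * o1 ^ k = al g := div_mul_cancel₀ _ p0
  have tr : ∀ (ι : Type) (s : Finset ι) (e : ι → ℚ × ℕ+) (a : ι → ℂ),
      ∑ i ∈ s, C (a i) * sq (e i) (ofPowerSeries ℤ ℂ (PowerSeries.mk c)) = 0 →
      ∑ i ∈ s, algebraMap ℂ LL (a i) * (sL (e i) (o1 ^ k) / o1 ^ k) *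
        sL (e i) (al g / o1 ^ k) = 0 := fun ι s e a h1 => by
    rwa [← tr3 s e a _ p0, e0, ← tr1, Ex_al, hg]
  have mem : ∀ (a : ℂ) (i : ℚ × ℕ+), algebraMap ℂ LL a * (sL i (o1 ^ k) / o1 ^ k) ∈ KK :=
    fun a i => mul_mem (KK.algebraMap_mem a) (by
      rw [map_pow, ← div_pow]
      exact pow_mem (o1_mem i) _)
  obtain ⟨R, R0, hR⟩ := hR
  obtain ⟨n, y, h1, h2, h3⟩ := top kk_alg tt_not (div_ne_zero (al_ne g0) p0) R0 hR
    op fun Z hZ => by
      obtain ⟨l, hl, hS, h4⟩ := exists_l S hZ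
      lift l to ℕ+ using hl.pos
      have l0 : ((l : ℕ) : ℝ) ≠ 0 := by exact_mod_cast l.ne_zero
      have h5 := tr _ _ _ _ ((hk_iff' l).1 (eix_hk h hl hS))
      rw [Finset.sum_insertNone] at h5
      set α := c l
      set β := χ (l : ℕ) * ((l : ℕ) : ℂ) ^ ((k : ℤ) - 1) with hβ
      have b0 : algebraMap ℂ LL (hA l α β none) * (sL (hE l none) (o1 ^ k) / o1 ^ k) ≠ 0 :=
        mul_ne_zero ((_root_.map_ne_zero _).2 (mul_ne_zero (h.chi_ne hl hS)
          (zpow_ne_zero _ (by exact_mod_cast l.ne_zero))))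
          (div_ne_zero ((_root_.map_ne_zero _).2 p0) p0)
      refine ⟨_, (Finset.range l).insertNone, hE l none, fun i => hE l (some i), fun i =>
        -(algebraMap ℂ LL (hA l α β none) * (sL (hE l none) (o1 ^ k) / o1 ^ k))⁻¹ *
          (algebraMap ℂ LL (hA l α β (some i)) * (sL (hE l (some i)) (o1 ^ k) / o1 ^ k)),
        fun i _ => ⟨mul_mem (neg_mem (inv_mem (mem _ _))) (mem _ _), fun a ha b hb e => ?_⟩, ?_⟩
      · rw [lc_uu, lc_uu] at e
        rcases i with _ | i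
        · refine (h4 a ha b hb).1 ?_
          simp only [hE, PNat.mul_coe, Nat.cast_mul] at e
          field_simp at e
          exact e
        · refine (h4 a ha b hb).2 ?_
          simp only [hE, PNat.mul_coe, Nat.cast_mul, PNat.one_coe, Nat.cast_one] at e
          field_simp at e
          rw [← e]
          ring
      · exact solve b0 h5
  refine ⟨n, y, h1, h2, fun ι s e a h4 => ?_⟩
  have h5 := h3 ι s e _ (fun i _ => mem (a i) (e i)) (tr ι s e a h4)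
  rw [tr1, tr3 s e _ _ (div_ne_zero p0 (pow_ne_zero _ o0)), ← h5]
  refine Finset.sum_congr rfl fun i _ => ?_
  have s0 : sL (e i) om ≠ 0 := (_root_.map_ne_zero _).2 o0
  have n0 : (((e i).2 : ℕ) : LL) ≠ 0 := by exact_mod_cast (e i).2.ne_zero
  rw [uu, map_div₀, map_div₀, map_pow (sL (e i)) om, map_pow (algebraMap ℂ LL), map_natCast,
    div_pow, mul_pow]
  field_simp

theorem ama_of (h : Eix S k χ c) (hR : ∀ g : Cv, g.1 = PowerSeries.mk c → Alx k g) :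
    ∃ (s : ℕ) (Γ : Subgroup SL(2, ℤ)) (F : ℍ → ℂ), Γ.FiniteIndex ∧
      Sm (fun n => c n / (n : ℂ) ^ s) F ∧ ∀ γ ∈ Γ, F ∣[(k : ℤ) - 2 * s] γ = F := by
  obtain ⟨F₀, hF₀⟩ := h.sm
  obtain ⟨n, y, h1, h2, h3⟩ := exists_topx h (g := ⟨_, F₀, sp_mk.2 hF₀⟩) rfl (hR _ rfl)
  have h4 := h.twist n
  obtain ⟨F, hF⟩ := h4.sm
  let g : Cv := ⟨_, F, sp_mk.2 hF⟩
  have o0 := om_ne
  have p0 : o1 ^ k / om ^ n ≠ 0 := div_ne_zero (pow_ne_zero _ o1_ne) (pow_ne_zero _ o0)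
  have h5 := unix h4 (z := Ex (y * (o1 ^ k / om ^ n))) (fun p hp hp' => by
    have := h3 _ _ (fun b : ℕ => ((b / p : ℚ), (1 : ℕ+))) (fun _ => 1)
      ((dp_iff hp'.ne_zero).1 (eix_dp h hp hp'))
    rw [dp_iff hp'.ne_zero]
    simpa using this) fun l hl hS => by
      lift l to ℕ+ using hl.pos
      have l0 : ((l : ℕ) : ℂ) ≠ 0 := by exact_mod_cast l.ne_zero
      rw [hk_iff', ← h3 _ _ _ _ ((hk_iff' l).1 (eix_hk h hl hS))]
      refine Finset.sum_congr rfl fun i _ => ?_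
      congr 2
      rcases i with _ | _ | i
      · simp only [hA, hE, PNat.mul_coe, Nat.cast_mul]
        rw [← pow_two, ← pow_mul, ← zpow_natCast, mul_div_assoc, ← zpow_sub₀ l0]
        congr 2
        push_cast
        ring
      · simp only [hA, hE, neg_div]
      · simp [hA, hE]
  set a := (Ex (y * (o1 ^ k / om ^ n))).coeff 1
  have h6 : y * (o1 ^ k / om ^ n) = algebraMap ℂ LL a * al g :=
    Ex.injective (by rw [map_mul Ex (algebraMap ℂ LL a), Ex_c, Ex_al]; exact h5)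
  have a0 : algebraMap ℂ LL a ≠ 0 := fun e => mul_ne_zero h2 p0 (by rw [h6, e, zero_mul])
  have h7 : al (g * c6 ^ n) / al (c4 ^ n * c1 ^ k) = (algebraMap ℂ LL a)⁻¹ * y := by
    have := al_ne c4_ne
    have := al_ne c6_ne
    have := al_ne c1_ne
    rw [om, o1, div_pow] at h6
    simp only [map_mul, map_pow]
    field_simp at h6 ⊢
    linear_combination -h6
  have h8 := (kk_iff (k := n * 4 + k * 1) (mul_ne_zero (pow_ne_zero _ c4_ne) (pow_ne_zero _ c1_ne))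
    (by rw [fn_mul, fn_pow, fn_pow]; exact (wt4.pow n).mul (wt1.pow k) rfl)).1
    (h7 ▸ mul_mem (inv_mem (KK.algebraMap_mem a)) h1)
  rw [fn_mul] at h8
  obtain ⟨Γ, h9, h10⟩ := h8.cancel (k := (k : ℤ) - 2 * n) (l := n * 6)
    (by rw [fn_pow]; exact wt6.pow n) (by ring) (fn_hol _)
    (fn_hol _) (fn_ne (pow_ne_zero _ c6_ne))
  rw [fn_eq (g := g) (sp_mk.2 hF)] at h10
  exact ⟨n, Γ, F, h9, hF, h10⟩

/-- **AMA'**: the relation is given for the square -/
theorem amax (h : Eix S k χ c) {D : ℕ} {P : MvPolynomial (Fin 4) ℂ} (P0 : P ≠ 0)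
    (hP : P.IsWeightedHomogeneous ![2, 4, 6, 2 * k] D)
    (h0 : MvPolynomial.aeval ![e2, e4, e6, PowerSeries.mk c ^ 2] P = 0) :
    ∃ (s : ℕ) (Γ : Subgroup SL(2, ℤ)) (F : ℍ → ℂ), Γ.FiniteIndex ∧
      Sm (fun n => c n / (n : ℂ) ^ s) F ∧ ∀ γ ∈ Γ, F ∣[(k : ℤ) - 2 * s] γ = F :=
  ama_of h fun _ hg => alx_sq P0 hP (by rwa [hg])

/-- **step (4)** in any weight -/
theorem amx (h : Eix S k χ c) {D : ℕ} {P : MvPolynomial (Fin 4) ℂ} (P0 : P ≠ 0)
    (hP : P.IsWeightedHomogeneous ![2, 4, 6, 2 * k] D)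
    (h0 : MvPolynomial.aeval ![e2, e4, e6, PowerSeries.mk c ^ 2] P = 0) :
    ∃ (s M : ℕ) (F : ℍ → ℂ), 2 * s < k ∧ M ≠ 0 ∧ q ∣ M ∧ (∀ l : ℕ, l.Prime → l ∣ M → l ∈ S) ∧
      Sm (fun n => c n / (n : ℂ) ^ s) F ∧ IsMF (Gamma1 M) ((k : ℤ) - 2 * s) F ∧
      ∀ γ ∈ Gamma0 M, F ∣[(k : ℤ) - 2 * s] γ = χ (γ 1 1) • F := by
  obtain ⟨s, Γ, F, h1, h2, h3⟩ := amax h P0 hP h0
  obtain ⟨h5, M, h6, h7, h8, h9, h10⟩ := amb (h.twist s) h1 h2 h3
  exact ⟨s, M, F, by omega, h6, h7, h8, h2, h9, h10⟩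

/-- **step (4)** in weight one -/
theorem amx1 (h : Eix S 1 χ c) {D : ℕ} {P : MvPolynomial (Fin 4) ℂ} (P0 : P ≠ 0)
    (hP : P.IsWeightedHomogeneous ![2, 4, 6, 2] D)
    (h0 : MvPolynomial.aeval ![e2, e4, e6, PowerSeries.mk c ^ 2] P = 0) :
    ∃ (M : ℕ) (F : ℍ → ℂ), M ≠ 0 ∧ q ∣ M ∧ (∀ l : ℕ, l.Prime → l ∣ M → l ∈ S) ∧
      Sm c F ∧ IsMF (Gamma1 M) 1 F ∧ ∀ γ ∈ Gamma0 M, F ∣[(1 : ℤ)] γ = χ (γ 1 1) • F := by
  obtain ⟨s, M, F, h1, h2, h3, h4, h5, h6, h7⟩ := amx (k := 1) h P0 hP h0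
  obtain rfl : s = 0 := by omega
  exact ⟨M, F, h2, h3, h4, by simpa using h5, by simpa using h6, by simpa using h7⟩

end Vale.Agent.P014Y.W1
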