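import Vale.Agent.P014Y.W1.Du
import Vale.Agent.P014Y.W1.Dz

/-!
# P014Y, block W1, row D0
-/

set_option autoImplicit false

namespace Vale.Agent.P014Y.W1

/-- **D0** -/
theorem d0x : D0x := d0_of dux sex

end Vale.Agent.P014Y.W1
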