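import Vale.Agent.P014Y.W1.St
import Vale.Agent.P004M.A6b

/-!
# P014Y, block W1: words in the Hecke operators of odd weight with character `k3`
-/

set_option autoImplicit false
set_option linter.all false

open UpperHalfPlane CongruenceSubgroup
open scoped MatrixGroups ModularForm

noncomputable section

namespace Vale.Agent.P014Y.W1

open Vale.Agent.P022 Vale.Agent.P022.H218.L3 Vale.Agent.P022.H783 Vale.Agent.P022K.UC.Hm
open Vale.Agent.P022.H567.Tw (cf cf_unique incl incl_inj gHk_incl dec1)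
open Vale.Agent.P022.H811.L3 (Up Up_dia Up_Tl coeff_Up zero_of_coeff)
open Vale.Agent.P004M.A6 (lift_int)

variable {N : ℕ} [NeZero N]

/-- the depleted and normalised coefficients -/
def nx (N m n : ℕ) [NeZero N] : MF N (2 * m + 1) →ₗ[ℂ] ℂ :=
  if n.Coprime (2 * N) then ((n : ℂ) ^ m)⁻¹ • cfL N _ n else 0

theorem wx_comm {m : ℕ} {T : Module.End ℂ (MF N (2 * m + 1))}
    (h : ∀ ℓ f, T (Tl _ ℓ f) = Tl _ ℓ (T f)) (P : FreeAlgebra ℤ (PA N)) :
    ∀ f, T (wx N m P f) = wx N m P (T f) := by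
  induction P using FreeAlgebra.induction with
  | grade0 r => intro f; simp [Algebra.algebraMap_eq_smul_one]
  | grade1 ℓ => intro f; simp [wx, h]
  | mul a b ha hb => intro f; simp only [map_mul, Module.End.mul_apply, ha, hb]
  | add a b ha hb => intro f; simp only [map_add, LinearMap.add_apply, ha, hb]

theorem Tx.tl {k : ℕ} {f : MF N k} (h : Tx f) (ℓ : PA N) : Tx (Tl k ℓ f) := fun ℓ' => by
  rw [dia_Tl, h, map_smul]

theorem Tx.wx {m : ℕ} {f : MF N (2 * m + 1)} (h : Tx f) (P : FreeAlgebra ℤ (PA N)) :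
    Tx (wx N m P f) := fun ℓ => by rw [wx_comm (dia_Tl _ ℓ), h, map_smul]

theorem Tx.cf_tl {k : ℕ} {f : MF N k} (h : Tx f) (l : PA N) (n : ℕ) :
    cf (Tl k l f) n = cf f (l.1 * n) +
      if l.1 ∣ n then (l.1 : ℂ) ^ ((k : ℤ) - 1) * (k3 l.1 * cf f (n / l.1)) else 0 :=
  cf_unique _ _ (hasSum_Tl k l (c' := fun n => k3 l.1 * cf f n) (hasSum_form f) fun τ => by
    rw [h]
    simpa [mul_assoc] using (hasSum_form f τ).mul_left (k3 l.1 : ℂ)) n

theorem wx_kill (h2 : 2 ∣ N) {m : ℕ} {P : FreeAlgebra ℤ (PA N)}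
    (h : ∀ f, Tx f → cf (wx N m P f) 1 = 0) (f : MF N (2 * m + 1)) (hf : Tx f) :
    wx N m P f = 0 := by
  refine zero_of_coeff (by omega) _ fun n hn => ?_
  induction n using Nat.strong_induction_on generalizing f with
  | _ n ih =>
    rcases hn.eq_or_lt with rfl | h1
    · exact h f hf
    obtain ⟨p, hp, n, rfl⟩ := Nat.exists_prime_and_dvd h1.ne'
    have h3 : 0 < n := Nat.pos_of_mul_pos_left hn
    have h4 : n < p * n := lt_mul_left h3 hp.one_lt
    by_cases hN : p ∣ N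
    · rw [← coeff_Up hp hN, wx_comm (Up_Tl hp hN _)]
      exact ih n h4 _ (fun ℓ => by rw [← Up_dia, hf, map_smul]) h3
    · let ℓ : PA N := ⟨p, hp, fun e => hN (by
        rcases (Nat.Prime.dvd_mul hp).1 e with e | e
        · exact e.trans h2
        · exact e)⟩
      have h5 := (hf.wx P).cf_tl ℓ n
      rw [wx_comm (Tl_Tl _ ℓ), show cf _ n = 0 from ih n h4 _ (hf.tl ℓ) h3] at h5
      split_ifs at h5 with h6
      · rw [show cf _ (n / p) = 0 from ih _ ((Nat.div_le_self _ _).trans_lt h4) _ hf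
          (Nat.div_pos (Nat.le_of_dvd h3 h6) hp.pos), mul_zero, mul_zero, add_zero] at h5
        exact h5.symm
      · exact ((add_zero _).symm.trans h5.symm)

theorem ex_wordx {R : Type*} [CommRing R] {x : ℕ → R} (hx : Ewx N x) (n : ℕ) :
    ∃ τ : FreeAlgebra ℤ (PA N), (∀ m f, Tx f → cf (wx N m τ f) 1 = nx N m n f) ∧
      FreeAlgebra.lift ℤ (fun ℓ : PA N => x ℓ.1) τ = x n := by
  induction n using Nat.strong_induction_on with
  | _ n ih =>
    by_cases hn : n.Coprime (2 * N)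
    swap
    · exact ⟨0, fun m f _ => by simp [nx, hn, ← cfL_apply], by simp [hx.dep n hn]⟩
    by_cases h1 : n = 1
    · exact ⟨1, fun m f _ => by simp [nx, h1, cfL_apply], by simp [h1, hx.one]⟩
    obtain ⟨p, hp, n, rfl⟩ := Nat.exists_prime_and_dvd h1
    have h3 : 0 < n := Nat.pos_of_ne_zero (by
      rintro rfl
      have := Nat.coprime_zero_left _ |>.1 hn
      omega)
    have h4 : n < p * n := lt_mul_left h3 hp.one_lt
    obtain ⟨ℓ, rfl⟩ : ∃ ℓ : PA N, ℓ.1 = p :=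
      ⟨⟨p, hp, (Nat.Prime.coprime_iff_not_dvd hp).1 hn.coprime_mul_right⟩, rfl⟩
    have p0 : (ℓ.1 : ℂ) ≠ 0 := Nat.cast_ne_zero.2 hp.ne_zero
    have n0 : (n : ℂ) ≠ 0 := Nat.cast_ne_zero.2 h3.ne'
    obtain ⟨τ, a1, a2⟩ := ih n h4
    obtain ⟨τ', b1, b2⟩ := ih (n / ℓ.1) ((Nat.div_le_self _ _).trans_lt h4)
    refine ⟨τ * FreeAlgebra.ι ℤ ℓ - if ℓ.1 ∣ n then k3 ℓ.1 • τ' else 0, fun m f hf => ?_, ?_⟩
    · have e1 : wx N m (τ * FreeAlgebra.ι ℤ ℓ) f = ((ℓ.1 : ℂ) ^ m)⁻¹ • wx N m τ (Tl _ ℓ f) := by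
        simp [wx]
      have e2 := a1 m _ (hf.tl ℓ)
      rw [nx, if_pos hn.coprime_mul_left, LinearMap.smul_apply, cfL_apply, hf.cf_tl,
        ← cfL_apply] at e2
      rw [← cfL_apply, map_sub, LinearMap.sub_apply, map_sub, e1, map_smul, e2, nx, if_pos hn,
        LinearMap.smul_apply, cfL_apply]
      split_ifs with h6
      · obtain ⟨n, rfl⟩ := h6
        have e3 := b1 m f hf
        rw [Nat.mul_div_cancel_left _ hp.pos] at e3 ⊢
        rw [nx, if_pos hn.coprime_mul_left.coprime_mul_left, LinearMap.smul_apply,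
          cfL_apply] at e3
        rw [map_zsmul, LinearMap.smul_apply, ← cfL_apply 1, map_zsmul, cfL_apply 1, e3,
          show ((2 * m + 1 : ℕ) : ℤ) - 1 = (2 * m : ℕ) by push_cast; ring, zpow_natCast,
          cfL_apply]
        have : (n : ℂ) ≠ 0 := fun e => n0 (by simp [e])
        simp only [smul_eq_mul, zsmul_eq_mul]
        push_cast
        field_simp
        ring
      · rw [← cfL_apply 1, cfL_apply (_ * _)]
        simp [mul_pow, mul_comm, mul_left_comm, mul_assoc]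
    · have := hx.hecke ℓ n
      rw [map_sub, map_mul, a2, FreeAlgebra.lift_ι_apply, mul_comm, ← this]
      split_ifs <;> simp [b2]

/-- relations which are only tested on forms with character `k3` -/
theorem rel_of_uax (h2 : 2 ∣ N) {R : Type*} [CommRing R] {x : ℕ → R} (hx : Ewx N x) {B j : ℕ}
    (h : UAx N x B j) (ι : Type) [Fintype ι] (a : ι → ℤ) (p : ι → ℕ)
    (hr : ∀ m ≤ B, ∀ f : MF N (2 * m + 1), Tx f → ∑ i, (a i : ℂ) * nx N m (p i) f = 0) :
    2 ^ j ∣ ∑ i, (a i : R) * x (p i) := by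
  choose τ t1 t2 using ex_wordx hx
  have := h (∑ i, a i • τ (p i)) fun m hm => wx_kill h2 fun f hf => by
    rw [← hr m hm f hf, ← cfL_apply, map_sum, LinearMap.sum_apply, map_sum]
    refine Finset.sum_congr rfl fun i _ => ?_
    rw [map_zsmul, LinearMap.smul_apply, map_zsmul, cfL_apply, t1 _ _ _ hf, zsmul_eq_mul]
  simpa [t2] using this

/-- the forms with character `k3` -/
def TX (N k : ℕ) [NeZero N] : Submodule ℂ (MF N k) where
  carrier := {f | Tx f}
  zero_mem' _ := by simp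
  add_mem' hf hg l := by rw [map_add, hf, hg, smul_add]
  smul_mem' c f hf l := by rw [map_smul, hf, smul_comm]

/-- the Hecke operators on them -/
def tlx (k : ℕ) (l : PA N) : Module.End ℂ (TX N k) := (Tl k l).restrict fun _ h => Tx.tl h l

/-- normalised operators -/
def ntx (m : ℕ) (l : PA N) : Module.End ℂ (TX N (2 * m + 1)) := ((l.1 : ℂ) ^ m)⁻¹ • tlx _ l

theorem wx_nt (m : ℕ) (P : FreeAlgebra ℤ (PA N)) (f : TX N (2 * m + 1)) :
    wx N m P f = FreeAlgebra.lift ℤ (ntx m) P f :=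
  lift_int (TX N _).subtype (fun _ _ => rfl) P f

/-- words of level `M` come from words of level `N`, the generators being scaled by `c` -/
def Trx (N M : ℕ) [NeZero N] [NeZero M] (c : ℕ → ℤ) : Prop :=
  ∀ P : FreeAlgebra ℤ (PA M), ∃ Q : FreeAlgebra ℤ (PA N),
    (∀ m, (∀ f, Tx f → wx M m P f = 0) → ∀ f, Tx f → wx N m Q f = 0) ∧
    ∀ (R : Type) [Ring R] [Algebra ℤ R] (a b : ℕ → R), (∀ l : PA M, b l.1 = c l.1 * a l.1) →
      FreeAlgebra.lift ℤ (fun l : PA M => b l.1) P = FreeAlgebra.lift ℤ (fun l : PA N => a l.1) Q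

/-- transfer along intertwining maps -/
theorem trx {M : ℕ} [NeZero M] (d : PA M → PA N) (hd : ∀ l, (d l).1 = l.1) (c : ℕ → ℤ)
    (φ : ∀ m, MF N (2 * m + 1) →ₗ[ℂ] MF M (2 * m + 1)) (h1 : ∀ m f, Tx f → Tx (φ m f))
    (h2 : ∀ m f l, Tx f → Tl _ l (φ m f) = c l.1 • φ m (Tl _ (d l) f))
    (h3 : ∀ m P, (∀ f, Tx f → φ m (wx N m P f) = 0) → ∀ f, Tx f → wx N m P f = 0) :
    Trx N M c := by
  refine fun P => ⟨FreeAlgebra.lift ℤ (fun l => c l.1 • FreeAlgebra.ι ℤ (d l)) P,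
    fun m hP => h3 m _ fun f hf => ?_, fun R _ _ a b hab => ?_⟩
  · rw [← hP _ (h1 m f hf), wx_nt m _ ⟨f, hf⟩]
    refine Eq.trans ?_ (lift_int (φ m ∘ₗ (TX N _).subtype) (x := fun l => c l.1 • ntx m (d l))
      (fun l f => ?_) P ⟨f, hf⟩).symm
    · have := P004M.A6.map_lift (FreeAlgebra.lift ℤ (ntx (N := N) m)).toRingHom
        (fun l => c l.1 • FreeAlgebra.ι ℤ (d l)) P
      simp only [AlgHom.toRingHom_eq_coe, RingHom.coe_coe, map_zsmul,
        FreeAlgebra.lift_ι_apply] at this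
      rw [this]
      rfl
    · rw [LinearMap.smul_apply, LinearMap.smul_apply, map_zsmul, ntx, LinearMap.smul_apply,
        map_smul, hd, smul_comm]
      exact congrArg _ (h2 m f.1 l f.2)
  · have e := P004M.A6.map_lift (FreeAlgebra.lift ℤ fun l : PA N => a l.1).toRingHom
      (fun l => c l.1 • FreeAlgebra.ι ℤ (d l)) P
    simp only [AlgHom.toRingHom_eq_coe, RingHom.coe_coe, map_zsmul, FreeAlgebra.lift_ι_apply,
      hd] at e
    rw [e]
    simp only [hab, zsmul_eq_mul]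

theorem Tx.incl {i : ℕ} (M : ℕ) [NeZero M] {f : MF N (i + 1)} (hf : Tx f) :
    Tx (incl N M _ f) := fun l => by
  have := gHk_incl (Sum.inr l) i f
  refine smul_right_injective _ (pow_ne_zero i
    (Nat.cast_ne_zero.2 l.2.1.ne_zero : (l.1 : ℂ) ≠ 0)) (this.trans ?_)
  exact (map_smul (H567.Tw.incl N M _) _ _).trans
    (congrArg _ ((congrArg _ (hf _)).trans (map_smul (H567.Tw.incl N M _) _ _)))

theorem trx_raise (N M : ℕ) [NeZero N] [NeZero M] : Trx N (N * M) fun _ => 1 :=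
  trx dec1 (fun _ => rfl) (fun _ => 1) (fun _ => incl N M _) (fun m f hf => hf.incl M)
    (fun m f l _ => (gHk_incl (Sum.inl l) (2 * m) f).trans (one_smul _ _).symm)
    fun m P hP f hf => incl_inj N M _ ((hP f hf).trans (map_zero _).symm)

theorem uax_tr {M : ℕ} [NeZero M] {c : ℕ → ℤ} (t : Trx N M c) {R : Type} [CommRing R]
    {a b : ℕ → R} (hab : ∀ l : PA M, b l.1 = c l.1 * a l.1) {B j : ℕ} (h : UAx N a B j) :
    UAx M b B j := fun P hP => by
  obtain ⟨Q, q1, q2⟩ := t P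
  rw [q2 R a b hab]
  exact h Q fun m hm => q1 m (hP m hm)

theorem uax_raise (M : ℕ) [NeZero M] {R : Type} [CommRing R] {a b : ℕ → R}
    (hab : ∀ l : PA (N * M), b l.1 = a l.1) {B j : ℕ} (h : UAx N a B j) : UAx (N * M) b B j :=
  uax_tr (trx_raise N M) (by simpa using hab) h

end Vale.Agent.P014Y.W1
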