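import Vale.Agent.P004M.D.HGen

/-!
# P014Y, block W1: the second coordinate of the image of the generic point
-/

set_option autoImplicit false
set_option linter.all false

open Polynomial
open scoped Classical

noncomputable section

namespace Vale.Agent.P014Y.W1.Geo

open Vale.Agent.P004M.D Hu

section val

variable {L : Type} [Field L] {Γ : Type} [LinearOrderedCommGroupWithZero Γ] (v : Valuation L Γ)
  (h2 : (2 : L) = 0)
include h2

theorem add_y {P Q : Pt (0 : L)} (h0 : P ≠ 0) {a : Γ} (a1 : 1 ≤ a) (hP : v (xc P) ≤ a)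
    (hQ : a ^ 4 < v (xc Q)) : v (yc (P + Q) - yc P) < 1 := by
  have a4 : a ≤ a ^ 4 := le_self_pow₀ a1 four_ne_zero
  have q1 : 1 < v (xc Q) := (a1.trans a4).trans_lt hQ
  rcases p0_cases P with rfl | ⟨x, y, e, rfl⟩
  · exact absurd rfl h0
  rcases p0_cases Q with rfl | ⟨x', y', e', rfl⟩
  · exact absurd rfl (ne_of_val v q1)
  rw [xc_p0 h2 e] at hP
  rw [xc_p0 h2 e'] at hQ q1
  have lt : v x < v x' := (hP.trans a4).trans_lt hQ
  have hn : ¬ (x = x' ∧ y = y' + 1) := fun t => lt.ne (by rw [t.1])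
  obtain ⟨l, -, l2⟩ := ex_slope h2 e e' hn
  obtain ⟨e3, a3⟩ := p0_add h2 e e' hn (fun t => absurd (by rw [t]) lt.ne) l2
  rw [a3, yc_p0 h2 e3, yc_p0 h2 e]
  have k : (l * (l ^ 2 + x') + y + 1 - y) * (x + x') ^ 3 =
      (y + y') * (1 + x ^ 2 * (x + x')) + x * x' * (x + x') := by grind
  have vx := v.map_add_eq_of_lt_right lt
  have p' : 0 < v x' := zero_lt_one.trans q1
  have y2 : v y ^ 2 ≤ v x' ^ 3 := by
    rcases le_or_gt (v x) 1 with t | t
    · exact (pow_le_one₀ zero_le (vy_le v e t)).trans (one_le_pow₀ q1.le)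
    · rw [vy_eq v e t]
      exact pow_le_pow_left₀ zero_le lt.le 3
  have y3 : v (y + y') ^ 2 ≤ v x' ^ 3 := by
    rcases v.map_add' y y' with t | t
    · exact (pow_le_pow_left₀ zero_le t 2).trans y2
    · exact (pow_le_pow_left₀ zero_le t 2).trans (vy_eq v e' q1).le
  have y4 : v (1 + x ^ 2 * (x + x')) ≤ a ^ 2 * v x' := v.map_add_le
    (by rw [map_one]; exact one_le_mul (one_le_pow₀ a1) q1.le)
    (by rw [map_mul, map_pow, vx]; exact mul_le_mul_left (pow_le_pow_left₀ zero_le hP 2) _)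
  refine lt_of_mul_lt_mul_right (a := v x' ^ 3) ?_ zero_le
  rw [one_mul]
  nth_rewrite 1 [← vx]
  rw [← map_pow, ← map_mul, k]
  refine v.map_add_lt (lt_of_pow_lt_pow_left₀ 2 zero_le ?_) ?_
  · rw [map_mul, mul_pow]
    refine (mul_le_mul' y3 (pow_le_pow_left₀ zero_le y4 2)).trans_lt ?_
    rw [mul_pow, ← pow_mul, mul_left_comm, ← pow_add, ← pow_mul, show 3 * 2 = (3 + 2) + 1 from rfl,
      pow_succ' _ (3 + 2)]
    exact mul_lt_mul_of_pos_right hQ (pow_pos p' _)
  · rw [map_mul, map_mul, vx, mul_assoc, ← pow_two, pow_succ' _ 2]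
    exact mul_lt_mul_of_pos_right lt (pow_pos p' _)

omit v

theorem yc_neg {P : Pt (0 : L)} (h : P ≠ 0) : yc (-P) = yc P + 1 := by
  rcases p0_cases P with rfl | ⟨x, y, e, rfl⟩
  · exact absurd rfl h
  · rw [p0_neg h2 e, yc_p0 h2 e, yc_p0 h2 (eq_neg0 h2 e)]

theorem yc_mp {L' : Type} [Field L'] (σ : L →+* L') (P : Pt (0 : L)) : yc (mp σ P) = σ (yc P) := by
  rcases p0_cases P with rfl | ⟨x, y, e, rfl⟩
  · rw [map_zero]
    exact (map_zero σ).symm
  · rw [mp_p0, yc_p0 h2 e, yc_p0 (by rw [← map_ofNat σ 2, h2, map_zero]) (eq_map σ e)]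

end val

variable {k : Type} [Field k] [IsAlgClosed k] {w : k}

/-- the formula of Velu for the second coordinate holds at many points -/
def Vy (h : Cw w) (g : Hu) (β : k) : Prop := ∃ (C : Finset (Pt (0 : k))) (α : k),
  (∀ P, P ∈ C ↔ h.act g P = 0) ∧ Odd C.card ∧ (xc '' {P | P ∉ C ∧ yc (h.act g P) =
    ∑ a ∈ C, (yc (P - a) - yc (-a)) + α * ∑ a ∈ C, (xc (P - a) - xc (-a)) + β}).Infinite

variable {F : Type} [Field F] {ι : k →+* F} {x y : F} {B : ValuationSubring F}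

theorem near_y (G : Gn ι x y B) (h : Cw w) {P : Pt (0 : F)} (hP : 1 < B.valuation (xc P))
    {c : Pt (0 : k)} (hc : c ≠ 0) : B.valuation (yc (P + mp ι c) - ι (yc c)) < 1 := by
  rw [← yc_mp h.two ι, add_comm]
  exact add_y _ (h.map ι).two (mp_ne ι hc) le_rfl (by rw [xc_mp ι h.two]; exact G.hv _)
    (by rwa [one_pow])

theorem Vy.gen {h : Cw w} {g : Hu} {β : k} (s : Vy h g β) (hg : Odd (nm g)) (G : Gn ι x y B) :
    ∃ α, B.valuation (yc ((h.map ι).act g (p0 x y)) - (y + ι α * x + ι β)) < 1 := by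
  obtain ⟨C, α, hC, oC, inf⟩ := s
  have h2 := (h.map ι).two
  have bq := G.bq h
  have g1 := (h.map ι).val_act _ hg bq
  obtain ⟨Z, hZ⟩ : ∃ Z : Pt (0 : F) → F, ∀ P, Z P = yc ((h.map ι).act g P) -
    (∑ a ∈ C, (yc (P - mp ι a) - ι (yc (-a))) + ι α * ∑ a ∈ C, (xc (P - mp ι a) - ι (xc (-a))) +
      ι β) := ⟨_, fun _ => rfl⟩
  have Zm : ∀ τ : F →+* F, (∀ a, τ (ι a) = ι a) → (∀ a, mp τ (mp ι a) = mp ι a) → ∀ P,
      τ (Z P) = Z (mp τ P) := fun τ t1 t2 P => by
    rw [hZ, hZ]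
    simp only [map_sub, map_add, map_mul, map_sum, t1, ← yc_mp h2 τ, ← xc_mp τ h2, t2,
      mp_act τ (h.map ι) (h.map ι) (t1 w)]
  have n0 : ∀ a, p0 x y + mp ι a ≠ 0 := fun a e => by
    rw [eq_neg_of_add_eq_zero_left e, xc_neg, xc_mp ι h.two] at bq
    exact absurd (G.hv _) (not_le.2 bq)
  have nC : ∀ a, a ∈ C ↔ -a ∈ C := fun a => by simp [hC]
  have z0 : Z (p0 x y) = 0 := by
    obtain ⟨σ, s1, s2, s3, -, -, s6⟩ := G.even h
    obtain ⟨p, q, -, q0, e⟩ := s6 (Z (p0 x y)) (by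
      have k1 : ∑ a ∈ C, yc (-p0 x y - mp ι a) = ∑ a ∈ C, yc (p0 x y - mp ι a) + 1 := by
        obtain ⟨m, hm⟩ := oC
        rw [Finset.sum_equiv (Equiv.neg _) (t := C) (g := fun a => yc (p0 x y - mp ι a) + 1) nC
          fun a _ => by
            rw [Equiv.neg_apply, map_neg, sub_neg_eq_add, ← yc_neg h2 (n0 a), neg_add'],
          Finset.sum_add_distrib, Finset.sum_const, hm, nsmul_one]
        push_cast
        linear_combination (m : F) * h2
      have k2 : ∑ a ∈ C, xc (-p0 x y - mp ι a) = ∑ a ∈ C, xc (p0 x y - mp ι a) :=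
        Finset.sum_equiv (Equiv.neg _) nC fun a _ => by
          rw [Equiv.neg_apply, map_neg, sub_neg_eq_add, ← neg_add', xc_neg]
      rw [Zm σ s1 s3, s2, hZ, hZ, map_neg, yc_neg h2 (ne_of_val _ (g1 ▸ bq))]
      simp only [Finset.sum_sub_distrib, k1, k2]
      ring)
    by_contra z0
    have p0' : p ≠ 0 := fun t => by
      rw [t, eval₂_zero, mul_eq_zero] at e
      exact e.elim z0 (tr_of (fun b t => absurd (G.hv b) (not_le.2 (t ▸ G.big))) q q0)
    obtain ⟨_, ⟨c, ⟨c1, c2⟩, rfl⟩, c3⟩ := (inf.diff (finite_setOf_isRoot p0')).nonempty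
    have c0 : c ≠ 0 := fun t => c1 ((hC c).2 (by rw [t, map_zero]))
    obtain ⟨τ, t1, t2, t3, t4, -⟩ := G.move h bq c
    have n := G.near h bq c0
    have e1 := congrArg (fun s => B.valuation (τ s)) e
    simp only [map_mul, G.map_ev t1, t2] at e1
    rw [val_unit _ G.hv n c3] at e1
    refine absurd e1 ((mul_le_of_le_one_right zero_le (val_int _ G.hv n q)).trans_lt ?_).ne
    have n2 := near_y G h (P := (h.map ι).act g (p0 x y)) (g1 ▸ bq) (mt (hC c).2 c1)
    rw [mp_act ι h (h.map ι) rfl, ← map_add, c2] at n2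
    rw [Zm τ t1 t4, t3, hZ, show ∀ s : F, s - (∑ a ∈ C, (yc (p0 x y + mp ι c - mp ι a) - ι (yc (-a))) +
        ι α * ∑ a ∈ C, (xc (p0 x y + mp ι c - mp ι a) - ι (xc (-a))) + ι β) =
        (s - ι (∑ a ∈ C, (yc (c - a) - yc (-a)) + α * ∑ a ∈ C, (xc (c - a) - xc (-a)) + β)) -
        (∑ a ∈ C, (yc (p0 x y + mp ι (c - a)) - ι (yc (c - a))) +
          ι α * ∑ a ∈ C, (xc (p0 x y + mp ι (c - a)) - ι (xc (c - a)))) from fun s => by
      simp only [map_sub, map_mul, map_add, map_sum, Finset.sum_sub_distrib, add_sub_assoc]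
      ring]
    have ca : ∀ a ∈ C, c - a ≠ 0 := fun a ha => sub_ne_zero.2 fun t => c1 (t ▸ ha)
    refine B.valuation.map_sub_lt n2 (B.valuation.map_add_lt
      (B.valuation.map_sum_lt one_ne_zero fun a ha => near_y G h bq (ca a ha)) ?_)
    rw [map_mul]
    exact (mul_le_of_le_one_left zero_le (G.hv _)).trans_lt
      (B.valuation.map_sum_lt one_ne_zero fun a ha => G.near h bq (ca a ha))
  have m0 : (0 : Pt (0 : k)) ∈ C := (hC 0).2 (map_zero _)
  rw [hZ, sub_eq_zero, ← Finset.add_sum_erase C _ m0, ← Finset.add_sum_erase C _ m0, map_zero,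
    sub_zero, neg_zero, G.xq h, yc_p0 h2 G.eqn, xc_zero, show yc (0 : Pt (0 : k)) = 0 from rfl,
    map_zero, sub_zero, sub_zero] at z0
  refine ⟨α, ?_⟩
  rw [z0, show ∀ s t : F, y + s + ι α * (x + t) + ι β - (y + ι α * x + ι β) = s + ι α * t from
    fun s t => by ring]
  refine B.valuation.map_add_lt (B.valuation.map_sum_lt one_ne_zero fun a ha => ?_) ?_
  · rw [sub_eq_add_neg (p0 x y), ← map_neg]
    exact near_y G h bq (neg_ne_zero.2 (Finset.mem_erase.1 ha).1)
  rw [map_mul]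
  refine (mul_le_of_le_one_left zero_le (G.hv _)).trans_lt
    (B.valuation.map_sum_lt one_ne_zero fun a ha => ?_)
  rw [sub_eq_add_neg (p0 x y), ← map_neg]
  exact G.near h bq (neg_ne_zero.2 (Finset.mem_erase.1 ha).1)

/-- **the constant term depends on the quaternion modulo four only** -/
theorem Vy.eq {h : Cw w} {g g' δ : Hu} {β β' : k} (s : Vy h g β) (s' : Vy h g' β')
    (hg : Odd (nm g)) (hg' : Odd (nm g')) (e : g - g' = 2 ^ 2 * δ) : β = β' := by
  obtain ⟨F, _, ι, x, y, B, G⟩ := ex_gn h.two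
  obtain ⟨α, a⟩ := s.gen hg G
  obtain ⟨α', a'⟩ := s'.gen hg' G
  have h2 := (h.map ι).two
  have bq := G.bq h
  have g1 := (h.map ι).val_act _ hg' bq
  have n : B.valuation (yc ((h.map ι).act g (p0 x y)) - yc ((h.map ι).act g' (p0 x y))) < 1 := by
    have e1 : (h.map ι).act (2 ^ 2 * δ) (p0 x y) = 2 ^ 2 • (h.map ι).act δ (p0 x y) := by
      rw [Cw.act_mul, ← (h.map ι).act_nat, Nat.cast_pow, Nat.cast_ofNat]
    rw [sub_eq_iff_eq_add'.1 e, Cw.act_add, e1]
    rcases (h.map ι).val_ge B.valuation δ bq with t | t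
    · simp [t]
    refine add_y _ h2 (ne_of_val _ (g1 ▸ bq)) bq.le g1.le ?_
    rw [xc_pow h2, map_pow]
    exact (pow_lt_pow_right₀ bq (by norm_num)).trans_le (pow_le_pow_left₀ zero_le t _)
  have k1 : B.valuation (ι (α - α') * x + ι (β - β')) < 1 := by
    have := B.valuation.map_add_lt (B.valuation.map_sub_lt n a) a'
    rwa [show ∀ s t : F, s - t - (s - (y + ι α * x + ι β)) + (t - (y + ι α' * x + ι β')) =
      ι (α - α') * x + ι (β - β') from fun s t => by rw [map_sub, map_sub]; ring] at this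
  have k2 : α - α' = 0 := by
    by_contra t
    have k3 : B.valuation (ι (α - α') * x) = B.valuation x := by
      rw [map_mul, val_one _ G.hv t, one_mul]
    rw [Valuation.map_add_eq_of_lt_left _ (by rw [k3]; exact (G.hv _).trans_lt G.big), k3] at k1
    exact absurd G.big k1.not_gt
  rw [k2, map_zero, zero_mul, zero_add, map_sub] at k1
  exact eq_of_val _ G.hv k1

end Vale.Agent.P014Y.W1.Geo
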