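import Vale.Agent.P014Y.W1.Hk2

/-!
# P014Y, block W1, row HK: the eigenfunctions in odd weight
-/

set_option autoImplicit false
set_option linter.all false

open UpperHalfPlane CongruenceSubgroup
open scoped MatrixGroups ModularForm Real Classical

noncomputable section

namespace Vale.Agent.P014Y.W1.Hk

open Vale.Agent.P022 Vale.Agent.P022.H218.L3 Vale.Agent.P022K.UC Vale.Agent.P027H
open Vale.Agent.P004M.D Vale.Agent.P004M.D.Hk Hu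

/-- an integral character modulo `M` -/
structure Ch (A : ValuationSubring ℂ) (M : ℕ) (χ : ℤ → ℂ) : Prop where
  one : ∀ z : ℤ, χ (1 + z * M) = 1
  mul : ∀ a b, χ (a * b) = χ a * χ b
  mem : ∀ a, χ a ∈ A

/-- an eigenfunction modulo `2 ^ j` -/
structure Ec (A : ValuationSubring ℂ) (M j : ℕ) (χ : ℤ → ℂ) (a : ℕ → ℂ) (Ψ : Hu → ℂ) : Prop where
  per : ∃ n, ∀ x y, Cp M x → Cn A j (Ψ (x + (2 ^ n * M : ℕ) • y)) (Ψ x)
  un : ∀ u x, nm u = 1 → Cp M x → Cn A j (Ψ (u * x)) (Ψ x)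
  sc : ∀ (d : ℤ) x, IsCoprime d (2 * M) → Cp M x → Cn A j (d * Ψ (d • x)) (χ d * Ψ x)
  eg : ∀ l : ℕ, l.Prime → ¬ l ∣ 2 * M → ∀ x, Cp M x → Cn A j (∑ α ∈ Rp l, Ψ (α * x)) (a l * Ψ x)

variable {A : ValuationSubring ℂ} {Λ : Submodule ℤ ℂ} {t : ℂ} (h : Ss A Λ t)
  (ρ : Hu →+* AddMonoid.End (Pt (0 : kk A))) (M : ℕ) (ω₀ : ℂ) {χ : ℤ → ℂ}

theorem cn_symm {i : ℕ} {x y : ℂ} (e : Cn A i x y) : Cn A i y x :=
  ⟨e.r, e.l, (A.valuation.map_sub_swap _ _).trans_le e.le⟩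

theorem cn_trans {i : ℕ} {x y z : ℂ} (e : Cn A i x y) (e' : Cn A i y z) : Cn A i x z :=
  ⟨e.l, e'.r, sub_add_sub_cancel x y z ▸ A.valuation.map_add_le e.le e'.le⟩

theorem cn_sum {i : ℕ} {ι : Type*} {S : Finset ι} {x y : ι → ℂ} (e : ∀ a ∈ S, Cn A i (x a) (y a)) :
    Cn A i (∑ a ∈ S, x a) (∑ a ∈ S, y a) :=
  ⟨sum_mem fun a k => (e a k).l, sum_mem fun a k => (e a k).r, by
    rw [← Finset.sum_sub_distrib]
    exact A.valuation.map_sum_le fun a k => (e a k).le⟩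

/-- bases adapted to the level structure -/
structure Bx (g : Hu) (p : ℂ × ℍ × ℤ) : Prop where
  bs : Bs (Kr h ρ g) p.1 p.2.1
  cop : IsCoprime p.2.2 M
  eq : ρ g (h.rd (ω₀ / M)) = p.2.2 • ρ g (h.rd (p.1 / M))

/-- the normalised value -/
def nx (χ : ℤ → ℂ) (m : ℕ) (H : ℍ → ℂ) (g : Hu) (p : ℂ × ℍ × ℤ) : ℂ :=
  ((nm g : ℤ) : ℂ)⁻¹ ^ (m + 1) * (χ p.2.2 * vl (2 * m + 1) H p.1 p.2.1)

variable {h ρ M ω₀}

theorem Bx.up {g α : Hu} {ω ω' : ℂ} {τ τ' : ℍ} {u : ℤ} (b : Bx h ρ M ω₀ g (ω, τ, u))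
    (b' : Bs (Kr h ρ (α * g)) ω' τ') {e : ℤ} (he : IsCoprime e M) (k : ω = e * ω') :
    Bx h ρ M ω₀ (α * g) (ω', τ', u * e) := ⟨b', b.cop.mul_left he, by
  have := b.eq
  dsimp only at this ⊢
  rw [rho_mul, this, k, mul_div_assoc, h.rd_int, map_zsmul, map_zsmul, map_zsmul, ← rho_mul,
    mul_smul]⟩

theorem Bx.step {g α : Hu} {ω : ℂ} {τ : ℍ} {u : ℤ} (b : Bx h ρ M ω₀ g (ω, τ, u)) {l : ℕ}
    (hl : l.Prime) (k : ¬ l ∣ 2 * M) {o : Option (Fin l)}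
    (b' : Bs (Kr h ρ (α * g)) (wo l ω o) (tn l hl.pos τ o)) :
    Bx h ρ M ω₀ (α * g) (wo l ω o, tn l hl.pos τ o, u * eo l o) := by
  cases o
  · exact b.up b' (cp_prime hl k).2.of_mul_right_right
      (mul_div_cancel₀ _ (Nat.cast_ne_zero.2 hl.ne_zero)).symm
  · exact b.up b' isCoprime_one_left (by simp [wo, eo])

theorem tor0 (hM : M ≠ 0) {g : Hu} {ω : ℂ} {τ : ℍ} (b : Bs (Kr h ρ g) ω τ) :
    (M : ℤ) • ρ g (h.rd (ω / M)) = 0 := by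
  rw [← map_zsmul, ← h.rd_int, Int.cast_natCast, mul_div_cancel₀ _ (Nat.cast_ne_zero.2 hM)]
  exact (mem_Kr.1 (bs_mem b)).2

theorem ex_bx (hM : M ≠ 0) {τ₀ : ℍ} (b : Bs Λ ω₀ τ₀) (g : Hu) (hg : Cp M g) :
    ∃ p, Bx h ρ M ω₀ g p := by
  obtain ⟨ω, τ, b1, u, ⟨x, z, u1⟩, u2⟩ := ex_bz (h := h) (ρ := ρ) hM b g hg
  have P0 : (M : ℤ) • ρ g (h.rd (ω₀ / M)) = 0 := by
    rw [← map_zsmul, ← h.rd_int, Int.cast_natCast, mul_div_cancel₀ _ (Nat.cast_ne_zero.2 hM),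
      h.rd_mem (bs_mem b), map_zero]
  refine ⟨(ω, τ, x), b1, ⟨u, z, by linear_combination u1⟩, ?_⟩
  dsimp only
  rw [u2, ← mul_smul, show x * u = 1 - z * M by linear_combination u1, sub_smul, mul_smul, P0,
    smul_zero, sub_zero, one_smul]

/-- the data of the construction -/
structure Dat (h : Ss A Λ t) (ρ : Hu →+* AddMonoid.End (Pt (0 : kk A))) (M : ℕ) (ω₀ : ℂ)
    (χ : ℤ → ℂ) (m j : ℕ) (H : ℍ → ℂ) : Prop where
  odd : Odd M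
  ch : Ch A M χ
  ex : ∀ g, Cp M g → ∃ p, Bx h ρ M ω₀ g p
  int : ∀ (f : ℍ → ℂ) d g p, Mx M (2 * m + 1) χ f → Sm d f → (∀ n, d n ∈ A) → Cp M g →
    Bs (Kr h ρ g) p.1 p.2.1 → nx χ m f g p ∈ A
  cont : ∃ n, ∀ g y p p', Cp M g → Bx h ρ M ω₀ g p →
    Bx h ρ M ω₀ (g + (2 ^ (n + 1) * M : ℕ) • y) p' →
    Cn A j (nx χ m H g p) (nx χ m H (g + (2 ^ (n + 1) * M : ℕ) • y) p')

theorem dat (hA : Ok A) (hM : Odd M) (ch : Ch A M χ) {τ₀ : ℍ} (b : Bs Λ ω₀ τ₀) {m j i : ℕ}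
    (hI : ∀ f d, Mx M (2 * m + 1) χ f → Sm d f → (∀ n, d n ∈ A) →
      ∀ (Λ : Submodule ℤ ℂ) (t ω : ℂ) (τ : ℍ), Ss A Λ t → Bs Λ ω τ → vl (2 * m + 1) f ω τ ∈ A)
    {H : ℍ → ℂ} {d : ℕ → ℂ} (hH : Mx M (2 * m + 1) χ H) (hs : Sm d H) (hd : ∀ n, d n ∈ A)
    {c s : Hu → ℂ} {L : Hu → Submodule ℤ ℂ}
    (I : ∀ g, Odd (nm g) → Iso h ρ g (c g) (s g) (L g))
    (R : ∀ g (k : Odd (nm g)) z, OT Λ z → (I g k).ss.rd (c g * z) = ρ g (h.rd z))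
    (I' : ∀ i, ∃ n, ∀ g g' β : Hu, Odd (nm g) → Odd (nm g') → g - g' = 2 ^ n * β →
      A.valuation (s g - s g') ≤ A.valuation 2 ^ i ∧ A.valuation (c g - c g') ≤ A.valuation 2 ^ i)
    (lip : ∀ (Λ Λ' : Submodule ℤ ℂ) (s s' ω ω' : ℂ) (τ τ' : ℍ) (h : Ss A Λ s) (h' : Ss A Λ' s')
      (u : ℤ), Bs Λ ω τ → Bs Λ' ω' τ' → A.valuation s = A.valuation t →
      A.valuation s' = A.valuation t → A.valuation (s - s') ≤ A.valuation 2 ^ i →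
      IsCoprime u (M : ℤ) → h'.rd (ω' / M) = h.rd (u * (ω / M)) →
      A.valuation (χ u * vl (2 * m + 1) H ω τ - vl (2 * m + 1) H ω' τ') ≤ A.valuation 2 ^ j) :
    Dat h ρ M ω₀ χ m j H := by
  have M0 := hM.pos.ne'
  have cA : ∀ {g c s L}, Iso h ρ g c s L → c ∈ A := fun I => (A.valuation_le_one_iff _).1 I.vc.le
  refine ⟨hM, ch, ex_bx M0 b, fun f d g p h1 h2 h3 hg b => mul_mem (pow_mem (inv_odd hA.two
    (cp_odd hg)) _) (mul_mem (ch.mem _) ?_), ?_⟩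
  · have I1 := I g (cp_odd hg)
    rw [vl_mul _ f (iso_ne I1)]
    exact mul_mem (pow_mem (cA I1) _) (hI f d h1 h2 h3 _ _ _ _ I1.ss (iso_bs I1 b))
  obtain ⟨n, hn⟩ := I' (i + j)
  refine ⟨n + j, fun g y ⟨ω, τ, u⟩ ⟨ω', τ', u'⟩ hg b1 b2 => ?_⟩
  have o1 := cp_odd hg
  have o2 := cp_odd (cp_add hg (n + j) y)
  have e1 := nm_sub g y (2 ^ (n + j + 1) * M : ℕ)
  rw [Int.cast_natCast, ← nsmul_eq_mul] at e1
  have P0 : M • h.rd (ω₀ / M) = 0 := by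
    rw [← h.rd_nat, mul_div_cancel₀ _ (Nat.cast_ne_zero.2 M0), h.rd_mem (bs_mem b)]
  have e2 : ρ (g + (2 ^ (n + j + 1) * M : ℕ) • y) (h.rd (ω₀ / M)) = ρ g (h.rd (ω₀ / M)) := by
    rw [map_add, map_nsmul]
    show _ + (2 ^ (n + j + 1) * M : ℕ) • ρ y _ = _
    rw [mul_smul, ← map_nsmul, P0, map_zero, smul_zero, add_zero]
    rfl
  obtain ⟨k1, k2⟩ := hn g _ (-(2 ^ (j + 1) * M * y)) o1 o2 (by
    rw [nsmul_eq_mul, add_assoc, pow_add 2 n]; push_cast; noncomm_ring)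
  generalize g + (2 ^ (n + j + 1) * M : ℕ) • y = g' at *
  have I1 := I g o1
  have I2 := I g' o2
  obtain ⟨b1, u1, u2⟩ := b1
  obtain ⟨b2, ⟨x, z, u3⟩, u4⟩ := b2
  dsimp only at b1 u1 u2 b2 u3 u4
  have ot {g ω τ} (b : Bs (Kr h ρ g) ω τ) : OT Λ (ω / M) := OT.of_mul hM (by
    rw [mul_div_cancel₀ _ (Nat.cast_ne_zero.2 M0)]
    exact (bs_mem b).1)
  have v1 := hI H d hH hs hd _ _ _ _ I1.ss (iso_bs I1 b1)
  have v2 := hI H d hH hs hd _ _ _ _ I2.ss (iso_bs I2 b2)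
  have k3 := lip _ _ _ _ _ _ _ _ I1.ss I2.ss (x * u) (iso_bs I1 b1) (iso_bs I2 b2) I1.vs I2.vs
    (k1.trans (pow_le_pow_right_of_le_one' hA.two.le (by omega)))
    (IsCoprime.mul_left ⟨u', z, by linear_combination u3⟩ u1) (by
      rw [I1.ss.rd_int, mul_div_assoc, mul_div_assoc, R g o1 _ (ot b1), R g' o2 _ (ot b2), mul_smul,
        ← u2, ← e2, u4, ← mul_smul, show x * u' = 1 - z * M by linear_combination u3, sub_smul,
        mul_smul, tor0 M0 b2, smul_zero, sub_zero, one_smul])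
  have k4 := (Cn.rfl (i := j) (ch.mem u')).mul ⟨mul_mem (ch.mem _) v1, v2, k3⟩
  rw [← mul_assoc, ← ch.mul, ← mul_assoc, show u' * x = 1 + -z * M by linear_combination u3, ch.mul,
    ch.one, one_mul] at k4
  rw [nx, nx, vl_mul _ H (iso_ne I1), vl_mul _ H (iso_ne I2) ω', mul_left_comm (χ _),
    mul_left_comm (χ _)]
  exact ((Cn.inv hA.two o1 o2 (Dvd.dvd.trans ⟨2 ^ (n + 1) * M, by push_cast; ring⟩ e1)).pow _).mul
    ((Cn.pow ⟨cA I1, cA I2, k2.trans (pow_le_pow_right_of_le_one' hA.two.le (by omega))⟩ _).mul k4)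

namespace Dat

variable {m j : ℕ} {H : ℍ → ℂ} (D : Dat h ρ M ω₀ χ m j H)

/-- the eigenfunction -/
def ps (g : Hu) : ℂ := if hg : Cp M g then nx χ m H g (D.ex g hg).choose else 0

theorem ps_eq {g : Hu} (hg : Cp M g) {p : ℂ × ℍ × ℤ} (b : Bx h ρ M ω₀ g p) :
    Cn A j (D.ps g) (nx χ m H g p) := by
  obtain ⟨n, hn⟩ := D.cont
  have := hn g 0 _ p hg (D.ex g hg).choose_spec
  rw [smul_zero, add_zero] at this
  rw [ps, dif_pos hg]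
  exact this b

theorem eig {d : ℕ → ℂ} (hH : Mx M (2 * m + 1) χ H) (hs : Sm d H) {a : ℕ → ℂ} (ha : ∀ l, a l ∈ A)
    (e : ∀ l : ℕ, l.Prime → ¬ l ∣ 2 * M → ∀ n : ℕ, A.valuation (d (l * n) +
      (if l ∣ n then χ l * (l : ℂ) ^ (2 * m) * d (n / l) else 0) - (l : ℂ) ^ m * a l * d n) ≤
        A.valuation 2 ^ j) : Ec A M j χ a D.ps := by
  have M0 := D.odd.pos.ne'
  haveI := NeZero.mk M0
  have c1 : χ 1 = 1 := by simpa using D.ch.one 0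
  refine ⟨?_, fun u x hu hx => ?_, fun k x hk hx => ?_, fun l hl k x hx => ?_⟩
  · obtain ⟨n, hn⟩ := D.cont
    refine ⟨n + 1, fun x y hx => ?_⟩
    obtain ⟨p, b⟩ := D.ex x hx
    obtain ⟨p', b'⟩ := D.ex _ (cp_add hx n y)
    exact cn_trans (D.ps_eq (cp_add hx n y) b') (cn_symm (cn_trans (D.ps_eq hx b)
      (hn x y _ _ hx b b')))
  · obtain ⟨⟨ω, τ, v⟩, b⟩ := D.ex x hx
    refine cn_trans (D.ps_eq (Cp.mul (hu ▸ isCoprime_one_left : IsCoprime (nm u) _) hx)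
      (b.up ((Kr_unit hu x).symm ▸ b.bs) isCoprime_one_left (by simp))) ?_
    have := cn_symm (D.ps_eq hx b)
    rwa [nx, map_mul nm, hu, one_mul, mul_one]
  · obtain ⟨⟨ω, τ, v⟩, b⟩ := D.ex x hx
    have ko : Odd k := Int.isCoprime_two_right.1 hk.of_mul_right_left
    have k0 : (k : ℂ) ≠ 0 := Int.cast_ne_zero.2 (by rintro rfl; simp at ko)
    have b' : Bs (Kr h ρ (k * x)) (ω / k) τ := ⟨div_ne_zero b.bs.ne k0, fun z => by
      rw [Kr_int ko, b.bs.mem]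
      simp only [div_mul_eq_mul_div, eq_div_iff k0, mul_comm z]⟩
    rw [zsmul_eq_mul]
    refine cn_trans ((Cn.rfl (intCast_mem A k)).mul (D.ps_eq
      (Cp.mul (by rw [Cp, nm_int]; exact hk.pow_left) hx)
      (b.up b' hk.of_mul_right_right (mul_div_cancel₀ _ k0).symm))) ?_
    convert cn_symm ((Cn.rfl (D.ch.mem k)).mul (D.ps_eq hx b)) using 1
    simp only [nx, map_mul nm, nm_int, vl_mul _ H k0 (ω / k), mul_div_cancel₀ _ k0, D.ch.mul]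
    push_cast
    rw [mul_inv, mul_pow, inv_pow, ← pow_mul, show 2 * (m + 1) = 2 * m + 2 by ring]
    field_simp
    ring
  · obtain ⟨⟨ω, τ, v⟩, b⟩ := D.ex x hx
    obtain ⟨l2, lc⟩ := cp_prime hl k
    have l0 : (l : ℂ) ≠ 0 := Nat.cast_ne_zero.2 hl.ne_zero
    obtain ⟨G, d', g0, g1, g2, g3⟩ := mx_eig (k := 2 * m) ⟨l, hl, k⟩ hH hs (e l hl k)
    have cp : ∀ α ∈ Rp l, Cp M (α * x) := fun α hα => Cp.mul (by rw [Cp, Rp_nm hα]; exact lc) hx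
    let J := Jd A j
    have s1 := sum_step b.bs hl l2 (cp_odd hx) (fun α => QuotientAddGroup.mk' J (D.ps (α * x)))
      (fun o => QuotientAddGroup.mk' J (((l : ℂ)⁻¹ * ((nm x : ℤ) : ℂ)⁻¹) ^ (m + 1) * χ v *
        (χ (eo l o) * vl (2 * m + 1) H (wo l ω o) (tn l hl.pos τ o)))) fun α hα o b' _ => by
        rw [mk_eq (D.ps_eq (cp α hα) (b.step hl k b')).le, nx, map_mul nm, Rp_nm hα, Int.cast_mul,
          mul_inv, Int.cast_natCast, D.ch.mul, mul_assoc (χ v), ← mul_assoc]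
    rw [← map_sum, ← map_sum, ← Finset.mul_sum, tFun_apply ⟨l, hl, k⟩ hH c1] at s1
    have s2 := D.ps_eq hx b
    have s3 := mul_mem (pow_mem (inv_odd h.two (n := l) (by exact_mod_cast hl.odd_of_ne_two l2)) m)
      (D.int G d' x (ω, τ, v) g0 g1 g2 hx b.bs)
    refine cn_trans (y := a l * nx χ m H x (ω, τ, v)) ⟨sum_mem fun α hα => ?_,
      mul_mem (ha l) s2.r, ?_⟩ (cn_symm ((Cn.rfl (ha l)).mul s2))
    · obtain ⟨p, b⟩ := D.ex _ (cp α hα)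
      exact (D.ps_eq (cp α hα) b).l
    · have s4 := A.valuation.map_add_le (QuotientAddGroup.eq_iff_sub_mem.1 s1)
        (val_mul_le s3 (map_pow A.valuation 2 j).le)
      convert s4 using 2
      simp only [nx, vl, g3, Int.cast_natCast, mul_pow, inv_pow]
      field_simp
      ring

end Dat

/-- the eigenfunction, from the rows -/
theorem ex_ec (hA : Ok A) (hM : Odd M) (ch : Ch A M χ) {m j : ℕ}
    (hI : ∀ f d, Mx M (2 * m + 1) χ f → Sm d f → (∀ n, d n ∈ A) →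
      ∀ (Λ : Submodule ℤ ℂ) (t ω : ℂ) (τ : ℍ), Ss A Λ t → Bs Λ ω τ → vl (2 * m + 1) f ω τ ∈ A)
    {H : ℍ → ℂ} {d : ℕ → ℂ} (hH : Mx M (2 * m + 1) χ H) (hs : Sm d H) (hd : ∀ n, d n ∈ A)
    {a : ℕ → ℂ} (ha : ∀ l, a l ∈ A)
    (e : ∀ l : ℕ, l.Prime → ¬ l ∣ 2 * M → ∀ n : ℕ, A.valuation (d (l * n) +
      (if l ∣ n then χ l * (l : ℂ) ^ (2 * m) * d (n / l) else 0) - (l : ℂ) ^ m * a l * d n) ≤
        A.valuation 2 ^ j) {τ₀ : ℍ} (b : Bs Λ ω₀ τ₀)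
    (t3 : A.valuation 2 < A.valuation (vl (2 * m + 1) H ω₀ τ₀))
    {c s : Hu → ℂ} {L : Hu → Submodule ℤ ℂ}
    (I : ∀ g, Odd (nm g) → Iso h ρ g (c g) (s g) (L g))
    (R : ∀ g (k : Odd (nm g)) z, OT Λ z → (I g k).ss.rd (c g * z) = ρ g (h.rd z))
    (I' : ∀ i, ∃ n, ∀ g g' β : Hu, Odd (nm g) → Odd (nm g') → g - g' = 2 ^ n * β →
      A.valuation (s g - s g') ≤ A.valuation 2 ^ i ∧ A.valuation (c g - c g') ≤ A.valuation 2 ^ i)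
    {i : ℕ} (lip : ∀ (Λ Λ' : Submodule ℤ ℂ) (s s' ω ω' : ℂ) (τ τ' : ℍ) (h : Ss A Λ s)
      (h' : Ss A Λ' s') (u : ℤ), Bs Λ ω τ → Bs Λ' ω' τ' → A.valuation s = A.valuation t →
      A.valuation s' = A.valuation t → A.valuation (s - s') ≤ A.valuation 2 ^ i →
      IsCoprime u (M : ℤ) → h'.rd (ω' / M) = h.rd (u * (ω / M)) →
      A.valuation (χ u * vl (2 * m + 1) H ω τ - vl (2 * m + 1) H ω' τ') ≤ A.valuation 2 ^ j)
    (hj : j ≠ 0) : ∃ Ψ, Ec A M j χ a Ψ ∧ A.valuation 2 < A.valuation (Ψ 1) := by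
  have D := dat hA hM ch b hI hH hs hd I R I' lip
  refine ⟨D.ps, D.eig hH hs ha e, lt_of_not_ge fun k => t3.not_ge ?_⟩
  have c1 : Cp M 1 := by rw [Cp, map_one]; exact isCoprime_one_left
  have := cn_symm (D.ps_eq c1 (p := (ω₀, τ₀, 1))
    ⟨Kr_one.symm ▸ b, isCoprime_one_left, (one_smul _ _).symm⟩)
  rw [nx, map_one, Int.cast_one, inv_one, one_pow, one_mul, show χ 1 = 1 by simpa using ch.one 0,
    one_mul] at this
  rw [← sub_add_cancel (vl _ H ω₀ τ₀) (D.ps 1)]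
  exact A.valuation.map_add_le (this.le.trans (pow_le_of_le_one zero_le hA.two.le hj)) k

/-- the passage to the quotient ring -/
theorem Ec.pack {j : ℕ} {a : ℕ → ℂ} {Ψ : Hu → ℂ} (E : Ec A M (j + 1) χ a Ψ) (hχ : ∀ d, χ d ∈ A)
    (ha : ∀ l, a l ∈ A) (h1 : A.valuation 2 < A.valuation (Ψ 1)) :
    ∃ (Q : Type) (_ : CommRing Q) (κ : A →+* Q) (ψ : Hu → Q), (2 : Q) ^ (j + 1) = 0 ∧
      (∃ n, ∀ x y, Cp M x → ψ (x + (2 ^ n * M : ℕ) • y) = ψ x) ∧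
      (∀ u x, nm u = 1 → Cp M x → ψ (u * x) = ψ x) ∧
      (∀ (d : ℤ) x, IsCoprime d (2 * M) → Cp M x → d * ψ (d • x) = κ ⟨χ d, hχ d⟩ * ψ x) ∧
      (∀ l : ℕ, l.Prime → ¬ l ∣ 2 * M → ∀ x, Cp M x →
        ∑ α ∈ Rp l, ψ (α * x) = κ ⟨a l, ha l⟩ * ψ x) ∧ 2 ^ j * ψ 1 ≠ 0 := by
  let κ := Ideal.Quotient.mk (Ideal.span {(2 : A) ^ (j + 1)})
  have v0 : 0 < A.valuation 2 := zero_lt_iff.2 ((map_ne_zero _).2 two_ne_zero)
  have k : ∀ x y : A, κ x = κ y ↔ A.valuation ((x : ℂ) - y) ≤ A.valuation 2 ^ (j + 1) :=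
    fun x y => by
      rw [Ideal.Quotient.eq, Ideal.mem_span_singleton, ← map_pow,
        ValuationSubring.valuation_le_iff]
      exact ⟨fun ⟨z, e⟩ => ⟨z, (mul_comm _ _).trans (congrArg A.subtype e).symm⟩,
          fun ⟨z, e⟩ => ⟨z, Subtype.ext (e.symm.trans (mul_comm _ _))⟩⟩
  obtain ⟨n, hn⟩ := E.per
  have m : ∀ x, Cp M x → Ψ x ∈ A := fun x hx => (hn x 0 hx).r
  let Φ : Hu → A := fun x => if hx : Ψ x ∈ A then ⟨Ψ x, hx⟩ else 0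
  have e : ∀ x, Ψ x ∈ A → (Φ x : ℂ) = Ψ x := fun x hx => by simp only [Φ, dif_pos hx]
  have c1 : Cp M 1 := by rw [Cp, map_one]; exact isCoprime_one_left
  refine ⟨_, inferInstance, κ, fun x => κ (Φ x), ?_, ⟨n, fun x y hx => (k _ _).2 ?_⟩,
    fun u x hu hx => (k _ _).2 ?_, fun d x hd hx => ?_, fun l hl h2 x hx => ?_, fun z => ?_⟩
  · rw [← map_ofNat κ, ← map_pow]
    exact Ideal.Quotient.eq_zero_iff_mem.2 (Ideal.mem_span_singleton_self _)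
  · rw [e _ (hn x y hx).l, e _ (m x hx)]
    exact (hn x y hx).le
  · rw [e _ (E.un u x hu hx).l, e _ (m x hx)]
    exact (E.un u x hu hx).le
  · rw [← map_intCast κ, ← map_mul, ← map_mul, k]
    push_cast
    rw [e _ (m x hx), e _ (m _ (by
      rw [zsmul_eq_mul]; exact Cp.mul (by rw [Cp, nm_int]; exact hd.pow_left) hx))]
    exact (E.sc d x hd hx).le
  · rw [← map_sum, ← map_mul, k]
    push_cast
    rw [e _ (m x hx), Finset.sum_congr rfl fun α hα => e _ (m _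
      (Cp.mul (by rw [Cp, Rp_nm hα]; exact (cp_prime hl h2).2) hx))]
    exact (E.eg l hl h2 x hx).le
  · rw [← map_ofNat κ, ← map_pow, ← map_mul, ← map_zero κ, k] at z
    push_cast at z
    rw [sub_zero, e _ (m 1 c1), map_mul, map_pow, pow_succ] at z
    exact h1.not_ge (le_of_mul_le_mul_left z (pow_pos v0 _))

end Vale.Agent.P014Y.W1.Hk
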