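import Vale.Agent.P014Y.W1.St
import Vale.Agent.P014Y.W1.Hk3

/-!
# P014Y, block W1: the row HK
-/

set_option autoImplicit false
set_option linter.all false

open UpperHalfPlane CongruenceSubgroup

noncomputable section

namespace Vale.Agent.P014Y.W1

open Vale.Agent.P004M.D Vale.Agent.P004M.D.Hu

theorem J_mem {A : ValuationSubring ℂ} (x : O) : J x ∈ A := by
  have e : (Complex.I * (√2 : ℝ) : ℂ) ^ 2 = ((-2 : ℤ) : ℂ) := by
    rw [mul_pow, Complex.I_sq, ← Complex.ofReal_pow, Real.sq_sqrt zero_le_two]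
    norm_num
  have k : (Complex.I * (√2 : ℝ) : ℂ) ∈ A := by
    have := (A.valuation_le_one_iff _).2 (intCast_mem A (-2))
    rw [← e, map_pow] at this
    exact (A.valuation_le_one_iff _).1 ((pow_le_one_iff two_ne_zero).1 this)
  exact add_mem (intCast_mem A _) (mul_mem (intCast_mem A _) k)

/-- **HK** -/
theorem hkx (h0 : D0x) (hI : INTx) (hN : NZx) (hL : LIPx) (hG : GEOx) : HKx := by
  intro N _ a hN' h3 ha ι p hp j
  obtain ⟨A, hA⟩ := Hk.ex_ok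
  have hM : Odd (N ^ 3) := hN'.pow
  have h3' : 3 ∣ N ^ 3 := dvd_pow h3 three_ne_zero
  obtain ⟨m, H, d, hH, d1, e⟩ := h0 A hA N a hN' h3 ha (j + 1)
  obtain ⟨Z, hZ⟩ := hL A hA _ hM h3'
  obtain ⟨Λ, t, ω₀, τ₀, h, b, t1, t2, t3⟩ := hN A hA _ _ H d hM hH d1 Z
  obtain ⟨ρ, hρ⟩ := hG A hA
  obtain ⟨c, s, L, I, I'⟩ := hρ Λ t h t1
  obtain ⟨i, lip⟩ := hZ _ H d hH _ t2 (j + 1)
  have ch : Hk.Ch A (N ^ 3) fun x => (k3 x : ℂ) :=
    ⟨fun z => by
      rw [k3_congr (y := 1) (by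
        rw [add_sub_cancel_left]; exact Dvd.dvd.mul_left (by exact_mod_cast h3') _), k3_one,
        Int.cast_one], fun x y => by rw [k3_mul, Int.cast_mul], fun x => intCast_mem A _⟩
  obtain ⟨Ψ, E, h1⟩ := Hk.ex_ec (a := fun l => J (a l)) hA hM ch
    (fun f d x y z => hI A hA _ _ f d hM ⟨⟨x.mf, x.ch⟩, y, z⟩) ⟨hH.mf.mf, hH.mf.chi⟩ hH.sm hH.int
    (fun l => J_mem _) (fun l hl k => e l hl fun k' =>
      k (k'.trans (mul_dvd_mul_left 2 (dvd_pow_self N three_ne_zero)))) b t3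
    (fun g k => (I g k).toIso) (fun g k => (I g k).rd) I' lip j.succ_ne_zero
  obtain ⟨Q, _, κ, ψ, q0, q1, q2, q3, q4, q5⟩ := E.pack ch.mem (fun l => J_mem _) h1
  refine ⟨Q, inferInstance, (κ.comp (J.codRestrict A J_mem)).toModule, ψ,
    @Eigx.mk _ _ _ _ _ _ (_) _ ⟨j + 1, fun x => ?_⟩ q1 q2 (fun d x hd hx => ?_)
      fun l x hx => q4 _ (hp l).1 (hp l).2 x hx, 1,
    by rw [Cp, map_one]; exact isCoprime_one_left, ?_⟩
  · rw [nsmul_eq_mul, Nat.cast_pow, Nat.cast_ofNat, q0, zero_mul]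
  · rw [zsmul_eq_mul, q3 d x hd hx, zsmul_eq_mul, ← map_intCast κ]
    rfl
  · rwa [nsmul_eq_mul, Nat.cast_pow, Nat.cast_ofNat]

end Vale.Agent.P014Y.W1
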