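import Vale.Agent.P004M.D.Hk3

/-!
# P014Y, block W1, row HK: the Hecke operator on values of forms with a character
-/

set_option autoImplicit false
set_option linter.all false

open UpperHalfPlane CongruenceSubgroup
open scoped MatrixGroups ModularForm Real Classical

noncomputable section

namespace Vale.Agent.P014Y.W1.Hk

open Vale.Agent.P022 Vale.Agent.P022.H218.L3 Vale.Agent.P022K.UC Vale.Agent.P027H
open Vale.Agent.P004M.D Vale.Agent.P004M.D.Hk Hu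

variable {χ : ℤ → ℂ}

/-- a form with character -/
structure Mx (M k : ℕ) (χ : ℤ → ℂ) (f : ℍ → ℂ) : Prop where
  mf : IsMF (Gamma1 M) (k : ℤ) f
  ch : ∀ γ ∈ Gamma0 M, f ∣[(k : ℤ)] γ = χ (γ 1 1) • f

/-- the multipliers of the level structure -/
def eo (l : ℕ) : Option (Fin l) → ℤ
  | none => l
  | some _ => 1

theorem gd_11 {N d : ℕ} (h : Nat.Coprime d N) : (gd N d h 1 1 : ℤ) = d := by
  obtain ⟨a, b, -, e⟩ := H783.gd_coe h
  rw [e]
  simp

theorem Mx.dia {M k : ℕ} {H : ℍ → ℂ} (hH : Mx M k χ H) (l : PA M) :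
    dFun M k l H = χ l.1 • H := by
  rw [dFun, hH.ch _ (H783.gd_mem l.coprime), gd_11]

theorem tFun_apply {M k : ℕ} (l : PA M) {H : ℍ → ℂ} (hH : Mx M k χ H) (h1 : χ 1 = 1)
    (ω : ℂ) (τ : ℍ) : ∑ o, χ (eo l.1 o) * vl k H (wo l.1 ω o) (tn l.1 l.2.1.pos τ o) =
      l.1 * vl k (tFun M k l H) ω τ := by
  have l0 : (l.1 : ℂ) ≠ 0 := Nat.cast_ne_zero.2 l.2.1.ne_zero
  have l1 : (0 : ℚ) < l.1 := Nat.cast_pos.2 l.2.1.pos
  have e1 : ∀ j : Fin l.1, (H ∣[(k : ℤ)] up l.1 l.2.1.ne_zero j) τ =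
      (l.1 : ℂ)⁻¹ * H (tn l.1 l.2.1.pos τ (some j)) := fun j => by
    obtain ⟨τ', a, b⟩ := H783.slash_tri (f := H) (a := 1) (b := (j : ℕ)) (d := l.1)
      (by simpa using l.2.1.ne_zero) one_pos l1 k τ
    rw [up, b, show τ' = tn l.1 l.2.1.pos τ (some j) from UpperHalfPlane.ext (by simpa [tn] using a)]
    congr 1
    simp only [Rat.cast_one, one_mul, Rat.cast_natCast]
    rw [← zpow_add₀ l0, ← zpow_neg_one]
    congr 1
    ring
  have e2 : ((χ l.1 • H) ∣[(k : ℤ)] dn l.1 l.2.1.ne_zero) τ =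
      (l.1 : ℂ)⁻¹ * (l.1 : ℂ) ^ k * (χ l.1 * H (tn l.1 l.2.1.pos τ none)) := by
    obtain ⟨τ', a, b⟩ := H783.slash_tri (f := χ l.1 • H) (a := l.1) (b := 0) (d := 1)
      (by simpa using l.2.1.ne_zero) l1 one_pos k τ
    rw [dn, b, show τ' = tn l.1 l.2.1.pos τ none from UpperHalfPlane.ext (by simpa [tn] using a)]
    congr 1
    simp only [Rat.cast_one, mul_one, Rat.cast_natCast, one_zpow]
    rw [zpow_sub_one₀ l0, zpow_natCast, mul_comm]
  simp only [Fintype.sum_option, vl, tFun, hH.dia, Pi.add_apply, Finset.sum_apply, e1, e2, wo, eo,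
    h1, one_mul, ← Finset.mul_sum]
  rw [div_div_eq_mul_div, mul_div_right_comm, mul_pow]
  field_simp
  ring

/-- the Hecke operator on forms with character -/
theorem mx_tl {M k : ℕ} [NeZero M] (l : PA M) {H : ℍ → ℂ} {c : ℕ → ℂ}
    (h : Mx M (k + 1) χ H) (hs : Sm c H) : Mx M (k + 1) χ (tFun M (k + 1) l H) ∧
      Sm (fun n => c (l.1 * n) + if l.1 ∣ n then χ l.1 * (l.1 : ℂ) ^ k * c (n / l.1) else 0)
        (tFun M (k + 1) l H) := by
  let f : MF M (k + 1) := Ab.toMF h.mf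
  have e : ∀ s (hs : s ∈ Gamma0 M), H783.slG0 hs (k + 1) f = χ (s 1 1) • f := fun s hs =>
    DFunLike.coe_injective ((H783.slG0_coe hs _ f).trans (h.ch s hs))
  rw [show tFun M (k + 1) l H = H783.Tl (k + 1) l f from (H783.Tl_coe _ l f).symm]
  refine ⟨⟨isMF_of_form (Gamma1 M) _, fun s hs => ?_⟩, fun τ => ?_⟩
  · rw [← H783.slG0_coe hs, ← H783.Tl_slG0, e, map_smul]
    rfl
  · have := H783.hasSum_Tl (k + 1) l (f := f) (c := c) (c' := fun n => χ l.1 * c n) hs (fun τ => by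
      rw [H783.dia, e, gd_11]
      exact ((hs τ).mul_left (χ l.1)).congr_fun fun n => mul_assoc _ _ _) τ
    rw [show ((k + 1 : ℕ) : ℤ) - 1 = k by simp, zpow_natCast] at this
    simpa only [mul_left_comm, mul_assoc, smul_eq_mul] using this

theorem Mx.comb {M k : ℕ} {F G : ℍ → ℂ} (h : Mx M k χ F) (h' : Mx M k χ G) (a b : ℂ) :
    Mx M k χ (a • (F - b • G)) := ⟨(h.mf.sub (h'.mf.smul b)).smul _, fun γ hγ => by
  rw [sub_eq_add_neg, ← neg_smul b G, ModularForm.SL_smul_slash, SlashAction.add_slash,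
    ModularForm.SL_smul_slash, h.ch γ hγ, h'.ch γ hγ, smul_comm (-b), ← smul_add, smul_comm]⟩

variable {A : ValuationSubring ℂ}

theorem mx_eig {M k i : ℕ} [NeZero M] (l : PA M) {H : ℍ → ℂ} {c : ℕ → ℂ} {b : ℂ}
    (h : Mx M (k + 1) χ H) (hs : Sm c H) (e : ∀ n, A.valuation (c (l.1 * n) +
      (if l.1 ∣ n then χ l.1 * (l.1 : ℂ) ^ k * c (n / l.1) else 0) - b * c n) ≤
        A.valuation 2 ^ i) : ∃ G d, Mx M (k + 1) χ G ∧ Sm d G ∧ (∀ n, d n ∈ A) ∧
      ∀ τ, tFun M (k + 1) l H τ = b * H τ + 2 ^ i * G τ := by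
  obtain ⟨h1, h2⟩ := mx_tl l h hs
  have t0 : (2 : ℂ) ^ i ≠ 0 := pow_ne_zero _ two_ne_zero
  refine ⟨((2 : ℂ) ^ i)⁻¹ • (tFun M (k + 1) l H - b • H), fun n => ((2 : ℂ) ^ i)⁻¹ * (c (l.1 * n) +
      (if l.1 ∣ n then χ l.1 * (l.1 : ℂ) ^ k * c (n / l.1) else 0) - b * c n),
    h1.comb h _ _, fun τ => ?_, fun n => ?_, fun τ => ?_⟩
  · have := ((h2 τ).sub ((hs τ).mul_left b)).mul_left ((2 : ℂ) ^ i)⁻¹
    refine this.congr_fun fun n => ?_
    simp only [smul_eq_mul]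
    ring
  · rw [← A.valuation_le_one_iff, map_mul, map_inv₀, map_pow, inv_mul_le_iff₀
      (pow_pos (zero_lt_iff.2 ((map_ne_zero _).2 two_ne_zero)) _), mul_one]
    exact e n
  · simp only [Pi.smul_apply, Pi.sub_apply, smul_eq_mul]
    field_simp
    ring

theorem chi_mem {q : ℕ} (χ : DirichletCharacter ℂ q) (hq : q ≠ 0) (x : ZMod q) : χ x ∈ A := by
  haveI := NeZero.mk hq
  by_cases h : IsUnit x
  · obtain ⟨u, rfl⟩ := h
    have : A.valuation (χ u) ^ Fintype.card (ZMod q)ˣ = 1 := by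
      rw [← map_pow, ← map_pow, ← Units.val_pow_eq_pow_val, pow_card_eq_one, Units.val_one, map_one,
        map_one]
    exact (A.valuation_le_one_iff _).1 ((pow_eq_one_iff_of_nonneg zero_le Fintype.card_ne_zero).1 this).le
  · rw [χ.map_nonunit h]
    exact zero_mem A

end Vale.Agent.P014Y.W1.Hk
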