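import Vale.Agent.P004M.D.ThB

/-!
# P014Y, block W1: theta series of four squares with a character
-/

set_option autoImplicit false
set_option linter.all false

open Complex CongruenceSubgroup Vale.Agent.P022.H218.L3
open UpperHalfPlane hiding I
open scoped Real MatrixGroups ModularForm Nat

noncomputable section

namespace Vale.Agent.P014Y.W1

open Vale.Agent.P004M.D

theorem bdd_gr {N k : ℕ} [NeZero N] {F : ℍ → ℂ} (h : ∀ γ ∈ CongruenceSubgroup.Gamma N, F ∣[(k : ℤ)] γ = F)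
    {C : ℝ} (hC : ∀ τ : ℍ, ‖F τ‖ ≤ C / min τ.im 1 ^ k) (γ : SL(2, ℤ)) :
    IsBoundedAtImInfty (F ∣[(k : ℤ)] γ) := by
  have N0 : (0 : ℝ) < N := Nat.cast_pos.2 (NeZero.pos N)
  obtain ⟨K, hK⟩ : ∃ K : ℝ, K = |(γ 1 0 : ℝ)| * (N + 1) + |(γ 1 1 : ℝ)| + 1 := ⟨_, rfl⟩
  have K1 : 1 ≤ K := by rw [hK]; exact le_add_of_nonneg_left (by positivity)
  have C0 : 0 ≤ C := by simpa using (norm_nonneg _).trans (hC UpperHalfPlane.I)
  have key : ∀ z : ℍ, 1 ≤ z.im → |z.re| ≤ N → ‖(F ∣[(k : ℤ)] γ) z‖ ≤ C * K ^ k := fun z a b => by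
    have j0 := norm_pos_iff.2 (denom_ne_zero γ z)
    have j1 : 1 ≤ ‖denom γ z‖ := by
      rw [ModularGroup.denom_apply]
      by_cases c0 : γ 1 0 = 0
      · have := γ.det_coe
        rw [Matrix.det_fin_two, c0, mul_zero, sub_zero] at this
        rcases Int.eq_one_or_neg_one_of_mul_eq_one' this with e | e <;> simp [c0, e.2]
      · refine le_trans ?_ (abs_im_le_norm _)
        have : (1 : ℝ) ≤ |(γ 1 0 : ℝ)| := by exact_mod_cast Int.one_le_abs c0
        simpa [abs_mul, abs_of_pos z.im_pos] using one_le_mul_of_one_le_of_one_le this a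
    have j2 : ‖denom γ z‖ ≤ K * z.im := by
      rw [ModularGroup.denom_apply, hK]
      refine (norm_add_le _ _).trans ?_
      have := norm_le_abs_re_add_abs_im (z : ℂ)
      rw [coe_re, coe_im, abs_of_pos z.im_pos] at this
      rw [norm_mul, norm_intCast, norm_intCast]
      nlinarith [abs_nonneg (γ 1 0 : ℝ), abs_nonneg (γ 1 1 : ℝ),
        mul_le_mul_of_nonneg_left (this.trans (show _ ≤ (N + 1) * z.im by nlinarith))
          (abs_nonneg (γ 1 0 : ℝ))]
    have j3 : K⁻¹ ≤ min (γ • z).im 1 * ‖denom γ z‖ := by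
      rw [min_mul_of_nonneg _ _ j0.le, le_min_iff, ModularGroup.im_smul_eq_div_normSq,
        normSq_eq_norm_sq, one_mul]
      refine ⟨?_, (inv_le_one_of_one_le₀ K1).trans j1⟩
      rw [inv_le_iff_one_le_mul₀ (by positivity)]
      field_simp
      linarith
    rw [ModularForm.SL_slash_apply, norm_mul, norm_zpow, zpow_neg, zpow_natCast, ← div_eq_mul_inv]
    refine (div_le_div_of_nonneg_right (hC _) (by positivity)).trans ?_
    rw [div_div, ← mul_pow, ← div_inv_eq_mul C, ← inv_pow]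
    gcongr
  rw [isBoundedAtImInfty_iff]
  refine ⟨C * K ^ k, 1, fun z hz => ?_⟩
  obtain ⟨m, hm⟩ : ∃ m : ℤ, |z.re + (N * m : ℤ)| ≤ N := by
    refine ⟨-⌊z.re / N⌋, ?_⟩
    have a := Int.sub_floor_div_mul_nonneg z.re N0
    have b := Int.sub_floor_div_mul_lt z.re N0
    rw [abs_le]
    push_cast
    constructor <;> linarith
  have h1 := ((Gamma_normal N).conj_mem _
    (ModularGroup_T_pow_mem_Gamma N (N * m) (dvd_mul_right _ _)) γ)
  have h2 := congrFun (congrArg (· ∣[(k : ℤ)] γ) (h _ h1)) z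
  rw [← SlashAction.slash_mul, inv_mul_cancel_right, SlashAction.slash_mul,
    ModularForm.SL_slash_apply, ModularGroup.denom_apply, ModularGroup.coe_T_zpow] at h2
  have h3 := key (ModularGroup.T ^ (N * m : ℤ) • z) (by rwa [ModularGroup.im_T_zpow_smul])
    (by rwa [ModularGroup.re_T_zpow_smul])
  rw [← h2]
  simpa using h3

theorem gam_le {N : ℕ} {γ : SL(2, ℤ)} (h : γ ∈ CongruenceSubgroup.Gamma N) : γ ∈ Gamma1 N :=
  (Gamma1_mem _ _).2 ⟨(Gamma_mem.1 h).1, (Gamma_mem.1 h).2.2.2, (Gamma_mem.1 h).2.2.1⟩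

variable {f : (Fin 4 → ℤ) → ℂ} {ξ : Fin 4 → ℂ}

theorem slash_Th {M N : ℕ} [NeZero M] (hN : 4 * M ^ 2 ∣ N)
    (per : ∀ x y, f (x + (M : ℤ) • y) = f x) (hξ : sq4 ξ = 0) (n : ℕ) {γ : SL(2, ℤ)}
    (hγ : γ ∈ Gamma0 N) :
    Th f ξ n ∣[((n + 2 : ℕ) : ℤ)] γ = Th (fun x => f (γ 1 1 • x)) ξ n := by
  funext τ
  have h1 := (ZMod.intCast_zmod_eq_zero_iff_dvd _ _).1 (Gamma0_mem.1 hγ)
  have h2 := γ.det_coe
  rw [Matrix.det_fin_two] at h2
  obtain ⟨c, hc⟩ := (Int.natCast_dvd_natCast.2 hN).trans h1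
  push_cast at hc
  have h3 : ((γ • τ : ℍ) : ℂ) = (γ 0 0 * τ + γ 0 1) / (4 * M ^ 2 * c * τ + γ 1 1) := by
    rw [coe_specialLinearGroup_apply]
    simp [hc]
  have h4 := law_tm per hξ (hc ▸ h2) τ.im_pos (h3 ▸ (γ • τ).im_pos) n 0
  have h5 := den_ne (hc ▸ h2) τ.im_pos
  rw [zero_div, ← h3] at h4
  rw [ModularForm.SL_slash_apply, ModularGroup.denom_apply, Th, h4, hc, zpow_neg, zpow_natCast]
  push_cast at h5 ⊢
  rw [mul_right_comm, mul_inv_cancel₀ (pow_ne_zero _ h5), one_mul, Th]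

theorem isMF_Th1 {M N : ℕ} [NeZero M] [NeZero N] (hN : 4 * M ^ 2 ∣ N)
    (per : ∀ x y, f (x + (M : ℤ) • y) = f x) (hξ : sq4 ξ = 0) (n : ℕ) :
    IsMF (Gamma1 N) (n + 2 : ℕ) (Th f ξ n) := by
  obtain ⟨A, hA⟩ := bdd_per per
  have hs : ∀ γ ∈ Gamma1 N, Th f ξ n ∣[((n + 2 : ℕ) : ℤ)] γ = Th f ξ n := fun γ hγ => by
    rw [slash_Th hN per hξ n (Gamma1_in_Gamma0 N hγ)]
    obtain ⟨e, he⟩ := (Int.natCast_dvd_natCast.2 ((Dvd.intro (4 * M) (by ring)).trans hN)).trans
      ((ZMod.intCast_eq_intCast_iff_dvd_sub 1 (γ 1 1) N).1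
        (by rw [((Gamma1_mem _ _).1 hγ).2.1, Int.cast_one]))
    congr 1
    funext x
    rw [show γ 1 1 = 1 + M * e by linear_combination he, add_smul, one_smul, mul_smul, per]
  refine ⟨mem_Hol.2 (mdifferentiable_iff.2 fun z hz => ?_), hs, bdd_gr (fun γ h => hs γ (gam_le h))
    (C := A * n ! * Real.exp (4 * ‖ξ‖ ^ 2) * ∑' x, gz 1 x) fun τ => ?_⟩
  · have hz' : 0 < z.im := hz
    have h1 := differentiableOn_tsum_of_summable_norm (U := {w | z.im / 2 < w.im})
      (F := fun x w => tm f ξ n 0 w x) ((sm_gz (half_pos hz')).mul_left _)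
      (fun x => by unfold tm; fun_prop) (isOpen_lt continuous_const Complex.continuous_im)
      fun x w hw => tm_le hA n (half_pos hz') le_rfl (le_of_lt hw) x
    refine ((h1.differentiableAt ((isOpen_lt continuous_const Complex.continuous_im).mem_nhds
      (half_lt_self hz'))).differentiableWithinAt).congr (fun w hw => ?_) ?_
    · simp only [Function.comp, Th, ofComplex_apply_of_im_pos hw]
    · simp only [Function.comp, Th, ofComplex_apply_of_im_pos hz']
  · have u0 : 0 < min τ.im 1 := lt_min τ.im_pos one_pos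
    have u1 := min_le_right τ.im 1
    have A0 := (norm_nonneg _).trans (hA 0)
    generalize hu : min τ.im 1 = u at u0 u1
    refine (tsum_of_norm_bounded ((sm_gz u0).hasSum.mul_left _) (tm_le hA n u0 norm_zero.le
      (hu ▸ min_le_left _ _))).trans ((mul_le_mul (mul_le_mul_of_nonneg_left (Real.exp_le_exp.2
        (show _ ≤ 4 * ‖ξ‖ ^ 2 from ?_)) (by positivity)) (gz_le u0 u1)
          (tsum_nonneg fun _ => (Real.exp_pos _).le) (by positivity)).trans_eq (by ring))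
    rw [mul_zero, add_zero, div_le_iff₀ u0]
    nlinarith [mul_nonneg (mul_nonneg u0.le (sq_nonneg ‖ξ‖)) (sub_nonneg.2 u1)]

theorem Th_mul (c : ℂ) (n : ℕ) : Th (fun x => c * f x) ξ n = c • Th f ξ n := by
  funext τ
  simp only [Th, tm, mul_assoc c, tsum_mul_left, Pi.smul_apply, smul_eq_mul]

end Vale.Agent.P014Y.W1
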