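import Vale.Agent.P014Y.W1.Bg
import Vale.Agent.P004M.D.ThF

/-!
# P014Y, block W1: the assembly from the rows
-/

set_option autoImplicit false
set_option linter.all false

open UpperHalfPlane CongruenceSubgroup

noncomputable section

namespace Vale.Agent.P014Y.W1

open Vale.Agent.P022 Vale.Agent.P022K.UC Vale.Agent.P022K.UC.Hm Vale.Agent.P004M.D

theorem ucx_of (rt : RTx) (kil : KILx) {M : ℕ} [NeZero M] (h3 : 3 ∣ M) {a : ℕ → O} (h : EGx M a) :
    UCX (256 * M ^ 2) a := by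
  obtain ⟨C, hC⟩ := rt _ M _ _ (NeZero.ne M) h3 cp_Rp
    (h _ Subtype.val fun l => ⟨l.2.1, PA_not l⟩)
  exact ⟨C + 1, fun j P hP => hC j P (kil M h3 _ P fun i hi => hP i (by nlinarith))⟩

theorem Ewx.le {N : ℕ} {c : ℕ → O} (h : Ewx N c) (hb : ∀ l : PA N, ‖J (c l.1)‖ ≤ 2) (n : ℕ) :
    ‖J (c n)‖ ≤ ((n : ℝ) + 2) ^ 2 :=
  (eig_le (M := 2 * N) (A := 1) (c := fun n => J (c n)) (d := fun l => (k3 l : ℂ))
    (by simp [h.one]) (fun n hn => by simp [h.dep n hn]) (by simp [h.dep 0 (by simp)])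
    (fun l h1 h2 => ⟨(hb ⟨l, h1, h2⟩).trans (by exact_mod_cast h1.two_le.trans_eq (pow_one _).symm),
      by
        rw [Complex.norm_intCast]
        exact le_trans (by exact_mod_cast k3_abs l) (one_le_pow₀ (by exact_mod_cast h1.one_le)),
      fun n => by simpa [apply_ite] using congrArg J (h.hecke ⟨l, h1, h2⟩ n)⟩) n).trans
    (pow_le_pow_left₀ (Nat.cast_nonneg n) (by linarith) _)

theorem w0_of (q6 : Q6x) (hk : HKx) (rt : RTx) (kil : KILx) (ucb : UCBx) : W0x := by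
  intro E _ _ ι r hq o a ho o3 ha
  obtain ⟨N, _, χ, n0, n1, n2, c1, n3⟩ := q6 E ι r hq o a ho o3 fun l hl e =>
    ⟨(ha l hl e).1, (ha l hl e).2.2⟩
  have N3 : 3 ∣ N ^ 3 := (o3.trans n1).trans (dvd_pow_self N three_ne_zero)
  obtain ⟨N', _, u, hp⟩ : ∃ (N' : ℕ) (_ : NeZero N'), (UCX N' fun l => (χ l : O) * a l) ∧
      ∀ {l : ℕ}, l.Prime → (l ∣ N' ↔ l ∣ 2 * o) :=
    ⟨_, _, ucx_of rt kil N3 (hk N _ n0 (o3.trans n1) n3), fun hl => by
      rw [dvd_lev hl, hl.dvd_mul, hl.dvd_mul]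
      exact or_congr Iff.rfl ⟨fun e => n2 _ hl (hl.dvd_of_dvd_pow e),
        fun e => dvd_pow (e.trans n1) three_ne_zero⟩⟩
  have hp' : ∀ {l : ℕ}, l.Prime → (l ∣ 2 * N' ↔ l ∣ 2 * o) := fun hl =>
    ⟨fun e => (hl.dvd_mul.1 e).elim (·.mul_right o) (hp hl).1, fun e => ((hp hl).2 e).mul_left 2⟩
  obtain ⟨c, e1, e2, e3⟩ := ex_eig (M := 2 * o) (by omega) a fun l => (k3 l : O)
  have ec : Ewx o c := ⟨e1, e2, fun l => (e3 _ l.2.1 l.2.2).2⟩
  have c2 : ∀ n : ℕ, n.Coprime (2 * o) → (χ n : O) * χ n = 1 := fun n hn => by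
    have := c1 n (Nat.coprime_two_right.1 hn.coprime_mul_right_right).natCast
    rw [Int.cast_natCast, sq] at this
    exact_mod_cast this
  have ec' : Ewx N' fun n => (χ n : O) * c n := ⟨by simp [e1], fun n hn => by
      obtain ⟨p, p1, p2, p3⟩ := Nat.Prime.not_coprime_iff_dvd.1 hn
      rw [e2 n (Nat.Prime.not_coprime_iff_dvd.2 ⟨p, p1, p2, (hp' p1).1 p3⟩), mul_zero],
    fun l n => by
      have k := mt (hp' l.2.1).2 l.2.2
      have h1 := (e3 _ l.2.1 k).2 n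
      have h2 := c2 _ (l.2.1.coprime_iff_not_dvd.2 k)
      split_ifs at h1 ⊢ with h
      · obtain ⟨n, rfl⟩ := h
        simp only [Nat.mul_div_cancel_left _ l.2.1.pos, Nat.cast_mul, map_mul, Int.cast_mul] at h1 ⊢
        linear_combination (χ l.1 : O) * χ l.1 * χ n * h1 - (k3 l.1 : O) * χ n * c n * h2
      · simp only [Nat.cast_mul, map_mul, Int.cast_mul]
        linear_combination (χ l.1 : O) * χ n * h1⟩
  have hb : ∀ l : ℕ, l.Prime → ¬ l ∣ 2 * o → ‖J (c l)‖ ≤ 2 := fun l h1 h2 =>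
    (e3 l h1 h2).1 ▸ (ha l h1 h2).2.1
  obtain ⟨M, F, m0, m1, m2, f1, f2⟩ := ucb N' _ ((hp Nat.prime_two).2 (dvd_mul_right _ _))
    ((hp Nat.prime_three).2 (o3.mul_left 2)) ec' ⟨2, ec'.le fun l => by
      have k := mt (hp' l.2.1).2 l.2.2
      have h2 := congrArg (fun x => ‖J x‖) (c2 _ (l.2.1.coprime_iff_not_dvd.2 k))
      simp only [map_mul, norm_mul, map_one, norm_one] at h2
      rw [map_mul, norm_mul, (mul_self_eq_one_iff.1 h2).resolve_right fun e => by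
        linarith [norm_nonneg (J (χ l.1))], one_mul]
      exact hb _ l.2.1 k⟩
    (u.imp fun C h j P hP => by
      rw [show (fun l : PA N' => (χ l.1 : O) * c l.1) = fun l : PA N' => (χ l.1 : O) * a l.1 from
        funext fun l => by rw [(e3 _ l.2.1 (mt (hp' l.2.1).2 l.2.2)).1]]
      exact h j P hP)
  have : NeZero M := ⟨m0⟩
  obtain ⟨G, g1, g2⟩ := Mx.twist (k := 0) m1 f2 f1 fun x => χ x
  refine ⟨c, _, G, ec, fun l => (e3 _ l.2.1 l.2.2).1, by positivity, m1.mul_right _,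
    fun l hl e => (hl.dvd_mul.1 e).elim (fun e => (hp hl).1 (m2 l hl e)) fun e =>
      (hl.dvd_of_dvd_pow (n := 6) (by simpa using e)).mul_right o, ?_, g1⟩
  convert g2 using 2 with n
  by_cases hn : n.Coprime (2 * o)
  · rw [← map_intCast J, ← map_mul, ← mul_assoc, c2 n hn, one_mul]
  · simp [e2 n hn]

end Vale.Agent.P014Y.W1
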